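import Vale.Agent.P218N.J.Defs
import Vale.Agent.P218N.End.Ev

/-! Polygons and admissible contours. -/

open Filter Topology Metric Set Complex
open scoped ComplexConjugate

noncomputable section

namespace Vale.Agent.P218N.J

open Vale.Agent.P218N.End

variable {p q₁ q₂ q₃ : ℂ} {c K T : ℝ} {a : ℂ} {γ γ' : Path}

namespace PolyP

/-- the smooth step -/
def sm (u : ℝ) : ℝ := 3 * u ^ 2 - 2 * u ^ 3

/-- the position on the segment number `k` -/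
def ps (k t : ℝ) : ℝ := sm (cl (3 * t - k))

/-- the speed on the segment number `k` -/
def sp (k t : ℝ) : ℝ := 18 * cl (3 * t - k) * (1 - cl (3 * t - k))

theorem cl_of_nonpos {u : ℝ} (h : u ≤ 0) : cl u = 0 := by
  unfold cl
  rw [min_eq_left (h.trans zero_le_one), max_eq_left h]

theorem cl_of_one_le {u : ℝ} (h : 1 ≤ u) : cl u = 1 := by
  unfold cl
  rw [min_eq_right h, max_eq_right zero_le_one]

theorem cl_mono : Monotone cl := fun _ _ h => max_le_max le_rfl (min_le_min h le_rfl)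

theorem sm_lt {u v : ℝ} (hu : 0 ≤ u) (h : u < v) (hv : v ≤ 1) : sm u < sm v := by
  have h1 : sm v - sm u = (v - u) * (3 * u + 3 * v - 2 * u ^ 2 - 2 * u * v - 2 * v ^ 2) := by
    unfold sm
    ring
  have h2 : 0 < 3 * u + 3 * v - 2 * u ^ 2 - 2 * u * v - 2 * v ^ 2 := by
    nlinarith [mul_nonneg hu (sub_nonneg.2 hv), mul_pos (hu.trans_lt h) (sub_pos.2 (h.trans_le hv)),
      mul_nonneg hu (sub_nonneg.2 (h.le.trans hv)), mul_nonneg (hu.trans h.le) (sub_nonneg.2 hv)]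
  nlinarith [mul_pos (sub_pos.2 h) h2]

theorem sm_le {u v : ℝ} (hu : 0 ≤ u) (h : u ≤ v) (hv : v ≤ 1) : sm u ≤ sm v := by
  rcases h.eq_or_lt with rfl | h
  · exact le_rfl
  · exact (sm_lt hu h hv).le

theorem sm_zero : sm 0 = 0 := by simp [sm]

theorem sm_one : sm 1 = 1 := by norm_num [sm]

theorem sm_surj {σ : ℝ} (h : σ ∈ Icc (0 : ℝ) 1) : ∃ u ∈ Icc (0 : ℝ) 1, sm u = σ := by
  have hc : ContinuousOn sm (Icc 0 1) := by
    unfold sm
    fun_prop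
  have := intermediate_value_Icc zero_le_one hc
  rw [sm_zero, sm_one] at this
  exact this h

theorem ps_mem (k t : ℝ) : ps k t ∈ Icc (0 : ℝ) 1 :=
  ⟨sm_zero.ge.trans (sm_le le_rfl (cl_mem _).1 (cl_mem _).2),
    (sm_le (cl_mem _).1 (cl_mem _).2 le_rfl).trans sm_one.le⟩

theorem sp_nonneg (k t : ℝ) : 0 ≤ sp k t :=
  mul_nonneg (mul_nonneg (by norm_num) (cl_mem _).1) (sub_nonneg.2 (cl_mem _).2)

theorem ps_lo {k t : ℝ} (h : 3 * t ≤ k) : ps k t = 0 := by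
  rw [ps, cl_of_nonpos (by linarith), sm_zero]

theorem ps_hi {k t : ℝ} (h : k + 1 ≤ 3 * t) : ps k t = 1 := by
  rw [ps, cl_of_one_le (by linarith), sm_one]

theorem sp_lo {k t : ℝ} (h : 3 * t ≤ k) : sp k t = 0 := by
  rw [sp, cl_of_nonpos (by linarith)]
  ring

theorem sp_hi {k t : ℝ} (h : k + 1 ≤ 3 * t) : sp k t = 0 := by
  rw [sp, cl_of_one_le (by linarith)]
  ring

theorem ps_mono (k : ℝ) : Monotone (ps k) := fun _ _ h =>
  sm_le (cl_mem _).1 (cl_mono (by linarith)) (cl_mem _).2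

theorem continuous_sp (k : ℝ) : Continuous (sp k) := by
  have h : Continuous fun t : ℝ => cl (3 * t - k) := continuous_cl.comp (by fun_prop)
  unfold sp
  fun_prop

theorem bp_apply (k t : ℝ) : bp k t = (sp k t : ℝ) := by
  refine mkB_apply (f := fun t => ((sp k t : ℝ) : ℂ)) (continuous_ofReal.comp (continuous_sp k))
    (C := 18) (fun t => ?_) t
  rw [norm_real, Real.norm_of_nonneg (sp_nonneg k t)]
  unfold sp
  nlinarith [(cl_mem (3 * t - k)).1, (cl_mem (3 * t - k)).2]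

theorem hasDerivAt_smcl (u : ℝ) : HasDerivAt (fun u => sm (cl u)) (6 * cl u * (1 - cl u)) u := by
  have hc : Continuous fun u => 6 * cl u * (1 - cl u) := by
    have := continuous_cl
    fun_prop
  have h01 : ∀ v ∈ Icc (0 : ℝ) 1, ∫ x in (0 : ℝ)..v, 6 * cl x * (1 - cl x) = sm v := by
    intro v hv
    rw [intervalIntegral.integral_congr (g := fun x => 6 * x * (1 - x)) fun x hx => by
      rw [uIcc_of_le hv.1] at hx
      simp only [cl_of_mem (⟨hx.1, hx.2.trans hv.2⟩ : x ∈ Icc (0 : ℝ) 1)]]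
    rw [intervalIntegral.integral_eq_sub_of_hasDerivAt (f := sm) (fun x _ => ?_)
      (Continuous.intervalIntegrable (by fun_prop) _ _), sm_zero, sub_zero]
    refine (((hasDerivAt_pow 2 x).const_mul 3).sub
      ((hasDerivAt_pow 3 x).const_mul 2)).congr_deriv ?_
    push_cast
    ring
  have key : (fun u => sm (cl u)) = fun u => ∫ x in (0 : ℝ)..u, 6 * cl x * (1 - cl x) := by
    funext v
    rw [← h01 _ (cl_mem v), ← intervalIntegral.integral_add_adjacent_intervals (b := cl v) (c := v)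
      (hc.intervalIntegrable _ _) (hc.intervalIntegrable _ _), eq_comm, add_eq_left]
    rcases le_total v 0 with h | h
    · rw [intervalIntegral.integral_congr (g := fun _ => 0) fun x hx => ?_,
        intervalIntegral.integral_zero]
      rw [cl_of_nonpos h, uIcc_of_ge h] at hx
      simp [cl_of_nonpos hx.2]
    · rcases le_total v 1 with h' | h'
      · rw [cl_of_mem ⟨h, h'⟩, intervalIntegral.integral_same]
      · rw [intervalIntegral.integral_congr (g := fun _ => 0) fun x hx => ?_,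
          intervalIntegral.integral_zero]
        rw [cl_of_one_le h', uIcc_of_le h'] at hx
        simp [cl_of_one_le hx.1]
  rw [key]
  exact (hc.integral_hasStrictDerivAt 0 u).hasDerivAt

theorem hasDerivAt_ps (k t : ℝ) : HasDerivAt (ps k) (sp k t) t := by
  have h1 : HasDerivAt (fun t : ℝ => 3 * t - k) 3 t := by
    simpa using ((hasDerivAt_id t).const_mul 3).sub_const k
  refine ((hasDerivAt_smcl (3 * t - k)).comp t h1).congr_deriv ?_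
  unfold sp
  ring

theorem spt_bp {k : ℝ} (h0 : 0 ≤ k) (h2 : k ≤ 2) : Spt (bp k) := fun t ht => by
  rw [bp_apply]
  rcases not_and_or.1 ht with h | h
  · rw [sp_lo (by linarith [not_le.1 h]), ofReal_zero]
  · rw [sp_hi (by linarith [not_le.1 h]), ofReal_zero]

theorem pg_g (t : ℝ) : (pg p q₁ q₂ q₃).g t =
    sp 0 t * (q₁ - p) + sp 1 t * (q₂ - q₁) + sp 2 t * (q₃ - q₂) := by
  simp only [pg, BoundedContinuousFunction.add_apply, BoundedContinuousFunction.smul_apply,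
    bp_apply, smul_eq_mul]
  ring

/-- A path is constant outside of the unit interval. -/
theorem ze_eq (h : γ.Ok) (t : ℝ) : γ.ze t = γ.ze 0 + V p0 γ.g t := by
  have h1 : ∀ t, HasDerivAt (fun t => γ.ze t - V p0 γ.g t) 0 t := fun t =>
    ((h.der t).sub (h.spt.hasDerivAt_V p0 t)).congr_deriv (sub_self _)
  have h2 := is_const_of_deriv_eq_zero (fun t => (h1 t).differentiableAt)
    (fun t => (h1 t).deriv) t 0
  have h3 : V p0 γ.g 0 = 0 := V_self p0 γ.g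
  rw [h3] at h2
  linear_combination h2

theorem ze_cl (h : γ.Ok) (t : ℝ) : γ.ze (cl t) = γ.ze t := by
  rw [ze_eq h, V_cl, ← ze_eq h]

theorem hasDerivAt_re (h : γ.Ok) (t : ℝ) : HasDerivAt (fun t => (γ.ze t).re) (γ.g t).re t :=
  reCLM.hasFDerivAt.comp_hasDerivAt t (h.der t)

end PolyP

open PolyP

theorem pg_ok : (pg p q₁ q₂ q₃).Ok := by
  have h : Spt (pg p q₁ q₂ q₃).g :=
    (((spt_bp le_rfl (by norm_num)).smul _).add ((spt_bp zero_le_one (by norm_num)).smul _)).add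
      ((spt_bp (by norm_num) le_rfl).smul _)
  refine ⟨h, fun t => ?_⟩
  have h1 : ((pg p q₁ q₂ q₃).ze : ℝ → ℂ) = fun t => p + V p0 (pg p q₁ q₂ q₃).g t := by
    funext t
    simp [pg]
  rw [h1]
  exact (h.hasDerivAt_V p0 t).const_add p

/-- the explicit form of the polygon -/
theorem pg_ze (t : ℝ) : (pg p q₁ q₂ q₃).ze t =
    p + ps 0 t * (q₁ - p) + ps 1 t * (q₂ - q₁) + ps 2 t * (q₃ - q₂) := by
  have h1 : ∀ t, HasDerivAt (fun t => (pg p q₁ q₂ q₃).ze t -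
      (p + ps 0 t * (q₁ - p) + ps 1 t * (q₂ - q₁) + ps 2 t * (q₃ - q₂))) 0 t := fun t => by
    have h := (pg_ok.der (γ := pg p q₁ q₂ q₃) t).sub
      (((((hasDerivAt_ps 0 t).ofReal_comp.mul_const (q₁ - p)).const_add p).add
        ((hasDerivAt_ps 1 t).ofReal_comp.mul_const (q₂ - q₁))).add
        ((hasDerivAt_ps 2 t).ofReal_comp.mul_const (q₃ - q₂)))
    rw [pg_g, sub_self] at h
    exact h
  have h2 := is_const_of_deriv_eq_zero (fun t => (h1 t).differentiableAt)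
    (fun t => (h1 t).deriv) t 0
  have h3 : (pg p q₁ q₂ q₃).ze 0 = p := by
    have : V p0 (pg p q₁ q₂ q₃).g 0 = 0 := V_self p0 _
    change (p • (1 : BC) + V p0 (pg p q₁ q₂ q₃).g) 0 = p
    simp [this]
  simp only [h3, ps_lo (k := 0) (t := 0) (by norm_num), ps_lo (k := 1) (t := 0) (by norm_num),
    ps_lo (k := 2) (t := 0) (by norm_num), ofReal_zero] at h2
  linear_combination h2

theorem pg_ze1 {t : ℝ} (h : t ≤ 1 / 3) : (pg p q₁ q₂ q₃).ze t = p + ps 0 t * (q₁ - p) := by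
  rw [pg_ze, ps_lo (k := 1) (by linarith), ps_lo (k := 2) (by linarith)]
  simp

theorem pg_ze2 {t : ℝ} (h : 1 / 3 ≤ t) (h' : t ≤ 2 / 3) :
    (pg p q₁ q₂ q₃).ze t = q₁ + ps 1 t * (q₂ - q₁) := by
  rw [pg_ze, ps_hi (k := 0) (by linarith), ps_lo (k := 2) (by linarith)]
  simp

theorem pg_ze3 {t : ℝ} (h : 2 / 3 ≤ t) : (pg p q₁ q₂ q₃).ze t = q₂ + ps 2 t * (q₃ - q₂) := by
  rw [pg_ze, ps_hi (k := 0) (by linarith), ps_hi (k := 1) (by linarith)]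
  simp

theorem pg_g1 {t : ℝ} (h : t ≤ 1 / 3) : (pg p q₁ q₂ q₃).g t = sp 0 t * (q₁ - p) := by
  rw [pg_g, sp_lo (k := 1) (by linarith), sp_lo (k := 2) (by linarith)]
  simp

theorem pg_g2 {t : ℝ} (h : 1 / 3 ≤ t) (h' : t ≤ 2 / 3) :
    (pg p q₁ q₂ q₃).g t = sp 1 t * (q₂ - q₁) := by
  rw [pg_g, sp_hi (k := 0) (by linarith), sp_lo (k := 2) (by linarith)]
  simp

theorem pg_g3 {t : ℝ} (h : 2 / 3 ≤ t) : (pg p q₁ q₂ q₃).g t = sp 2 t * (q₃ - q₂) := by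
  rw [pg_g, sp_hi (k := 0) (by linarith), sp_hi (k := 1) (by linarith)]
  simp

theorem pg_zero : (pg p q₁ q₂ q₃).ze 0 = p := by
  rw [pg_ze1 (by norm_num), ps_lo (by norm_num)]
  simp

theorem pg_third : (pg p q₁ q₂ q₃).ze (1 / 3) = q₁ := by
  rw [pg_ze1 le_rfl, ps_hi (by norm_num)]
  simp

theorem pg_two_thirds : (pg p q₁ q₂ q₃).ze (2 / 3) = q₂ := by
  rw [pg_ze2 (by norm_num) le_rfl, ps_hi (by norm_num)]
  simp

theorem pg_one : (pg p q₁ q₂ q₃).ze 1 = q₃ := by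
  rw [pg_ze3 (by norm_num), ps_hi (by norm_num)]
  simp

theorem pg_cases (t : ℝ) : ∃ σ ∈ Icc (0 : ℝ) 1, ∃ b : ℝ, 0 ≤ b ∧
    ((t ≤ 1 / 3 ∧ (pg p q₁ q₂ q₃).ze t = p + σ * (q₁ - p) ∧ (pg p q₁ q₂ q₃).g t = b * (q₁ - p)) ∨
     (1 / 3 ≤ t ∧ t ≤ 2 / 3 ∧ (pg p q₁ q₂ q₃).ze t = q₁ + σ * (q₂ - q₁) ∧
        (pg p q₁ q₂ q₃).g t = b * (q₂ - q₁)) ∨
     (2 / 3 ≤ t ∧ (pg p q₁ q₂ q₃).ze t = q₂ + σ * (q₃ - q₂) ∧
        (pg p q₁ q₂ q₃).g t = b * (q₃ - q₂))) := by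
  rcases le_total t (1 / 3) with h | h
  · exact ⟨_, ps_mem 0 t, _, sp_nonneg 0 t, Or.inl ⟨h, pg_ze1 h, pg_g1 h⟩⟩
  · rcases le_total t (2 / 3) with h' | h'
    · exact ⟨_, ps_mem 1 t, _, sp_nonneg 1 t, Or.inr (Or.inl ⟨h, h', pg_ze2 h h', pg_g2 h h'⟩)⟩
    · exact ⟨_, ps_mem 2 t, _, sp_nonneg 2 t, Or.inr (Or.inr ⟨h', pg_ze3 h', pg_g3 h'⟩)⟩

theorem mem_seg_iff {p q z : ℂ} :
    z ∈ segment ℝ p q ↔ ∃ σ ∈ Icc (0 : ℝ) 1, p + σ * (q - p) = z := by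
  rw [segment_eq_image']
  simp only [mem_image, real_smul]

theorem pg_mem_img (t : ℝ) : (pg p q₁ q₂ q₃).ze t ∈ img p q₁ q₂ q₃ := by
  obtain ⟨σ, hσ, b, -, h | h | h⟩ := pg_cases (p := p) (q₁ := q₁) (q₂ := q₂) (q₃ := q₃) t
  · exact Or.inl (Or.inl (mem_seg_iff.2 ⟨σ, hσ, h.2.1.symm⟩))
  · exact Or.inl (Or.inr (mem_seg_iff.2 ⟨σ, hσ, h.2.2.1.symm⟩))
  · exact Or.inr (mem_seg_iff.2 ⟨σ, hσ, h.2.1.symm⟩)

theorem PolyP.ps_surj (k : ℝ) {σ : ℝ} (h : σ ∈ Icc (0 : ℝ) 1) :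
    ∃ t, k ≤ 3 * t ∧ 3 * t ≤ k + 1 ∧ ps k t = σ := by
  obtain ⟨u, hu, rfl⟩ := sm_surj h
  refine ⟨(u + k) / 3, by linarith [hu.1], by linarith [hu.2], ?_⟩
  rw [ps, show 3 * ((u + k) / 3) - k = u by ring, cl_of_mem hu]

theorem pg_surj1 {z : ℂ} (hz : z ∈ segment ℝ p q₁) :
    ∃ t ∈ Icc (0 : ℝ) (1 / 3), (pg p q₁ q₂ q₃).ze t = z := by
  obtain ⟨σ, hσ, rfl⟩ := mem_seg_iff.1 hz
  obtain ⟨t, h1, h2, rfl⟩ := ps_surj 0 hσ
  exact ⟨t, ⟨by linarith, by linarith⟩, pg_ze1 (by linarith)⟩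

theorem pg_surj2 {z : ℂ} (hz : z ∈ segment ℝ q₁ q₂) :
    ∃ t ∈ Icc (1 / 3 : ℝ) (2 / 3), (pg p q₁ q₂ q₃).ze t = z := by
  obtain ⟨σ, hσ, rfl⟩ := mem_seg_iff.1 hz
  obtain ⟨t, h1, h2, rfl⟩ := ps_surj 1 hσ
  exact ⟨t, ⟨by linarith, by linarith⟩, pg_ze2 (by linarith) (by linarith)⟩

theorem pg_surj3 {z : ℂ} (hz : z ∈ segment ℝ q₂ q₃) :
    ∃ t ∈ Icc (2 / 3 : ℝ) 1, (pg p q₁ q₂ q₃).ze t = z := by
  obtain ⟨σ, hσ, rfl⟩ := mem_seg_iff.1 hz
  obtain ⟨t, h1, h2, rfl⟩ := ps_surj 2 hσ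
  exact ⟨t, ⟨by linarith, by linarith⟩, pg_ze3 (by linarith)⟩

theorem pg_surj {z : ℂ} (hz : z ∈ img p q₁ q₂ q₃) :
    ∃ t ∈ Icc (0 : ℝ) 1, (pg p q₁ q₂ q₃).ze t = z := by
  rcases hz with (hz | hz) | hz
  · obtain ⟨t, ht, h⟩ := pg_surj1 (q₂ := q₂) (q₃ := q₃) hz
    exact ⟨t, ⟨ht.1, by linarith [ht.2]⟩, h⟩
  · obtain ⟨t, ht, h⟩ := pg_surj2 (p := p) (q₃ := q₃) hz
    exact ⟨t, ⟨by linarith [ht.1], by linarith [ht.2]⟩, h⟩
  · obtain ⟨t, ht, h⟩ := pg_surj3 (p := p) (q₁ := q₁) hz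
    exact ⟨t, ⟨by linarith [ht.1], ht.2⟩, h⟩

theorem pg_norm_le {B : ℝ} (h0 : ‖p‖ ≤ B) (h1 : ‖q₁‖ ≤ B) (h2 : ‖q₂‖ ≤ B) (h3 : ‖q₃‖ ≤ B)
    (t : ℝ) : ‖(pg p q₁ q₂ q₃).ze t‖ ≤ B := by
  have hc := convex_closedBall (0 : ℂ) B
  rw [← mem_closedBall_zero_iff] at h0 h1 h2 h3 ⊢
  rcases pg_mem_img (p := p) (q₁ := q₁) (q₂ := q₂) (q₃ := q₃) t with (h | h) | h
  · exact hc.segment_subset h0 h1 h
  · exact hc.segment_subset h1 h2 h
  · exact hc.segment_subset h2 h3 h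

theorem pg_strictMono (h1 : p.re < q₁.re) (h2 : q₁.re < q₂.re) (h3 : q₂.re < q₃.re) :
    StrictMonoOn (fun t => ((pg p q₁ q₂ q₃).ze t).re) (Icc 0 1) := by
  intro s hs t ht hst
  have hre : ∀ t, ((pg p q₁ q₂ q₃).ze t).re =
      p.re + ps 0 t * (q₁.re - p.re) + ps 1 t * (q₂.re - q₁.re) + ps 2 t * (q₃.re - q₂.re) :=
    fun t => by simp [pg_ze]
  have key : ∀ k : ℝ, k ≤ 3 * s → 3 * s < k + 1 → ps k s < ps k t := fun k a b => by
    refine sm_lt (cl_mem _).1 ?_ (cl_mem _).2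
    rw [cl_of_mem ⟨by linarith, by linarith⟩]
    exact lt_max_of_lt_right (lt_min (by linarith) (by linarith))
  have m0 := mul_le_mul_of_nonneg_right (ps_mono 0 hst.le) (sub_pos.2 h1).le
  have m1 := mul_le_mul_of_nonneg_right (ps_mono 1 hst.le) (sub_pos.2 h2).le
  have m2 := mul_le_mul_of_nonneg_right (ps_mono 2 hst.le) (sub_pos.2 h3).le
  simp only [hre]
  rcases lt_or_ge (3 * s) 1 with a | a
  · linarith [mul_lt_mul_of_pos_right (key 0 (by linarith [hs.1]) (by linarith)) (sub_pos.2 h1)]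
  · rcases lt_or_ge (3 * s) 2 with b | b
    · linarith [mul_lt_mul_of_pos_right (key 1 a (by linarith)) (sub_pos.2 h2)]
    · linarith [mul_lt_mul_of_pos_right (key 2 b (by linarith [ht.2])) (sub_pos.2 h3)]

/-- the length of the last two segments -/
theorem pg_len : ∫ t in (1 / 3 : ℝ)..1, ‖(pg p q₁ q₂ q₃).g t‖ = ‖q₂ - q₁‖ + ‖q₃ - q₂‖ := by
  rw [intervalIntegral.integral_congr (g := fun t => sp 1 t * ‖q₂ - q₁‖ + sp 2 t * ‖q₃ - q₂‖)
    fun t ht => ?_]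
  · rw [intervalIntegral.integral_eq_sub_of_hasDerivAt
      (f := fun t => ps 1 t * ‖q₂ - q₁‖ + ps 2 t * ‖q₃ - q₂‖)
      (fun t _ => ((hasDerivAt_ps 1 t).mul_const _).add ((hasDerivAt_ps 2 t).mul_const _))
      ((((continuous_sp 1).mul continuous_const).add
        ((continuous_sp 2).mul continuous_const)).intervalIntegrable _ _),
      ps_hi (k := 1) (by norm_num), ps_hi (k := 2) (by norm_num), ps_lo (k := 1) (by norm_num),
      ps_lo (k := 2) (by norm_num)]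
    ring
  · rw [uIcc_of_le (by norm_num)] at ht
    rcases le_total t (2 / 3) with h | h
    · simp only [pg_g2 ht.1 h, sp_lo (k := 2) (t := t) (by linarith), norm_mul, norm_real,
        Real.norm_of_nonneg (sp_nonneg 1 t), zero_mul, add_zero]
    · simp only [pg_g3 h, sp_hi (k := 1) (t := t) (by linarith), norm_mul, norm_real,
        Real.norm_of_nonneg (sp_nonneg 2 t), zero_mul, zero_add]

theorem SegOK.re_lt (hc : 0 < c) {p q : ℂ} (h : SegOK c K a p q) : p.re < q.re := by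
  have h1 := mul_pos hc (norm_pos_iff.2 (sub_ne_zero.2 h.1.symm))
  have h2 := h.2.1
  rw [sub_re] at h2
  linarith

theorem SegOK.mono {c' : ℝ} {p q : ℂ} (h : SegOK c K a p q) (hc : c' ≤ c) : SegOK c' K a p q :=
  ⟨h.1, (mul_le_mul_of_nonneg_right hc (norm_nonneg _)).trans h.2.1, fun X hX =>
    ⟨(mul_le_mul_of_nonneg_right hc (by positivity)).trans (h.2.2 X hX).1, (h.2.2 X hX).2⟩⟩

theorem SegOK.adm (hc : 0 < c) {p q : ℂ} (h : SegOK c K a p q) {σ b : ℝ} (hσ : σ ∈ Icc (0 : ℝ) 1)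
    (hb : 0 ≤ b) {z w : ℂ} (hz : z = p + σ * (q - p)) (hw : w = b * (q - p)) :
    (∃ u : ℂ, ‖u‖ = 1 ∧ c ≤ u.re ∧ c * ‖Om a z‖ ≤ (conj u * Om a z).re ∧ w = (‖w‖ : ℝ) * u) ∧
      K ≤ ‖Om a z‖ := by
  have hn : 0 < ‖q - p‖ := norm_pos_iff.2 (sub_ne_zero.2 h.1.symm)
  set n := ‖q - p‖ with hn'
  have w1 : 0 ≤ (1 - σ) ^ 2 := sq_nonneg _
  have w2 : 0 ≤ 2 * σ * (1 - σ) := mul_nonneg (mul_nonneg zero_le_two hσ.1) (sub_nonneg.2 hσ.2)
  have w3 : 0 ≤ σ ^ 2 := sq_nonneg _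
  have hO : Om a z = ((1 - σ) ^ 2 : ℝ) * Om a p + (2 * σ * (1 - σ) : ℝ) * Bq a p q +
      (σ ^ 2 : ℝ) * Om a q := by
    rw [hz]
    unfold Om Bq rh
    push_cast
    ring
  obtain ⟨a1, b1⟩ := h.2.2 (Om a p) (by simp)
  obtain ⟨a2, b2⟩ := h.2.2 (Bq a p q) (by simp)
  obtain ⟨a3, b3⟩ := h.2.2 (Om a q) (by simp)
  have hre : (conj (q - p) * Om a z).re = (1 - σ) ^ 2 * (conj (q - p) * Om a p).re +
      2 * σ * (1 - σ) * (conj (q - p) * Bq a p q).re + σ ^ 2 * (conj (q - p) * Om a q).re := by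
    rw [hO, mul_add, mul_add, mul_left_comm, mul_left_comm _ _ (Bq a p q),
      mul_left_comm _ _ (Om a q), add_re, add_re, re_ofReal_mul, re_ofReal_mul, re_ofReal_mul]
  have hno : ‖Om a z‖ ≤ (1 - σ) ^ 2 * ‖Om a p‖ + 2 * σ * (1 - σ) * ‖Bq a p q‖ +
      σ ^ 2 * ‖Om a q‖ := by
    rw [hO]
    refine (norm_add₃_le).trans (le_of_eq ?_)
    rw [norm_mul, norm_mul, norm_mul, norm_real, norm_real, norm_real, Real.norm_of_nonneg w1,
      Real.norm_of_nonneg w2, Real.norm_of_nonneg w3]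
  have k1 : c * (n * ‖Om a z‖) ≤ (conj (q - p) * Om a z).re := by
    rw [hre]
    nlinarith [mul_le_mul_of_nonneg_left hno (mul_pos hc hn).le, mul_le_mul_of_nonneg_left a1 w1,
      mul_le_mul_of_nonneg_left a2 w2, mul_le_mul_of_nonneg_left a3 w3]
  have k2 : K * n ≤ (conj (q - p) * Om a z).re := by
    rw [hre]
    nlinarith [mul_le_mul_of_nonneg_left b1 w1, mul_le_mul_of_nonneg_left b2 w2,
      mul_le_mul_of_nonneg_left b3 w3]
  refine ⟨⟨(n⁻¹ : ℝ) * (q - p), ?_, ?_, ?_, ?_⟩, ?_⟩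
  · rw [norm_mul, norm_real, Real.norm_of_nonneg (inv_nonneg.2 hn.le), inv_mul_cancel₀ hn.ne']
  · rw [re_ofReal_mul, le_inv_mul_iff₀ hn, mul_comm]
    exact h.2.1
  · rw [map_mul, conj_ofReal, mul_assoc, re_ofReal_mul, le_inv_mul_iff₀ hn]
    linarith
  · rw [hw, norm_mul, norm_real, Real.norm_of_nonneg hb, ← hn']
    have : (n : ℂ) ≠ 0 := ofReal_ne_zero.2 hn.ne'
    push_cast
    field_simp
  · have h4 := re_le_norm (conj (q - p) * Om a z)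
    rw [norm_mul, norm_conj, ← hn'] at h4
    exact le_of_mul_le_mul_right (by linarith) hn

/-- on the segment `Ω` is a convex combination of `Om a p`, `Bq a p q`, `Om a q` -/
theorem admP_pg (hc : 0 < c) (h1 : SegOK c K a T q₁) (h2 : SegOK c K a q₁ q₂)
    (h3 : SegOK c K a q₂ q₃) : AdmP c K T a (pg T q₁ q₂ q₃) := by
  have key : ∀ t, (∃ u : ℂ, ‖u‖ = 1 ∧ c ≤ u.re ∧
      c * ‖Om a ((pg T q₁ q₂ q₃).ze t)‖ ≤ (conj u * Om a ((pg T q₁ q₂ q₃).ze t)).re ∧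
      (pg T q₁ q₂ q₃).g t = (‖(pg T q₁ q₂ q₃).g t‖ : ℝ) * u) ∧
      K ≤ ‖Om a ((pg T q₁ q₂ q₃).ze t)‖ := fun t => by
    obtain ⟨σ, hσ, b, hb, h | h | h⟩ := pg_cases (p := T) (q₁ := q₁) (q₂ := q₂) (q₃ := q₃) t
    · exact h1.adm hc hσ hb h.2.1 h.2.2
    · exact h2.adm hc hσ hb h.2.2.1 h.2.2.2
    · exact h3.adm hc hσ hb h.2.1 h.2.2
  exact ⟨pg_ok, pg_zero, fun t => (key t).1, fun t => (key t).2⟩

theorem differentiableOn_pg {E : Type} [NormedAddCommGroup E] [NormedSpace ℂ E] {U : Set E}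
    {p q₁ q₂ q₃ : E → ℂ} (h0 : DifferentiableOn ℂ p U) (h1 : DifferentiableOn ℂ q₁ U)
    (h2 : DifferentiableOn ℂ q₂ U) (h3 : DifferentiableOn ℂ q₃ U) :
    DifferentiableOn ℂ (fun x => (pg (p x) (q₁ x) (q₂ x) (q₃ x)).ze) U ∧
      DifferentiableOn ℂ (fun x => (pg (p x) (q₁ x) (q₂ x) (q₃ x)).g) U := by
  have hg : DifferentiableOn ℂ (fun x => (pg (p x) (q₁ x) (q₂ x) (q₃ x)).g) U :=
    (((h1.sub h0).smul_const (bp 0)).add ((h2.sub h1).smul_const (bp 1))).add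
      ((h3.sub h2).smul_const (bp 2))
  exact ⟨(h0.smul_const (1 : BC)).add ((V p0).differentiable.comp_differentiableOn hg), hg⟩

theorem Rep.refl (γ : Path) : Rep id γ γ 1 :=
  ⟨continuousOn_id, monotoneOn_id, mapsTo_id _, rfl, rfl, fun _ _ => rfl⟩

theorem exists_rep (h : γ.Ok) (h' : γ'.Ok)
    (hs : StrictMonoOn (fun t => (γ.ze t).re) (Icc 0 1))
    (hm : MonotoneOn (fun t => (γ'.ze t).re) (Icc 0 1)) (h0 : γ'.ze 0 = γ.ze 0) {t₀ : ℝ}
    (ht : t₀ ∈ Icc (0 : ℝ) 1) (h1 : γ'.ze 1 = γ.ze t₀)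
    (hi : ∀ t ∈ Icc (0 : ℝ) 1, ∃ u ∈ Icc (0 : ℝ) 1, γ'.ze t = γ.ze u) : ∃ φ, Rep φ γ γ' t₀ := by
  have _ := h
  have _ := h'
  choose! φ hφ he using hi
  have inj : ∀ u ∈ Icc (0 : ℝ) 1, ∀ v ∈ Icc (0 : ℝ) 1, γ.ze u = γ.ze v → u = v :=
    fun u hu v hv huv => hs.injOn hu hv (congrArg re huv)
  have z0 : (0 : ℝ) ∈ Icc (0 : ℝ) 1 := ⟨le_rfl, zero_le_one⟩
  have z1 : (1 : ℝ) ∈ Icc (0 : ℝ) 1 := ⟨zero_le_one, le_rfl⟩
  refine ⟨φ, ?_, fun s hs' t ht' hst => ?_, hφ, inj _ (hφ 0 z0) _ z0 ((he 0 z0).symm.trans h0),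
    inj _ (hφ 1 z1) _ ht ((he 1 z1).symm.trans h1), he⟩
  · refine continuousOn_iff_isClosed.2 fun C hC => ⟨γ'.ze ⁻¹' (γ.ze '' (Icc 0 1 ∩ C)),
      ((isCompact_Icc.inter_right hC).image γ.ze.continuous).isClosed.preimage γ'.ze.continuous, ?_⟩
    ext t
    constructor
    · rintro ⟨h1, h2⟩
      exact ⟨⟨φ t, ⟨hφ t h2, h1⟩, (he t h2).symm⟩, h2⟩
    · rintro ⟨⟨u, hu, h1⟩, h2⟩
      refine ⟨?_, h2⟩
      rw [mem_preimage, ← inj u hu.1 _ (hφ t h2) (h1.trans (he t h2))]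
      exact hu.2
  · have h2 := hm hs' ht' hst
    simp only [he s hs', he t ht'] at h2
    exact (hs.le_iff_le (hφ s hs') (hφ t ht')).1 h2

theorem rep_pg {r₁ r₂ r₃ : ℂ} (h1 : p.re < q₁.re) (h2 : q₁.re < q₂.re) (h3 : q₂.re < q₃.re)
    (k1 : p.re < r₁.re) (k2 : r₁.re < r₂.re) (k3 : r₂.re < r₃.re)
    (hi : img p r₁ r₂ r₃ ⊆ img p q₁ q₂ q₃) {t₀ : ℝ} (ht : t₀ ∈ Icc (0 : ℝ) 1)
    (he : (pg p q₁ q₂ q₃).ze t₀ = r₃) : ∃ φ, Rep φ (pg p q₁ q₂ q₃) (pg p r₁ r₂ r₃) t₀ :=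
  exists_rep pg_ok pg_ok (pg_strictMono h1 h2 h3) (pg_strictMono k1 k2 k3).monotoneOn
    (pg_zero.trans pg_zero.symm) ht (pg_one.trans he.symm) fun t _ => by
      obtain ⟨u, hu, h⟩ := pg_surj (hi (pg_mem_img t))
      exact ⟨u, hu, h.symm⟩

namespace AdmP

theorem re_g (h : AdmP c K T a γ) (t : ℝ) : c * ‖γ.g t‖ ≤ (γ.g t).re := by
  obtain ⟨u, -, hu, -, hg⟩ := h.dir t
  have h1 := congrArg re hg
  rw [re_ofReal_mul] at h1
  rw [h1, mul_comm]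
  exact mul_le_mul_of_nonneg_left hu (norm_nonneg _)

theorem mono_re (hc : 0 < c) (h : AdmP c K T a γ) : Monotone fun t => (γ.ze t).re :=
  monotone_of_deriv_nonneg (fun t => (hasDerivAt_re h.ok t).differentiableAt) fun t => by
    rw [(hasDerivAt_re h.ok t).deriv]
    exact (mul_nonneg hc.le (norm_nonneg _)).trans (h.re_g t)

theorem T_le (hc : 0 < c) (h : AdmP c K T a γ) (t : ℝ) : T ≤ (γ.ze t).re := by
  have h1 := h.mono_re hc (cl_mem t).1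
  simp only [h.st, ofReal_re, ze_cl h.ok] at h1
  exact h1

theorem slit (hc : 0 < c) (hK : 0 < K) (h : AdmP c K T a γ) (t : ℝ) :
    Om a (γ.ze t) ∈ slitPlane := by
  obtain ⟨u, -, hu, hO, -⟩ := h.dir t
  have h1 := mul_pos hc (hK.trans_le (h.big t))
  by_contra hn
  rw [mem_slitPlane_iff, not_or, not_lt, not_not] at hn
  rw [mul_re, hn.2, mul_zero, sub_zero, conj_re] at hO
  nlinarith [mul_nonneg (hc.le.trans hu) (neg_nonneg.2 hn.1)]

theorem int_exp (hc : 0 < c) (h : AdmP c K T a γ) {t₀ t₁ : ℝ} (ht : t₀ ≤ t₁) :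
    ∫ t in t₀..t₁, ‖γ.g t‖ * Real.exp (-((γ.ze t).re / 4)) ≤
      4 / c * Real.exp (-((γ.ze t₀).re / 4)) := by
  have hg := γ.g.continuous
  have hz := γ.ze.continuous
  have hd : ∀ t, HasDerivAt (fun t => -(4 / c) * Real.exp (-((γ.ze t).re / 4)))
      ((γ.g t).re / c * Real.exp (-((γ.ze t).re / 4))) t := fun t => by
    refine ((((hasDerivAt_re h.ok t).div_const 4).neg.exp).const_mul (-(4 / c))).congr_deriv ?_
    simp only [Pi.neg_apply]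
    ring
  refine (intervalIntegral.integral_mono_on (g := fun t => (γ.g t).re / c *
    Real.exp (-((γ.ze t).re / 4))) ht (Continuous.intervalIntegrable (by fun_prop) _ _)
    (Continuous.intervalIntegrable (by fun_prop) _ _) fun t _ => ?_).trans ?_
  · refine mul_le_mul_of_nonneg_right ?_ (Real.exp_pos _).le
    rw [le_div_iff₀ hc, mul_comm]
    exact h.re_g t
  · rw [intervalIntegral.integral_eq_sub_of_hasDerivAt (fun t _ => hd t)
      (Continuous.intervalIntegrable (by fun_prop) _ _)]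
    have : 0 ≤ 4 / c * Real.exp (-((γ.ze t₁).re / 4)) := by positivity
    linarith

theorem binv_ze (hc : 0 < c) (hT : 0 < T) (h : AdmP c K T a γ) (t : ℝ) :
    binv γ.ze t = (γ.ze t)⁻¹ :=
  binv_apply hT (fun t => (h.T_le hc t).trans (re_le_norm _)) t

theorem rho_apply (a : ℂ) (γ : Path) (t : ℝ) : γ.rho a t = rh a (γ.ze t) := rfl

theorem binv_rho (hK : 0 < K) (h : AdmP c K T a γ) (t : ℝ) :
    binv (γ.rho a) t = (rh a (γ.ze t))⁻¹ := by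
  have hp : 0 < ‖γ.ze‖ + 1 := by positivity
  refine binv_apply (c := K / (‖γ.ze‖ + 1)) (by positivity) (fun t => ?_) t
  have h1 := h.big t
  rw [Om, norm_mul] at h1
  rw [rho_apply, div_le_iff₀ hp]
  nlinarith [γ.ze.norm_coe_le_norm t, norm_nonneg (rh a (γ.ze t))]

theorem io_apply (hc : 0 < c) (hK : 0 < K) (hT : 0 < T) (h : AdmP c K T a γ) (t : ℝ) :
    (γ.cyl a).io t = (Om a (γ.ze t))⁻¹ := by
  change binv γ.ze t * binv (γ.rho a) t = _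
  rw [h.binv_ze hc hT, h.binv_rho hK, Om, mul_inv]

end AdmP

/-- the disc of admissible slopes is small compared with `ρ₀` -/
theorem rd_le_rh (hK : 0 < K) {ah : ℂ} {rd : ℝ} (h : ∀ a ∈ closedBall ah rd, AdmP c K T a γ)
    (ha : ‖a - ah‖ ≤ rd / 2) (t : ℝ) : rd / 2 * ‖γ.ze t - 2‖ ≤ ‖rh a (γ.ze t)‖ := by
  by_contra hn
  rw [not_le] at hn
  have h0 : γ.ze t - 2 ≠ 0 := fun h0 => by
    rw [h0, norm_zero, mul_zero] at hn
    exact absurd hn (not_lt.2 (norm_nonneg _))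
  have h1 : ‖rh a (γ.ze t) / (γ.ze t - 2)‖ ≤ rd / 2 := by
    rw [norm_div, div_le_iff₀ (norm_pos_iff.2 h0)]
    exact hn.le
  have h2 := (h (a - rh a (γ.ze t) / (γ.ze t - 2)) (by
    rw [mem_closedBall, dist_eq_norm, sub_right_comm]
    linarith [norm_sub_le (a - ah) (rh a (γ.ze t) / (γ.ze t - 2))])).big t
  have h3 : rh (a - rh a (γ.ze t) / (γ.ze t - 2)) (γ.ze t) = 0 := by
    rw [rh, sub_mul, div_mul_cancel₀ _ h0, rh]
    ring
  rw [Om, h3, mul_zero, norm_zero] at h2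
  exact absurd h2 (not_le.2 hK)

end Vale.Agent.P218N.J
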