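import Vale.Agent.P218N.J.Ctx
import Vale.Agent.P218N.J.Poly

/-! Concatenated contours and good states. -/

open Filter Topology Metric Set Complex
open scoped ComplexConjugate

noncomputable section

namespace Vale.Agent.P218N.J

open Vale.Agent.P218N.End

variable {γ γ' γ₁ γ₂ : Path} {T P c K : ℝ} {a p q q₁ q₂ q₃ : ℂ}

namespace CatP

theorem cat_ze (γ₁ γ₂ : Path) (t : ℝ) :
    (cat γ₁ γ₂).ze t = γ₁.ze (2 * t) + γ₂.ze (2 * t - 1) - γ₁.ze 1 := by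
  change γ₁.ze (2 * t - 0) + γ₂.ze (2 * t - 1) - γ₁.ze 1 • (1 : ℂ) = _
  rw [sub_zero, smul_eq_mul, mul_one]

theorem cat_g (γ₁ γ₂ : Path) (t : ℝ) :
    (cat γ₁ γ₂).g t = 2 * γ₁.g (2 * t) + 2 * γ₂.g (2 * t - 1) := by
  change (2 : ℂ) • γ₁.g (2 * t - 0) + (2 : ℂ) • γ₂.g (2 * t - 1) = _
  rw [sub_zero, smul_eq_mul, smul_eq_mul]

theorem spt_le {f : BC} (h : Spt f) {t : ℝ} (ht : t ≤ 0) : f t = 0 := by
  have h1 : IsClosed {t | f t = 0} := isClosed_eq f.continuous continuous_const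
  have h2 : Iio (0 : ℝ) ⊆ {t | f t = 0} := fun t ht => h t fun h' => absurd h'.1 (not_le.2 ht)
  have h3 := h1.closure_subset_iff.2 h2
  rw [closure_Iio] at h3
  exact h3 ht

theorem spt_ge {f : BC} (h : Spt f) {t : ℝ} (ht : 1 ≤ t) : f t = 0 := by
  have h1 : IsClosed {t | f t = 0} := isClosed_eq f.continuous continuous_const
  have h2 : Ioi (1 : ℝ) ⊆ {t | f t = 0} := fun t ht => h t fun h' => absurd h'.2 (not_le.2 ht)
  have h3 := h1.closure_subset_iff.2 h2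
  rw [closure_Ioi] at h3
  exact h3 ht

theorem ze_le (h : γ.Ok) {t : ℝ} (ht : t ≤ 0) : γ.ze t = γ.ze 0 := by
  rw [← PolyP.ze_cl h t, PolyP.cl_of_nonpos ht]

theorem ze_ge (h : γ.Ok) {t : ℝ} (ht : 1 ≤ t) : γ.ze t = γ.ze 1 := by
  rw [← PolyP.ze_cl h t, PolyP.cl_of_one_le ht]

theorem seg_union {p q : ℂ} {σ : ℝ} (h0 : 0 ≤ σ) (h1 : σ ≤ 1) :
    segment ℝ p (p + σ * (q - p)) ∪ segment ℝ (p + σ * (q - p)) q = segment ℝ p q := by
  have hm : p + σ * (q - p) ∈ segment ℝ p q := mem_seg_iff.2 ⟨σ, ⟨h0, h1⟩, rfl⟩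
  refine Subset.antisymm (union_subset
    ((convex_segment p q).segment_subset (left_mem_segment _ _ _) hm)
    ((convex_segment p q).segment_subset hm (right_mem_segment _ _ _))) fun z hz => ?_
  obtain ⟨u, hu, rfl⟩ := mem_seg_iff.1 hz
  rcases le_total u σ with h | h
  · left
    rcases h0.eq_or_lt with rfl | h2
    · rw [le_antisymm h hu.1]
      exact right_mem_segment _ _ _
    · refine mem_seg_iff.2 ⟨u / σ, ⟨div_nonneg hu.1 h0, (div_le_one h2).2 h⟩, ?_⟩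
      have : (σ : ℂ) ≠ 0 := ofReal_ne_zero.2 h2.ne'
      push_cast
      field_simp
      ring
  · right
    rcases h1.eq_or_lt with rfl | h2
    · rw [le_antisymm hu.2 h]
      exact left_mem_segment _ _ _
    · have h3 : 0 < 1 - σ := sub_pos.2 h2
      refine mem_seg_iff.2 ⟨(u - σ) / (1 - σ), ⟨div_nonneg (sub_nonneg.2 h) h3.le,
        (div_le_one h3).2 (by linarith [hu.2])⟩, ?_⟩
      have : (1 - σ : ℂ) ≠ 0 := by exact_mod_cast h3.ne'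
      push_cast
      field_simp
      ring

theorem seg_half {p q : ℂ} :
    segment ℝ p ((p + q) / 2) ∪ segment ℝ ((p + q) / 2) q = segment ℝ p q := by
  have h := seg_union (p := p) (q := q) (σ := 1 / 2) (by norm_num) (by norm_num)
  rwa [show p + ((1 / 2 : ℝ) : ℂ) * (q - p) = (p + q) / 2 by push_cast; ring] at h

theorem img_sg {p q : ℂ} : img p ((2 * p + q) / 3) ((p + 2 * q) / 3) q = segment ℝ p q := by
  have h1 := seg_union (p := p) (q := q) (σ := 2 / 3) (by norm_num) (by norm_num)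
  rw [show p + ((2 / 3 : ℝ) : ℂ) * (q - p) = (p + 2 * q) / 3 by push_cast; ring] at h1
  have h2 := seg_half (p := p) (q := (p + 2 * q) / 3)
  rw [show (p + (p + 2 * q) / 3) / 2 = (2 * p + q) / 3 by ring] at h2
  rw [img, h2, h1]

theorem polar (hc : 0 < c) (h : SegOK c K a p q) {u v : ℝ} (hu : u ∈ Icc (0 : ℝ) 1)
    (hv : v ∈ Icc (0 : ℝ) 1) :
    c * (‖q - p‖ * ‖Bq a (p + u * (q - p)) (p + v * (q - p))‖) ≤
        (conj (q - p) * Bq a (p + u * (q - p)) (p + v * (q - p))).re ∧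
      K * ‖q - p‖ ≤ (conj (q - p) * Bq a (p + u * (q - p)) (p + v * (q - p))).re := by
  have w1 : 0 ≤ (1 - u) * (1 - v) := mul_nonneg (sub_nonneg.2 hu.2) (sub_nonneg.2 hv.2)
  have w2 : 0 ≤ (1 - u) * v + u * (1 - v) :=
    add_nonneg (mul_nonneg (sub_nonneg.2 hu.2) hv.1) (mul_nonneg hu.1 (sub_nonneg.2 hv.2))
  have w3 : 0 ≤ u * v := mul_nonneg hu.1 hv.1
  set z := Bq a (p + u * (q - p)) (p + v * (q - p)) with hz
  have hO : z = ((1 - u) * (1 - v) : ℝ) * Om a p + ((1 - u) * v + u * (1 - v) : ℝ) * Bq a p q +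
      (u * v : ℝ) * Om a q := by
    rw [hz]
    unfold Om Bq rh
    push_cast
    ring
  obtain ⟨a1, b1⟩ := h.2.2 (Om a p) (by simp)
  obtain ⟨a2, b2⟩ := h.2.2 (Bq a p q) (by simp)
  obtain ⟨a3, b3⟩ := h.2.2 (Om a q) (by simp)
  have hre : (conj (q - p) * z).re = (1 - u) * (1 - v) * (conj (q - p) * Om a p).re +
      ((1 - u) * v + u * (1 - v)) * (conj (q - p) * Bq a p q).re +
        u * v * (conj (q - p) * Om a q).re := by
    rw [hO, mul_add, mul_add, mul_left_comm, mul_left_comm _ _ (Bq a p q),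
      mul_left_comm _ _ (Om a q), add_re, add_re, re_ofReal_mul, re_ofReal_mul, re_ofReal_mul]
  have hno : ‖z‖ ≤ (1 - u) * (1 - v) * ‖Om a p‖ + ((1 - u) * v + u * (1 - v)) * ‖Bq a p q‖ +
      u * v * ‖Om a q‖ := by
    rw [hO]
    refine (norm_add₃_le).trans (le_of_eq ?_)
    rw [norm_mul, norm_mul, norm_mul, norm_real, norm_real, norm_real, Real.norm_of_nonneg w1,
      Real.norm_of_nonneg w2, Real.norm_of_nonneg w3]
  rw [hre]
  constructor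
  · nlinarith [mul_le_mul_of_nonneg_left hno (mul_nonneg hc.le (norm_nonneg (q - p))),
      mul_le_mul_of_nonneg_left a1 w1, mul_le_mul_of_nonneg_left a2 w2,
      mul_le_mul_of_nonneg_left a3 w3]
  · nlinarith [mul_le_mul_of_nonneg_left b1 w1, mul_le_mul_of_nonneg_left b2 w2,
      mul_le_mul_of_nonneg_left b3 w3]

theorem Bq_self (a z : ℂ) : Bq a z z = Om a z := by
  unfold Bq Om
  ring

theorem norm_log_le {z : ℂ} {B : ℝ} (h1 : 1 ≤ ‖z‖) (h2 : ‖z‖ ≤ B) :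
    ‖Complex.log z‖ ≤ Real.log B + Real.pi := by
  refine (norm_le_abs_re_add_abs_im _).trans (add_le_add ?_ ?_)
  · rw [log_re, abs_of_nonneg (Real.log_nonneg h1)]
    exact Real.log_le_log (zero_lt_one.trans_le h1) h2
  · rw [log_im]
    exact abs_arg_le_pi z

theorem norm_log_sub_le {z w : ℂ} {B : ℝ} (h0 : z ≠ 0) (h0' : w ≠ 0) (h1 : ‖z‖ ≤ B * ‖w‖)
    (h2 : ‖w‖ ≤ B * ‖z‖) : ‖Complex.log z - Complex.log w‖ ≤ Real.log B + 2 * Real.pi := by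
  have p1 := norm_pos_iff.2 h0
  have p2 := norm_pos_iff.2 h0'
  have hB : 0 < B := (mul_pos_iff_of_pos_right p2).1 (p1.trans_le h1)
  refine (norm_le_abs_re_add_abs_im _).trans (add_le_add ?_ ?_)
  · have k1 := Real.log_le_log p1 h1
    have k2 := Real.log_le_log p2 h2
    rw [Real.log_mul hB.ne' p2.ne'] at k1
    rw [Real.log_mul hB.ne' p1.ne'] at k2
    rw [sub_re, log_re, log_re, abs_le]
    constructor <;> linarith
  · rw [sub_im, log_im, log_im]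
    linarith [abs_sub z.arg w.arg, abs_arg_le_pi z, abs_arg_le_pi w]

end CatP

open CatP

theorem cat_ok (h1 : γ₁.Ok) (h2 : γ₂.Ok) : (cat γ₁ γ₂).Ok := by
  refine ⟨fun t ht => ?_, fun t => ?_⟩
  · rw [cat_g]
    rcases not_and_or.1 ht with h | h
    · rw [spt_le h1.spt (by linarith [not_le.1 h]), spt_le h2.spt (by linarith [not_le.1 h])]
      simp
    · rw [spt_ge h1.spt (by linarith [not_le.1 h]), spt_ge h2.spt (by linarith [not_le.1 h])]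
      simp
  · have e : ((cat γ₁ γ₂).ze : ℝ → ℂ) =
        fun t => γ₁.ze (2 * t) + γ₂.ze (2 * t - 1) - γ₁.ze 1 := funext (cat_ze _ _)
    have d1 : HasDerivAt (fun t : ℝ => 2 * t) 2 t := by
      simpa using (hasDerivAt_id t).const_mul (2 : ℝ)
    rw [e, cat_g]
    refine ((((h1.der (2 * t)).scomp t d1).add
      ((h2.der (2 * t - 1)).scomp t (d1.sub_const 1))).sub_const _).congr_deriv ?_
    simp

theorem cat_left (h2 : γ₂.Ok) (he : γ₂.ze 0 = γ₁.ze 1) {t : ℝ} (ht : t ≤ 1 / 2) :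
    (cat γ₁ γ₂).ze t = γ₁.ze (2 * t) ∧ (cat γ₁ γ₂).g t = 2 * γ₁.g (2 * t) := by
  rw [cat_ze, cat_g, ze_le h2 (by linarith), spt_le h2.spt (by linarith), he]
  simp

theorem cat_right (h1 : γ₁.Ok) {t : ℝ} (ht : 1 / 2 ≤ t) :
    (cat γ₁ γ₂).ze t = γ₂.ze (2 * t - 1) ∧ (cat γ₁ γ₂).g t = 2 * γ₂.g (2 * t - 1) := by
  rw [cat_ze, cat_g, ze_ge h1 (by linarith), spt_ge h1.spt (by linarith)]
  simp

theorem admP_cat (h1 : AdmP c K T a γ₁) (he : γ₁.ze 1 = P) (h2 : AdmP c K P a γ₂) :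
    AdmP c K T a (cat γ₁ γ₂) := by
  have he' : γ₂.ze 0 = γ₁.ze 1 := h2.st.trans he.symm
  have key : ∀ {T : ℝ} {γ : Path}, AdmP c K T a γ → ∀ s : ℝ, ∃ u : ℂ, ‖u‖ = 1 ∧ c ≤ u.re ∧
      c * ‖Om a (γ.ze s)‖ ≤ (conj u * Om a (γ.ze s)).re ∧
        2 * γ.g s = (‖2 * γ.g s‖ : ℝ) * u := by
    intro T γ h s
    obtain ⟨u, u1, u2, u3, u4⟩ := h.dir s
    refine ⟨u, u1, u2, u3, ?_⟩
    rw [norm_mul, ofReal_mul, mul_assoc, ← u4]
    simp
  refine ⟨cat_ok h1.ok h2.ok, ?_, fun t => ?_, fun t => ?_⟩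
  · rw [(cat_left h2.ok he' (by norm_num)).1, mul_zero, h1.st]
  · rcases le_total t (1 / 2) with h | h
    · rw [(cat_left h2.ok he' h).1, (cat_left h2.ok he' h).2]
      exact key h1 _
    · rw [(cat_right h1.ok h).1, (cat_right h1.ok h).2]
      exact key h2 _
  · rcases le_total t (1 / 2) with h | h
    · rw [(cat_left h2.ok he' h).1]
      exact h1.big _
    · rw [(cat_right h1.ok h).1]
      exact h2.big _

theorem rng_cat (h1 : γ₁.Ok) (h2 : γ₂.Ok) (he : γ₂.ze 0 = γ₁.ze 1) :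
    rng (cat γ₁ γ₂) = rng γ₁ ∪ rng γ₂ := by
  ext z
  constructor
  · rintro ⟨t, ht, rfl⟩
    rcases le_total t (1 / 2) with h | h
    · exact Or.inl ⟨2 * t, ⟨by linarith [ht.1], by linarith⟩, (cat_left h2 he h).1.symm⟩
    · exact Or.inr ⟨2 * t - 1, ⟨by linarith, by linarith [ht.2]⟩, (cat_right h1 h).1.symm⟩
  · rintro (⟨t, ht, rfl⟩ | ⟨t, ht, rfl⟩)
    · refine ⟨t / 2, ⟨by linarith [ht.1], by linarith [ht.2]⟩, ?_⟩
      rw [(cat_left h2 he (by linarith [ht.2])).1, show 2 * (t / 2) = t by ring]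
    · refine ⟨(t + 1) / 2, ⟨by linarith [ht.1], by linarith [ht.2]⟩, ?_⟩
      rw [(cat_right h1 (by linarith [ht.1])).1, show 2 * ((t + 1) / 2) - 1 = t by ring]

theorem cat_strictMono (h1 : γ₁.Ok) (h2 : γ₂.Ok) (he : γ₂.ze 0 = γ₁.ze 1)
    (m1 : StrictMonoOn (fun t => (γ₁.ze t).re) (Icc 0 1))
    (m2 : StrictMonoOn (fun t => (γ₂.ze t).re) (Icc 0 1)) :
    StrictMonoOn (fun t => ((cat γ₁ γ₂).ze t).re) (Icc 0 1) := by
  have k1 : StrictMonoOn (fun t => ((cat γ₁ γ₂).ze t).re) (Icc 0 (1 / 2)) := by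
    intro s hs t ht hst
    simp only [(cat_left h2 he hs.2).1, (cat_left h2 he ht.2).1]
    exact m1 ⟨by linarith [hs.1], by linarith [hs.2]⟩ ⟨by linarith [ht.1], by linarith [ht.2]⟩
      (by linarith)
  have k2 : StrictMonoOn (fun t => ((cat γ₁ γ₂).ze t).re) (Icc (1 / 2) 1) := by
    intro s hs t ht hst
    simp only [(cat_right h1 hs.1).1, (cat_right h1 ht.1).1]
    exact m2 ⟨by linarith [hs.1], by linarith [hs.2]⟩ ⟨by linarith [ht.1], by linarith [ht.2]⟩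
      (by linarith)
  have h := k1.union k2 (isGreatest_Icc (by norm_num)) (isLeast_Icc (by norm_num))
  rwa [Icc_union_Icc_eq_Icc (by norm_num) (by norm_num)] at h

/-- pieces of an admissible segment (the polar form at two points of the segment is a convex
combination of the three values) -/
theorem SegOK.sub (h : SegOK c K a p q) {σ σ' : ℝ} (h0 : 0 ≤ σ) (h1 : σ < σ') (h2 : σ' ≤ 1)
    (hc : 0 < c) : SegOK c K a (p + σ * (q - p)) (p + σ' * (q - p)) := by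
  have hd : 0 < σ' - σ := sub_pos.2 h1
  have e : p + σ' * (q - p) - (p + σ * (q - p)) = ((σ' - σ : ℝ) : ℂ) * (q - p) := by
    push_cast
    ring
  have hn : ‖((σ' - σ : ℝ) : ℂ) * (q - p)‖ = (σ' - σ) * ‖q - p‖ := by
    rw [norm_mul, norm_real, Real.norm_of_nonneg hd.le]
  have hu : σ ∈ Icc (0 : ℝ) 1 := ⟨h0, h1.le.trans h2⟩
  have hv : σ' ∈ Icc (0 : ℝ) 1 := ⟨h0.trans h1.le, h2⟩
  refine ⟨fun h3 => ?_, ?_, fun X hX => ?_⟩
  · rw [← h3, sub_self] at e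
    exact mul_ne_zero (ofReal_ne_zero.2 hd.ne') (sub_ne_zero.2 h.1.symm) e.symm
  · rw [e, hn, re_ofReal_mul, mul_left_comm]
    exact mul_le_mul_of_nonneg_left h.2.1 hd.le
  · have key : c * (‖q - p‖ * ‖X‖) ≤ (conj (q - p) * X).re ∧
        K * ‖q - p‖ ≤ (conj (q - p) * X).re := by
      rcases hX with rfl | rfl | rfl
      · rw [← Bq_self]
        exact polar hc h hu hu
      · exact polar hc h hu hv
      · rw [← Bq_self]
        exact polar hc h hv hv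
    rw [e, hn, map_mul, conj_ofReal, mul_assoc, mul_assoc, re_ofReal_mul]
    constructor
    · rw [mul_left_comm]
      exact mul_le_mul_of_nonneg_left key.1 hd.le
    · rw [mul_left_comm]
      exact mul_le_mul_of_nonneg_left key.2 hd.le

theorem SegOK.halves (h : SegOK c K a p q) (hc : 0 < c) :
    SegOK c K a p ((p + q) / 2) ∧ SegOK c K a ((p + q) / 2) q := by
  have h1 := h.sub (σ := 0) (σ' := 1 / 2) le_rfl (by norm_num) (by norm_num) hc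
  have h2 := h.sub (σ := 1 / 2) (σ' := 1) (by norm_num) (by norm_num) le_rfl hc
  rw [show p + ((1 / 2 : ℝ) : ℂ) * (q - p) = (p + q) / 2 by push_cast; ring] at h1 h2
  rw [show p + ((0 : ℝ) : ℂ) * (q - p) = p by simp] at h1
  rw [show p + ((1 : ℝ) : ℂ) * (q - p) = q by simp] at h2
  exact ⟨h1, h2⟩

theorem SegOK.thirds (h : SegOK c K a p q) (hc : 0 < c) :
    SegOK c K a p ((2 * p + q) / 3) ∧
    SegOK c K a ((2 * p + q) / 3) ((p + 2 * q) / 3) ∧ SegOK c K a ((p + 2 * q) / 3) q := by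
  have h1 := h.sub (σ := 0) (σ' := 1 / 3) le_rfl (by norm_num) (by norm_num) hc
  have h2 := h.sub (σ := 1 / 3) (σ' := 2 / 3) (by norm_num) (by norm_num) (by norm_num) hc
  have h3 := h.sub (σ := 2 / 3) (σ' := 1) (by norm_num) (by norm_num) le_rfl hc
  rw [show p + ((1 / 3 : ℝ) : ℂ) * (q - p) = (2 * p + q) / 3 by push_cast; ring] at h1 h2
  rw [show p + ((2 / 3 : ℝ) : ℂ) * (q - p) = (p + 2 * q) / 3 by push_cast; ring] at h2 h3
  rw [show p + ((0 : ℝ) : ℂ) * (q - p) = p by simp] at h1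
  rw [show p + ((1 : ℝ) : ℂ) * (q - p) = q by simp] at h3
  exact ⟨h1, h2, h3⟩

theorem admP_sg (hc : 0 < c) (h : SegOK c K a T q) : AdmP c K T a (sg T q) :=
  admP_pg hc (h.thirds hc).1 (h.thirds hc).2.1 (h.thirds hc).2.2

theorem sg_ok : (sg p q).Ok := pg_ok

theorem sg_zero : (sg p q).ze 0 = p := pg_zero

theorem sg_one : (sg p q).ze 1 = q := pg_one

theorem rng_pg : rng (pg p q₁ q₂ q₃) = img p q₁ q₂ q₃ :=
  Subset.antisymm (by rintro _ ⟨t, -, rfl⟩; exact pg_mem_img t) fun _ hz => pg_surj hz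

theorem rng_sg : rng (sg p q) = segment ℝ p q := rng_pg.trans img_sg

theorem sg_mem (t : ℝ) : (sg p q).ze t ∈ segment ℝ p q := by
  rw [← img_sg]
  exact pg_mem_img t

theorem sg_im {R : ℝ} (t : ℝ) : ((sg T R).ze t).im = 0 := by
  obtain ⟨σ, -, h⟩ := mem_seg_iff.1 (sg_mem (p := T) (q := R) t)
  rw [← h]
  simp

theorem sg_strictMono (h : p.re < q.re) : StrictMonoOn (fun t => ((sg p q).ze t).re) (Icc 0 1) := by
  refine pg_strictMono ?_ ?_ ?_ <;> simp <;> linarith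

theorem pq_ok : (pq T P q₁ q₂ q₃).Ok := cat_ok sg_ok pg_ok

theorem pq_right {t : ℝ} (ht : 1 / 2 ≤ t) :
    (pq T P q₁ q₂ q₃).ze t = (pg P q₁ q₂ q₃).ze (2 * t - 1) ∧
      (pq T P q₁ q₂ q₃).g t = 2 * (pg P q₁ q₂ q₃).g (2 * t - 1) := cat_right sg_ok ht

theorem pq_one : (pq T P q₁ q₂ q₃).ze 1 = q₃ := by
  rw [(pq_right (by norm_num)).1, show (2 : ℝ) * 1 - 1 = 1 by norm_num, pg_one]

theorem pq_half : (pq T P q₁ q₂ q₃).ze (1 / 2) = P := by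
  rw [(pq_right le_rfl).1, show (2 : ℝ) * (1 / 2) - 1 = 0 by norm_num, pg_zero]

theorem pq_two_thirds : (pq T P q₁ q₂ q₃).ze (2 / 3) = q₁ := by
  rw [(pq_right (by norm_num)).1, show (2 : ℝ) * (2 / 3) - 1 = 1 / 3 by norm_num, pg_third]

theorem ctr_one {U E : ℂ} : (ctr T P U E).ze 1 = E := pq_one

theorem pq_left {t : ℝ} (ht : t ≤ 1 / 2) : (pq T P q₁ q₂ q₃).ze t = (sg T P).ze (2 * t) ∧
    ((pq T P q₁ q₂ q₃).ze t).im = 0 := by
  have h : (pq T P q₁ q₂ q₃).ze t = (sg T P).ze (2 * t) :=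
    (cat_left pg_ok (pg_zero.trans sg_one.symm) ht).1
  exact ⟨h, by rw [h, sg_im]⟩

theorem pq_zero : (pq T P q₁ q₂ q₃).ze 0 = T := by
  rw [(pq_left (by norm_num)).1, mul_zero, sg_zero]

theorem rng_pq : rng (pq T P q₁ q₂ q₃) =
    segment ℝ (T : ℂ) P ∪ segment ℝ (P : ℂ) q₁ ∪ segment ℝ q₁ q₂ ∪ segment ℝ q₂ q₃ := by
  rw [pq, rng_cat sg_ok pg_ok (pg_zero.trans sg_one.symm), rng_sg, rng_pg, img]
  simp only [union_assoc]

theorem rng_ctr {U E : ℂ} :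
    rng (ctr T P U E) = segment ℝ (T : ℂ) P ∪ segment ℝ (P : ℂ) U ∪ segment ℝ U E := by
  rw [ctr, rng_pq, union_assoc (segment ℝ (T : ℂ) P), seg_half]

/-- the two legs -/
theorem pq_legs {t : ℝ} (ht : t ∈ Icc (2 / 3 : ℝ) 1) :
    (pq T P q₁ q₂ q₃).ze t ∈ segment ℝ q₁ q₂ ∪ segment ℝ q₂ q₃ ∧ ∃ b : ℝ, 0 ≤ b ∧
      ((pq T P q₁ q₂ q₃).g t = b * (q₂ - q₁) ∨ (pq T P q₁ q₂ q₃).g t = b * (q₃ - q₂)) := by
  have h1 : 1 / 2 ≤ t := by linarith [ht.1]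
  have h2 : 1 / 3 ≤ 2 * t - 1 := by linarith [ht.1]
  rw [(pq_right h1).1, (pq_right h1).2]
  rcases le_total (2 * t - 1) (2 / 3) with h | h
  · rw [pg_ze2 h2 h, pg_g2 h2 h]
    refine ⟨Or.inl (mem_seg_iff.2 ⟨_, PolyP.ps_mem _ _, rfl⟩), 2 * PolyP.sp 1 (2 * t - 1),
      mul_nonneg zero_le_two (PolyP.sp_nonneg _ _), Or.inl ?_⟩
    push_cast
    ring
  · rw [pg_ze3 h, pg_g3 h]
    refine ⟨Or.inr (mem_seg_iff.2 ⟨_, PolyP.ps_mem _ _, rfl⟩), 2 * PolyP.sp 2 (2 * t - 1),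
      mul_nonneg zero_le_two (PolyP.sp_nonneg _ _), Or.inr ?_⟩
    push_cast
    ring

theorem pq_len : ∫ t in (2 / 3 : ℝ)..1, ‖(pq T P q₁ q₂ q₃).g t‖ = ‖q₂ - q₁‖ + ‖q₃ - q₂‖ := by
  rw [intervalIntegral.integral_congr
    (g := fun t => 2 * ‖(pg P q₁ q₂ q₃).g (2 * t - 1)‖) fun t ht => ?_]
  · rw [intervalIntegral.integral_const_mul, intervalIntegral.integral_comp_mul_sub
      (fun u => ‖(pg P q₁ q₂ q₃).g u‖) two_ne_zero,
      show (2 : ℝ) * (2 / 3) - 1 = 1 / 3 by norm_num, show (2 : ℝ) * 1 - 1 = 1 by norm_num, pg_len,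
      smul_eq_mul]
    ring
  · rw [uIcc_of_le (by norm_num)] at ht
    simp only [(pq_right (T := T) (t := t) (by linarith [ht.1])).2, norm_mul, norm_ofNat]

theorem differentiableOn_pq {E : Type} [NormedAddCommGroup E] [NormedSpace ℂ E] {U : Set E}
    {q₁ q₂ q₃ : E → ℂ} (h1 : DifferentiableOn ℂ q₁ U) (h2 : DifferentiableOn ℂ q₂ U)
    (h3 : DifferentiableOn ℂ q₃ U) :
    DifferentiableOn ℂ (fun x => (pq T P (q₁ x) (q₂ x) (q₃ x)).ze) U ∧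
      DifferentiableOn ℂ (fun x => (pq T P (q₁ x) (q₂ x) (q₃ x)).g) U := by
  obtain ⟨k1, k2⟩ := differentiableOn_pg (differentiableOn_const (P : ℂ)) h1 h2 h3
  exact ⟨((differentiableOn_const _).add
    ((af 1).differentiable.comp_differentiableOn k1)).sub (differentiableOn_const _),
    (differentiableOn_const _).add
      (((af 1).differentiable.comp_differentiableOn k2).const_smul (2 : ℂ))⟩

/-- a sub-contour is a reparametrised initial piece -/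
theorem rep_of_rng (h : γ.Ok) (h' : γ'.Ok) (hs : StrictMonoOn (fun t => (γ.ze t).re) (Icc 0 1))
    (hs' : StrictMonoOn (fun t => (γ'.ze t).re) (Icc 0 1)) (h0 : γ'.ze 0 = γ.ze 0)
    (hr : rng γ' ⊆ rng γ) :
    ∃ t₀ ∈ Icc (0 : ℝ) 1, γ.ze t₀ = γ'.ze 1 ∧ ∃ φ, Rep φ γ γ' t₀ := by
  obtain ⟨t₀, ht, he⟩ := hr ⟨1, ⟨zero_le_one, le_rfl⟩, rfl⟩
  refine ⟨t₀, ht, he, exists_rep h h' hs hs'.monotoneOn h0 ht he.symm fun t ht' => ?_⟩
  obtain ⟨u, hu, e⟩ := hr ⟨t, ht', rfl⟩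
  exact ⟨u, hu, e.symm⟩

/-- crude bound of the slow variable -/
theorem norm_sE_le {ζ : ℂ} {B : ℝ} (h1 : 1 ≤ ‖ζ‖) (h2 : ‖ζ‖ ≤ B) (h3 : 1 ≤ ‖Om a ζ‖)
    (h4 : ‖Om a ζ‖ ≤ B) : ‖sE a ζ‖ ≤ 3 * Real.log B + 3 * Real.pi := by
  refine (norm_sub_le _ _).trans ?_
  rw [norm_mul, norm_ofNat]
  linarith [norm_log_le h1 h2, norm_log_le h3 h4]

/-- differences of the slow variable -/
theorem norm_sE_sub_le {ζ ζ' : ℂ} {B : ℝ} (h0 : ζ ≠ 0) (h0' : ζ' ≠ 0) (h1 : ‖ζ‖ ≤ B * ‖ζ'‖)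
    (h2 : ‖ζ'‖ ≤ B * ‖ζ‖) (k0 : Om a ζ ≠ 0) (k0' : Om a ζ' ≠ 0) (h3 : ‖Om a ζ‖ ≤ B * ‖Om a ζ'‖)
    (h4 : ‖Om a ζ'‖ ≤ B * ‖Om a ζ‖) :
    ‖sE a ζ - sE a ζ'‖ ≤ 3 * Real.log B + 6 * Real.pi := by
  have e : sE a ζ - sE a ζ' = 2 * (Complex.log ζ - Complex.log ζ') -
      (Complex.log (Om a ζ) - Complex.log (Om a ζ')) := by
    unfold sE
    ring
  rw [e]
  refine (norm_sub_le _ _).trans ?_
  rw [norm_mul, norm_ofNat]
  linarith [norm_log_sub_le h0 h0' h1 h2, norm_log_sub_le k0 k0' h3 h4]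

section
variable {ι : Type} [Fintype ι] [DecidableEq ι] {c : Cx ι} {x ah : ℂ} {rd : ℝ} {s : ES}

theorem Side.rd_pos (H : c.Ok) {E : ℂ} (h : Side c x ah rd E) : 0 < rd :=
  (mul_pos H.L0 (pow_pos H.ρ0 2)).trans_le h.big

theorem Cx.Ok.T_ge (H : c.Ok) : 1000000 ≤ c.P.T := by linarith [H.spec.K0, H.spec.KT]

theorem endG_pq (H : c.Ok) (hs : Side c x ah rd q₃) (hP : 1 / (c.M * c.ρ) ≤ P)
    (n0 : P ≤ c.M / c.ρ) (n1 : ‖q₁‖ ≤ c.M / c.ρ) (n2 : ‖q₂‖ ≤ c.M / c.ρ) (n3 : ‖q₃‖ ≤ c.M / c.ρ)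
    (h : ∀ a ∈ closedBall ah rd, SegOK (1 / 100) c.P.K a c.P.T P ∧ SegOK (1 / 100) c.P.K a P q₁ ∧
      SegOK (1 / 100) c.P.K a q₁ q₂ ∧ SegOK (1 / 100) c.P.K a q₂ q₃) :
    EndG c x ⟨ah, rd, pq c.P.T P q₁ q₂ q₃⟩ := by
  obtain ⟨s0, s1, s2, s3⟩ := h ah (mem_closedBall_self (hs.rd_pos H).le)
  have hTP : c.P.T < P := by simpa using s0.re_lt (by norm_num)
  have hT := H.T_ge
  have nT : ‖(c.P.T : ℂ)‖ ≤ c.M / c.ρ := by
    rw [norm_real, Real.norm_of_nonneg (by linarith)]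
    linarith
  have nP : ‖(P : ℂ)‖ ≤ c.M / c.ρ := by
    rw [norm_real, Real.norm_of_nonneg (by linarith)]
    exact n0
  refine ⟨by rw [pq_one]; exact hs, fun t => ?_, fun a ha => ?_,
    ⟨1 / 2, ⟨by norm_num, by norm_num⟩, fun t ht => (pq_left ht.2).2, by
      rw [pq_half]; simpa using hP⟩, ?_⟩
  · rcases le_total t (1 / 2) with h1 | h1
    · rw [(pq_left h1).1]
      exact mem_closedBall_zero_iff.1 ((convex_closedBall (0 : ℂ) _).segment_subset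
        (mem_closedBall_zero_iff.2 nT) (mem_closedBall_zero_iff.2 nP) (sg_mem _))
    · rw [(pq_right h1).1]
      exact pg_norm_le nP n1 n2 n3 _
  · obtain ⟨r0, r1, r2, r3⟩ := h a ha
    exact admP_cat (admP_sg H.spec.c0 (r0.mono H.spec.c1)) sg_one
      (admP_pg H.spec.c0 (r1.mono H.spec.c1) (r2.mono H.spec.c1) (r3.mono H.spec.c1))
  · exact cat_strictMono sg_ok pg_ok (pg_zero.trans sg_one.symm)
      (sg_strictMono (s0.re_lt (by norm_num)))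
      (pg_strictMono (s1.re_lt (by norm_num)) (s2.re_lt (by norm_num)) (s3.re_lt (by norm_num)))

theorem endG_sg (H : c.Ok) {R : ℝ} (hs : Side c x ah rd R) (hR : 1 / (c.M * c.ρ) ≤ R)
    (n0 : R ≤ c.M / c.ρ) (h : ∀ a ∈ closedBall ah rd, SegOK (1 / 100) c.P.K a c.P.T R) :
    EndG c x ⟨ah, rd, sg c.P.T R⟩ := by
  have s0 := h ah (mem_closedBall_self (hs.rd_pos H).le)
  have hTP : c.P.T < R := by simpa using s0.re_lt (by norm_num)
  have hT := H.T_ge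
  have nT : ‖(c.P.T : ℂ)‖ ≤ c.M / c.ρ := by
    rw [norm_real, Real.norm_of_nonneg (by linarith)]
    linarith
  have nP : ‖(R : ℂ)‖ ≤ c.M / c.ρ := by
    rw [norm_real, Real.norm_of_nonneg (by linarith)]
    exact n0
  exact ⟨by rw [sg_one]; exact hs, fun t => mem_closedBall_zero_iff.1
    ((convex_closedBall (0 : ℂ) _).segment_subset (mem_closedBall_zero_iff.2 nT)
      (mem_closedBall_zero_iff.2 nP) (sg_mem _)),
    fun a ha => admP_sg H.spec.c0 ((h a ha).mono H.spec.c1),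
    ⟨1, ⟨zero_le_one, le_rfl⟩, fun t _ => sg_im t, by rw [sg_one]; simpa using hR⟩,
    sg_strictMono (s0.re_lt (by norm_num))⟩

namespace EndG

theorem adm0 (H : c.Ok) (h : EndG c x s) : AdmP c.P.c c.P.K c.P.T s.ah s.γ :=
  h.adm _ (mem_closedBall_self (h.side.rd_pos H).le)

theorem ok (H : c.Ok) (h : EndG c x s) : s.γ.Ok := (h.adm0 H).ok

theorem st (H : c.Ok) (h : EndG c x s) : s.γ.ze 0 = c.P.T := (h.adm0 H).st

omit [Fintype ι] [DecidableEq ι] in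
theorem lo (h : EndG c x s) : 1 / (c.M * c.ρ) ≤ (s.γ.ze 1).re := by
  obtain ⟨t₁, ht, -, h1⟩ := h.pre
  exact h1.trans (h.mono.monotoneOn ht ⟨zero_le_one, le_rfl⟩ ht.2)

theorem a_le (H : c.Ok) (h : EndG c x s) (ha : a ∈ closedBall s.ah s.rd) :
    ‖a‖ ≤ c.M * c.ρ ∧ ‖a‖ ≤ 1 / 1000 := by
  have h1 : ‖a‖ ≤ c.M * c.ρ := (norm_le_of_mem_closedBall ha).trans h.side.sm
  exact ⟨h1, h1.trans H.Mρ⟩

theorem T_le_norm (H : c.Ok) (h : EndG c x s) (t : ℝ) : c.P.T ≤ ‖s.γ.ze t‖ :=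
  ((h.adm0 H).T_le H.spec.c0 t).trans (re_le_norm _)

theorem rh_le (H : c.Ok) (h : EndG c x s) (ha : a ∈ closedBall s.ah s.rd) (t : ℝ) :
    ‖a * s.γ.ze t‖ ≤ c.M ^ 2 ∧ ‖rh a (s.γ.ze t)‖ ≤ c.M ^ 2 + 3 ∧
      Real.sqrt (‖rh a (s.γ.ze t)‖ / ‖s.γ.ze t‖) ≤ c.M + 2 := by
  obtain ⟨a1, a2⟩ := h.a_le H ha
  have hρ := H.ρ0
  have hM := H.M1
  have h1 : ‖a * s.γ.ze t‖ ≤ c.M ^ 2 := by
    rw [norm_mul]
    refine (mul_le_mul a1 (h.up t) (norm_nonneg _) (by positivity)).trans (le_of_eq ?_)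
    field_simp
  have h2 : ‖rh a (s.γ.ze t)‖ ≤ c.M ^ 2 + 3 := by
    have e : rh a (s.γ.ze t) = 2 + a * s.γ.ze t - 2 * a := by
      unfold rh
      ring
    rw [e]
    refine (norm_sub_le _ _).trans ?_
    have h3 := norm_add_le 2 (a * s.γ.ze t)
    rw [norm_mul, norm_ofNat] at *
    linarith
  refine ⟨h1, h2, Real.sqrt_le_iff.2 ⟨by linarith, ?_⟩⟩
  have h3 : 1 ≤ ‖s.γ.ze t‖ := by linarith [h.T_le_norm H t, H.T_ge]
  refine (div_le_self (norm_nonneg _) h3).trans ?_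
  nlinarith

/-- the crude weight -/
theorem wt (H : c.Ok) (h : EndG c x s) {y : ℝ} (hy : y ≤ (s.γ.ze 1).re) :
    Wt s ((c.M + 2) * Real.exp (-(y / 4))) := fun a ha =>
  mul_le_mul (h.rh_le H ha 1).2.2 (Real.exp_le_exp.2 (by linarith)) (Real.exp_pos _).le
    (by linarith [H.M1])

/-- lower bound of `Ω` in the far part (from `rd_le_rh`) -/
theorem le_Om (H : c.Ok) (h : EndG c x s) (ha : ‖a - s.ah‖ ≤ s.rd / 2) {t : ℝ}
    (ht : 1 / (c.M * c.ρ) ≤ (s.γ.ze t).re) :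
    s.rd / c.ρ ^ 2 / (4 * c.M ^ 2) ≤ ‖Om a (s.γ.ze t)‖ := by
  have hρ := H.ρ0
  have hM : 0 < c.M := zero_lt_one.trans_le H.M1
  have hr := h.side.rd_pos H
  have h1 := rd_le_rh (by linarith [H.spec.K0]) h.adm ha t
  have h2 : 1000 ≤ 1 / (c.M * c.ρ) := by
    rw [le_div_iff₀ (mul_pos hM hρ)]
    linarith [H.Mρ]
  have h3 : 1 / (c.M * c.ρ) ≤ ‖s.γ.ze t‖ := ht.trans (re_le_norm _)
  have h4 : 1 / (c.M * c.ρ) / 2 ≤ ‖s.γ.ze t - 2‖ := by
    have h5 := re_le_norm (s.γ.ze t - 2)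
    rw [sub_re, re_ofNat] at h5
    linarith
  rw [Om, norm_mul]
  refine le_trans (le_of_eq ?_) (mul_le_mul h3
    ((mul_le_mul_of_nonneg_left h4 (by positivity : 0 ≤ s.rd / 2)).trans h1) (by positivity)
    (norm_nonneg _))
  field_simp
  ring

end EndG

theorem Wt.nonneg {w : ℝ} (h : Wt s w) (hr : 0 ≤ s.rd) : 0 ≤ w :=
  le_trans (by positivity) (h _ (mem_closedBall_self hr))

theorem Wt.mono {w w' : ℝ} (h : Wt s w) (hw : w ≤ w') : Wt s w' := fun a ha => (h a ha).trans hw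

end

end Vale.Agent.P218N.J
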