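import Vale.Agent.P218N.J.Ode1

/-! The inner equation along the legs, and the jump formula. -/

open Filter Topology Metric Set Complex

noncomputable section

namespace Vale.Agent.P218N.J

open Vale.Agent.P218N.Stokes

theorem cauchy_ball {F : ℂ → ℂ} {c p : ℂ} {R r C : ℝ} (hF : DifferentiableOn ℂ F (ball c R))
    (hb : ∀ z ∈ ball c R, ‖F z‖ ≤ C) (hr : 0 < r) (hp : ‖p - c‖ + r < R) :
    ‖deriv F p‖ ≤ C / r := by
  have sub : closedBall p r ⊆ ball c R := closedBall_subset_ball' (by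
    rw [dist_eq_norm]; linarith)
  exact Complex.norm_deriv_le_of_forall_mem_sphere_norm_le hr
    (DifferentiableOn.diffContOnCl (hF.mono (closure_ball_subset_closedBall.trans sub)))
    fun z hz => hb z (sub (sphere_subset_closedBall hz))

section pointwise

variable {r : ℝ} {Y h : ℂ}

theorem near_norm (hY : ‖Y + (r ^ 2 : ℝ)‖ ≤ r ^ 2 / 100) :
    99 / 100 * r ^ 2 ≤ ‖Y‖ ∧ ‖Y‖ ≤ 101 / 100 * r ^ 2 := by
  have a := abs_le.1 (abs_norm_sub_norm_le Y (-((r ^ 2 : ℝ) : ℂ)))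
  rw [sub_neg_eq_add, norm_neg, Complex.norm_real, Real.norm_of_nonneg (sq_nonneg r)] at a
  constructor <;> linarith [a.1, a.2]

theorem near_lI (hr : 30000 ≤ r) (hY : ‖Y + (r ^ 2 : ℝ)‖ ≤ r ^ 2 / 100)
    (h1 : ‖h - 1‖ ≤ 1 / 10000) : ‖lI Y h - r‖ ≤ 101 / 10000 * r := by
  have a : r ≤ ‖lI Y h + r‖ := by
    refine le_trans ?_ (Complex.re_le_norm _)
    rw [add_re, ofReal_re]
    linarith [lI_re Y h]
  have b : ‖lI Y h - r‖ * ‖lI Y h + r‖ ≤ 3 + r ^ 2 / 100 := by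
    rw [← norm_mul, show (lI Y h - r) * (lI Y h + r) = 2 * h ^ 2 - (Y + (r ^ 2 : ℝ)) by
      push_cast; linear_combination lI_sq Y h]
    exact (norm_sub_le _ _).trans (add_le_add (norm_two_sq h1) hY)
  have c := mul_le_mul_of_nonneg_left a (norm_nonneg (lI Y h - r))
  refine le_of_mul_le_mul_right (c.trans (b.trans ?_)) (by linarith)
  nlinarith

theorem near_lI_norm (hr : 30000 ≤ r) (hY : ‖Y + (r ^ 2 : ℝ)‖ ≤ r ^ 2 / 100)
    (h1 : ‖h - 1‖ ≤ 1 / 10000) :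
    ‖lI Y h‖ ≤ 2 * r ∧ 9 / 10 * r ^ 3 ≤ ‖lI Y h‖ ^ 3 := by
  have a := abs_le.1 ((abs_norm_sub_norm_le (lI Y h) r).trans (near_lI hr hY h1))
  rw [Complex.norm_real, Real.norm_of_nonneg (by linarith)] at a
  refine ⟨by linarith [a.2], ?_⟩
  have b : (98 / 100 * r) ^ 3 ≤ ‖lI Y h‖ ^ 3 :=
    pow_le_pow_left₀ (by linarith) (by linarith [a.1]) 3
  have c : 0 ≤ r ^ 3 := by positivity
  nlinarith

theorem near_slit (hr : 30000 ≤ r) (hY : ‖Y + (r ^ 2 : ℝ)‖ ≤ r ^ 2 / 100)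
    (h1 : ‖h - 1‖ ≤ 1 / 10000) : 2 * h ^ 2 - Y ∈ slitPlane := by
  have a := (near_norm hY).1
  have b := (abs_le.1 ((Complex.abs_re_le_norm _).trans hY)).2
  rw [add_re, ofReal_re] at b
  exact slit_lI h1 (by nlinarith) (by nlinarith)

/-- the momentum is close to its value at the reference point -/
theorem near_Hh (hr : 30000 ≤ r) (hY : ‖Y + (r ^ 2 : ℝ)‖ ≤ r ^ 2 / 100)
    (h1 : ‖h - 1‖ ≤ 1 / 10000) : ‖4 * Hh Y h + 8 / r‖ ≤ 1 / 2 / r := by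
  obtain ⟨a1, a2⟩ := near_norm hY
  obtain ⟨b1, b2⟩ := near_lI_norm hr hY h1
  have r0 : 0 < r := by linarith
  have r1 : (r : ℂ) ≠ 0 := ofReal_ne_zero.2 r0.ne'
  have l0 : lI Y h ≠ 0 := lI_ne h1 (by nlinarith)
  have e : 4 * Hh Y h + 8 / r =
      8 * (2 * h ^ 2 * lI Y h + Y * ((h - 1) * r - (lI Y h - r))) / lI Y h ^ 3 / r := by
    have s := lI_sq Y h
    unfold Hh
    generalize lI Y h = l at s l0
    field_simp
    linear_combination 8 * l * s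
  have c1 : ‖2 * h ^ 2 * lI Y h‖ ≤ 3 * (2 * r) := by
    rw [norm_mul]; exact mul_le_mul (norm_two_sq h1) b1 (norm_nonneg _) (by norm_num)
  have c2 : ‖(h - 1) * r - (lI Y h - r)‖ ≤ 102 / 10000 * r := by
    refine (norm_sub_le _ _).trans ?_
    rw [norm_mul, Complex.norm_real, Real.norm_of_nonneg r0.le]
    nlinarith [near_lI hr hY h1]
  have c3 : ‖Y * ((h - 1) * r - (lI Y h - r))‖ ≤ 101 / 100 * r ^ 2 * (102 / 10000 * r) := by
    rw [norm_mul]; exact mul_le_mul a2 c2 (norm_nonneg _) (by positivity)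
  have c4 := (norm_add_le _ _).trans (add_le_add c1 c3)
  have c5 : 30000 * (30000 * r) ≤ r ^ 3 := by nlinarith
  rw [e, norm_div, norm_div, norm_mul, norm_pow, Complex.norm_real, Real.norm_of_nonneg r0.le,
    Complex.norm_ofNat, div_le_div_iff_of_pos_right r0,
    div_le_iff₀ (pow_pos (norm_pos_iff.2 l0) 3)]
  nlinarith

theorem one_sub_bounds {k : ℂ} (hk : ‖k‖ ≤ 1 / 1000000) :
    1 - k ≠ 0 ∧ ‖1 / (1 - k) - 1‖ ≤ 2 / 1000000 ∧ ‖1 / (1 - k)‖ ≤ 1001 / 1000 := by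
  have a : 1 / 2 ≤ ‖1 - k‖ := by linarith [norm_sub_norm_le 1 k, norm_one (α := ℂ)]
  have b : 1 - k ≠ 0 := norm_pos_iff.1 (by linarith)
  have c : ‖1 / (1 - k) - 1‖ ≤ 2 / 1000000 := by
    rw [show 1 / (1 - k) - 1 = k / (1 - k) by field_simp; ring, norm_div,
      div_le_iff₀ (by linarith)]
    linarith
  refine ⟨b, c, ?_⟩
  linarith [norm_sub_norm_le (1 / (1 - k)) 1, norm_one (α := ℂ)]

/-- the Hamilton-Jacobi identity up to the distance from the slow solution -/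
theorem near_HJ (hr : 30000 ≤ r) (hY : ‖Y + (r ^ 2 : ℝ)‖ ≤ r ^ 2 / 100)
    (h1 : ‖h - 1‖ ≤ 1 / 10000) {k : ℂ} (hk : ‖k‖ ≤ 1 / 1000000) :
    ‖2 * h / lI Y h + 4 * HY Y h + 4 * Hh Y h * (rhs Y k / (1 - k) ^ 2)‖ ≤
      3 / r * ‖h - 1 / (1 - k)‖ := by
  obtain ⟨a1, a2⟩ := near_norm hY
  obtain ⟨b1, b2⟩ := near_lI_norm hr hY h1
  obtain ⟨k0, -, k2⟩ := one_sub_bounds hk
  have r0 : 0 < r := by linarith
  have l0 : lI Y h ≠ 0 := lI_ne h1 (by nlinarith)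
  have Y0 : Y ≠ 0 := norm_pos_iff.1 (by nlinarith)
  have hm : ∃ m : ℂ, m = 1 / (1 - k) := ⟨_, rfl⟩
  obtain ⟨m, hm⟩ := hm
  have e : 2 * h / lI Y h + 4 * HY Y h + 4 * Hh Y h * (rhs Y k / (1 - k) ^ 2) =
      (4 * (h * h + h * m + m * m) - 8 * (h + m) + 4 * (m * (2 - m)) - 2 * (Y * (1 - k))) /
        lI Y h ^ 3 * (h - m) := by
    have s := lI_sq Y h
    rw [hm]
    unfold Hh HY rhs
    generalize lI Y h = l at s l0
    field_simp
    linear_combination (4 * h - 8) * (1 - k) ^ 3 * s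
  rw [← hm] at k2 ⊢
  have h2 := (norm_h_bounds h1).2
  have h0 := norm_nonneg h
  have m0 := norm_nonneg m
  have c1 : ‖4 * (h * h + h * m + m * m)‖ ≤ 16 := by
    have := norm_add₃_le (a := h * h) (b := h * m) (c := m * m)
    rw [norm_mul, norm_mul, norm_mul] at this
    rw [norm_mul, Complex.norm_ofNat]
    nlinarith
  have c2 : ‖8 * (h + m)‖ ≤ 24 := by
    rw [norm_mul, Complex.norm_ofNat]; linarith [norm_add_le h m]
  have c3 : ‖4 * (m * (2 - m))‖ ≤ 16 := by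
    have := norm_sub_le 2 m
    rw [norm_mul, norm_mul]
    rw [Complex.norm_ofNat] at this ⊢
    nlinarith [norm_nonneg (2 - m)]
  have c4 : ‖2 * (Y * (1 - k))‖ ≤ 2 * (101 / 100 * r ^ 2 * (101 / 100)) := by
    rw [norm_mul, norm_mul, Complex.norm_ofNat]
    gcongr
    linarith [norm_sub_le 1 k, norm_one (α := ℂ)]
  have c5 := (norm_sub_le _ _).trans (add_le_add ((norm_add_le _ _).trans
    (add_le_add ((norm_sub_le _ _).trans (add_le_add c1 c2)) c3)) c4)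
  rw [e, norm_mul]
  refine mul_le_mul_of_nonneg_right ?_ (norm_nonneg _)
  rw [norm_div, norm_pow, div_le_div_iff₀ (pow_pos (norm_pos_iff.2 l0) 3) r0]
  have c6 := mul_le_mul_of_nonneg_right c5 r0.le
  have c7 : 30000 * (30000 * r) ≤ r ^ 3 := by nlinarith
  nlinarith

end pointwise

theorem sol_near {l : ℂ → ℂ} {Λ : ℝ} (hΛ : 10 ^ 9 ≤ Λ) (hl : Sol l (ball (-Λ : ℂ) (Λ / 2)))
    {Y : ℂ} (hY : ‖Y + Λ‖ ≤ Λ / 100) : Y ∈ ball (-Λ : ℂ) (Λ / 2) ∧ ‖l Y‖ ≤ 1 / 1000000 ∧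
      ‖rhs Y (l Y)‖ ≤ 1024 / Λ ^ 2 := by
  have m : Y ∈ ball (-Λ : ℂ) (Λ / 2) := by
    rw [mem_ball, dist_eq_norm, sub_neg_eq_add]; linarith
  have b : ∀ z ∈ ball (-Λ : ℂ) (Λ / 2), ‖l z‖ ≤ 256 / Λ := fun z hz => by
    have a := abs_le.1 (abs_norm_sub_norm_le z (-Λ : ℂ))
    rw [mem_ball, dist_eq_norm] at hz
    rw [norm_neg, Complex.norm_real, Real.norm_of_nonneg (by linarith)] at a
    refine (hl.bd z (by rwa [mem_ball, dist_eq_norm])).trans ?_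
    rw [div_le_div_iff₀ (by linarith [a.1]) (by linarith)]
    linarith [a.1]
  refine ⟨m, (b Y m).trans ?_, ?_⟩
  · rw [div_le_div_iff₀ (by linarith) (by norm_num)]; linarith
  · have := cauchy_ball (F := l) (p := Y) (r := Λ / 4)
      (fun z hz => (hl.der z hz).differentiableAt.differentiableWithinAt) b (by linarith)
      (by rw [sub_neg_eq_add]; linarith)
    rw [(hl.der Y m).deriv] at this
    refine this.trans (le_of_eq ?_)
    field_simp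
    norm_num

/-- Interpolation between two terminal data: the variation of `Y` does not contribute. -/
theorem interp {l : ℂ → ℂ} {Λ δ₀ ε : ℝ} (hδ : 0 < δ₀) (hδ1 : δ₀ ≤ 1) (hΛ : 10 ^ 9 ≤ δ₀ * Λ)
    (hl : Sol l (ball (-Λ : ℂ) (Λ / 2))) {Yf hf f : ℂ → ℂ}
    (dY : DifferentiableOn ℂ Yf (ball 0 δ₀)) (dh : DifferentiableOn ℂ hf (ball 0 δ₀))
    (df : DifferentiableOn ℂ f (ball 0 δ₀))
    (bY : ∀ p ∈ ball (0 : ℂ) δ₀, ‖Yf p + Λ‖ ≤ Λ / 100)
    (bh : ∀ p ∈ ball (0 : ℂ) δ₀, ‖hf p - 1 + 4 * p‖ ≤ δ₀ / 100)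
    (fv : ∀ p ∈ ball (0 : ℂ) (δ₀ / 2),
      ‖deriv f p - 2 * hf p / lI (Yf p) (hf p) * deriv Yf p‖ ≤ ε)
    {p₁ p₂ : ℂ} (h₁ : ‖p₁‖ ≤ δ₀ / 4) (h₂ : ‖p₂‖ ≤ δ₀ / 4)
    (s₁ : ‖hf p₁ - 1 / (1 - l (Yf p₁))‖ ≤ δ₀ / (10 ^ 6 * Λ))
    (s₂ : ‖hf p₂ - 1 / (1 - l (Yf p₂))‖ ≤ δ₀ / (10 ^ 6 * Λ)) :
    ‖f p₂ - f p₁ + 4 * HI (Yf p₂) (hf p₂) - 4 * HI (Yf p₁) (hf p₁) + 8 / Real.sqrt Λ *
        ((hf p₂ - 1 / (1 - l (Yf p₂))) - (hf p₁ - 1 / (1 - l (Yf p₁))))‖ ≤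
      (1 / Real.sqrt Λ + ε) *
        ‖(hf p₂ - 1 / (1 - l (Yf p₂))) - (hf p₁ - 1 / (1 - l (Yf p₁)))‖ := by
  have Λ0 : 0 < Λ := by
    by_contra hn
    nlinarith [mul_nonneg hδ.le (neg_nonneg.2 (not_lt.1 hn))]
  have Λ1 : 10 ^ 9 ≤ Λ := by nlinarith
  have e0 : 0 ≤ ε := (norm_nonneg _).trans (fv 0 (mem_ball_self (by linarith)))
  obtain ⟨r, hr⟩ : ∃ r, r = Real.sqrt Λ := ⟨_, rfl⟩
  have rs : r ^ 2 = Λ := by rw [hr]; exact Real.sq_sqrt Λ0.le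
  have r1 : 30000 ≤ r := by rw [hr]; exact Real.le_sqrt_of_sq_le (by linarith)
  have r0 : 0 < r := by linarith
  rw [← hr]
  obtain ⟨G, hG⟩ : ∃ G : ℂ → ℂ, G = fun p => hf p - 1 / (1 - l (Yf p)) := ⟨_, rfl⟩
  have eG : ∀ p, hf p - 1 / (1 - l (Yf p)) = G p := fun p => by rw [hG]
  rw [eG] at s₁ s₂
  rw [eG, eG]
  have mem : ∀ p : ℂ, ‖p‖ ≤ δ₀ / 4 → p ∈ ball (0 : ℂ) δ₀ := fun p hp => by
    rw [mem_ball_zero_iff]; linarith
  have at1 : ∀ {F : ℂ → ℂ}, DifferentiableOn ℂ F (ball 0 δ₀) → ∀ p : ℂ, ‖p‖ ≤ δ₀ / 4 →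
      HasDerivAt F (deriv F p) p := fun hF p hp =>
    (hF.differentiableAt (isOpen_ball.mem_nhds (mem p hp))).hasDerivAt
  have cY : ∀ p : ℂ, ‖p‖ ≤ δ₀ / 4 → ‖deriv Yf p‖ ≤ Λ / 100 / (δ₀ / 2) := fun p hp => by
    have := cauchy_ball (F := fun p => Yf p + Λ) (p := p) (r := δ₀ / 2) (dY.add_const _) bY
      (by linarith) (by rw [sub_zero]; linarith)
    rwa [deriv_add_const] at this
  have ch : ∀ p : ℂ, ‖p‖ ≤ δ₀ / 4 → ‖deriv hf p + 4‖ ≤ 1 / 50 := fun p hp => by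
    have := cauchy_ball (F := fun p => hf p - 1 + 4 * p) (p := p) (r := δ₀ / 2)
      (by fun_prop) bh (by linarith) (by rw [sub_zero]; linarith)
    have d : HasDerivAt (fun p => hf p - 1 + 4 * p) (deriv hf p + 4) p :=
      (((at1 dh p hp).sub_const 1).add ((hasDerivAt_id p).const_mul 4)).congr_deriv (by simp)
    rw [d.deriv] at this
    refine this.trans (le_of_eq ?_)
    field_simp
    norm_num
  have sn := fun p hp => sol_near Λ1 hl (bY p (mem p hp))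
  -- the derivative of `G`
  obtain ⟨G', hG'⟩ : ∃ G' : ℂ → ℂ, G' = fun p =>
    deriv hf p - rhs (Yf p) (l (Yf p)) / (1 - l (Yf p)) ^ 2 * deriv Yf p := ⟨_, rfl⟩
  have dG : ∀ p : ℂ, ‖p‖ ≤ δ₀ / 4 → HasDerivAt G (G' p) p := fun p hp => by
    have d1 : HasDerivAt (fun p => l (Yf p)) _ p := (hl.der _ (sn p hp).1).comp p (at1 dY p hp)
    have d2 := (at1 dh p hp).sub ((d1.const_sub 1).inv (one_sub_bounds (sn p hp).2.1).1)
    rw [hG, hG']
    refine (d2.congr_deriv (by ring)).congr_of_eventuallyEq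
      (Eventually.of_forall fun t => by simp)
  have cG : ∀ p : ℂ, ‖p‖ ≤ δ₀ / 4 → ‖G' p + 4‖ ≤ 21 / 1000 := fun p hp => by
    obtain ⟨-, a1, a2⟩ := sn p hp
    obtain ⟨-, -, a3⟩ := one_sub_bounds a1
    have b : ‖rhs (Yf p) (l (Yf p)) / (1 - l (Yf p)) ^ 2 * deriv Yf p‖ ≤
        1024 / Λ ^ 2 * 2 * (Λ / 100 / (δ₀ / 2)) := by
      rw [div_eq_mul_one_div, ← one_div_pow, norm_mul, norm_mul, norm_pow]
      gcongr
      · nlinarith [norm_nonneg (1 / (1 - l (Yf p)))]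
      · exact cY p hp
    have c : 1024 / Λ ^ 2 * 2 * (Λ / 100 / (δ₀ / 2)) ≤ 1 / 1000 := by
      rw [show 1024 / Λ ^ 2 * 2 * (Λ / 100 / (δ₀ / 2)) = 1024 / 25 / (δ₀ * Λ) by field_simp; ring,
        div_le_iff₀ (by positivity)]
      linarith
    rw [hG', show ∀ x y : ℂ, x - y + 4 = x + 4 - y from fun x y => by ring]
    linarith [norm_sub_le (deriv hf p + 4)
      (rhs (Yf p) (l (Yf p)) / (1 - l (Yf p)) ^ 2 * deriv Yf p), ch p hp]
  have cb := convex_closedBall (0 : ℂ) (δ₀ / 4)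
  have mv : ∀ p q : ℂ, ‖p‖ ≤ δ₀ / 4 → ‖q‖ ≤ δ₀ / 4 →
      ‖G q + 4 * q - (G p + 4 * p)‖ ≤ 21 / 1000 * ‖q - p‖ := fun p q hp hq =>
    cb.norm_image_sub_le_of_norm_hasDerivWithin_le (f := fun p => G p + 4 * p)
      (f' := fun p => G' p + 4) (fun x hx => (((dG x (mem_closedBall_zero_iff.1 hx)).add
        ((hasDerivAt_id x).const_mul 4)).congr_deriv (by simp)).hasDerivWithinAt)
      (fun x hx => cG x (mem_closedBall_zero_iff.1 hx)) (mem_closedBall_zero_iff.2 hp)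
      (mem_closedBall_zero_iff.2 hq)
  have two : ∀ p q : ℂ, ‖p‖ ≤ δ₀ / 4 → ‖q‖ ≤ δ₀ / 4 →
      3 * ‖q - p‖ ≤ ‖G q - G p‖ ∧ ‖G q - G p‖ ≤ 5 * ‖q - p‖ := fun p q hp hq => by
    have a := mv p q hp hq
    rw [show G q + 4 * q - (G p + 4 * p) = G q - G p - 4 * (p - q) by ring] at a
    have b := abs_le.1 ((abs_norm_sub_norm_le _ _).trans a)
    rw [norm_mul, Complex.norm_ofNat, norm_sub_rev p q] at b
    constructor <;> linarith [b.1, b.2, norm_nonneg (q - p)]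
  have seg : ∀ p ∈ segment ℝ p₁ p₂, ‖p‖ ≤ δ₀ / 4 ∧ ‖G p‖ ≤ 5 * (δ₀ / (10 ^ 6 * Λ)) :=
    fun p hp => by
      have a : ‖p‖ ≤ δ₀ / 4 := mem_closedBall_zero_iff.1 (cb.segment_subset
        (mem_closedBall_zero_iff.2 h₁) (mem_closedBall_zero_iff.2 h₂) hp)
      have b : ‖p - p₁‖ ≤ ‖p₂ - p₁‖ := by
        have := (convex_closedBall p₁ ‖p₂ - p₁‖).segment_subset
          (mem_closedBall_self (norm_nonneg _)) (mem_closedBall_iff_norm.2 le_rfl) hp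
        exact mem_closedBall_iff_norm.1 this
      refine ⟨a, ?_⟩
      linarith [(two p₁ p h₁ a).2, (two p₁ p₂ h₁ h₂).1, norm_sub_norm_le (G p) (G p₁),
        norm_sub_le (G p₂) (G p₁), norm_nonneg (G p₁)]
  have sm : δ₀ / (10 ^ 6 * Λ) ≤ 1 / 10 ^ 6 := by
    rw [div_le_div_iff₀ (by positivity) (by norm_num)]; nlinarith
  have hY : ∀ p : ℂ, ‖p‖ ≤ δ₀ / 4 → ‖Yf p + (r ^ 2 : ℝ)‖ ≤ r ^ 2 / 100 := fun p hp => by
    rw [rs]; exact bY p (mem p hp)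
  have h1 : ∀ p ∈ segment ℝ p₁ p₂, ‖hf p - 1‖ ≤ 1 / 10000 := fun p hp => by
    obtain ⟨a, b⟩ := seg p hp
    have c := (one_sub_bounds (sn p a).2.1).2.1
    rw [show hf p - 1 = G p + (1 / (1 - l (Yf p)) - 1) by rw [← eG]; ring]
    linarith [norm_add_le (G p) (1 / (1 - l (Yf p)) - 1)]
  have main := (convex_segment p₁ p₂).norm_image_sub_le_of_norm_hasDerivWithin_le
    (f := fun p => f p + 4 * HI (Yf p) (hf p) + 8 / r * G p)
    (f' := fun p => (deriv f p - 2 * hf p / lI (Yf p) (hf p) * deriv Yf p) +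
      (2 * hf p / lI (Yf p) (hf p) + 4 * HY (Yf p) (hf p) + 4 * Hh (Yf p) (hf p) *
        (rhs (Yf p) (l (Yf p)) / (1 - l (Yf p)) ^ 2)) * deriv Yf p +
      (4 * Hh (Yf p) (hf p) + 8 / r) * G' p) (C := 3 * (1 / r + ε))
    (fun p hp => by
      have a := (seg p hp).1
      refine ((((at1 df p a).add ((hasDerivAt_HI (at1 dY p a) (at1 dh p a)
        (near_slit r1 (hY p a) (h1 p hp))).const_mul 4)).add
        ((dG p a).const_mul (8 / r : ℂ))).congr_deriv ?_).hasDerivWithinAt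
      simp only [hG']
      ring)
    (fun p hp => by
      obtain ⟨a, b⟩ := seg p hp
      have c1 := fv p (by rw [mem_ball_zero_iff]; linarith)
      have c2 := near_HJ r1 (hY p a) (h1 p hp) (sn p a).2.1
      have c3 := near_Hh r1 (hY p a) (h1 p hp)
      have c4 : ‖G' p‖ ≤ 5 := by
        have := norm_sub_le (G' p + 4) 4
        rw [add_sub_cancel_right, Complex.norm_ofNat] at this
        linarith [cG p a]
      rw [eG] at c2
      have c5 := mul_le_mul (c2.trans (mul_le_mul_of_nonneg_left b (by positivity))) (cY p a)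
        (norm_nonneg _) (by positivity)
      have c6 := mul_le_mul c3 c4 (norm_nonneg _) (by positivity)
      rw [← norm_mul] at c5 c6
      have c7 : 3 / r * (5 * (δ₀ / (10 ^ 6 * Λ))) * (Λ / 100 / (δ₀ / 2)) =
        3 / 10 ^ 7 * (1 / r) := by field_simp; norm_num
      have c8 : 1 / 2 / r * 5 = 5 / 2 * (1 / r) := by ring
      have c9 : 0 < 1 / r := by positivity
      refine norm_add₃_le.trans ?_
      linarith)
    (left_mem_segment ℝ p₁ p₂) (right_mem_segment ℝ p₁ p₂)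
  refine le_trans (le_of_eq (congrArg _ (by ring))) (main.trans ?_)
  rw [mul_comm 3, mul_assoc]
  exact mul_le_mul_of_nonneg_left (two p₁ p₂ h₁ h₂).1 (by positivity)

/-- the difference of the two slow solutions near the reference point -/
theorem slow_diff {k l : ℂ → ℂ} {Λ : ℝ} (hΛ : 10 ^ 9 ≤ Λ) (hk : Sol k (ball (-Λ : ℂ) (Λ / 2)))
    (hl : Sol l (ball (-Λ : ℂ) (Λ / 2))) {Y : ℂ} (hY : ‖Y + Λ‖ ≤ 1 / 100) :
    ‖1 / (1 - k Y) - 1 / (1 - l Y) - (k (-Λ) - l (-Λ))‖ ≤ 1 / 100 * ‖k (-Λ) - l (-Λ)‖ := by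
  have nr : ∀ z ∈ closedBall (-Λ : ℂ) (1 / 100), ‖z + Λ‖ ≤ Λ / 100 := fun z hz => by
    rw [mem_closedBall, dist_eq_norm, sub_neg_eq_add] at hz; linarith
  have d : ∀ z ∈ closedBall (-Λ : ℂ) (1 / 100), HasDerivAt (fun z => k z - l z)
      ((1 / 4 + cf z (k z) (l z)) * (k z - l z)) z := fun z hz =>
    ((hk.der z (sol_near hΛ hk (nr z hz)).1).sub
      (hl.der z (sol_near hΛ hk (nr z hz)).1)).congr_deriv (rhs_sub _ _ _)
  have c0 : (-Λ : ℂ) ∈ closedBall (-Λ : ℂ) (1 / 100) := mem_closedBall_self (by norm_num)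
  obtain ⟨z, hz, mx⟩ := (isCompact_closedBall (-Λ : ℂ) (1 / 100)).exists_isMaxOn ⟨_, c0⟩
    (f := fun z => ‖k z - l z‖) fun z hz => (d z hz).continuousAt.norm.continuousWithinAt
  have mv : ∀ y ∈ closedBall (-Λ : ℂ) (1 / 100),
      ‖k y - l y - (k (-Λ) - l (-Λ))‖ ≤ 3 / 1000 * ‖k z - l z‖ := fun y hy => by
    have := (convex_closedBall (-Λ : ℂ) (1 / 100)).norm_image_sub_le_of_norm_hasDerivWithin_le
      (C := 3 / 10 * ‖k z - l z‖) (fun x hx => (d x hx).hasDerivWithinAt) (fun x hx => by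
        obtain ⟨a1, a2, -⟩ := sol_near hΛ hk (nr x hx)
        have a3 := norm_cf_le (hk.far x a1) (a2.trans (by norm_num))
          ((sol_near hΛ hl (nr x hx)).2.1.trans (by norm_num))
        have a4 := norm_add_le (1 / 4) (cf x (k x) (l x))
        rw [norm_div, norm_one, Complex.norm_ofNat] at a4
        rw [norm_mul]
        exact mul_le_mul (by linarith) (mx hx) (norm_nonneg _) (by norm_num)) c0 hy
    rw [mem_closedBall, dist_eq_norm] at hy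
    nlinarith [norm_nonneg (k z - l z)]
  have hY' : Y ∈ closedBall (-Λ : ℂ) (1 / 100) := by
    rwa [mem_closedBall, dist_eq_norm, sub_neg_eq_add]
  have m1 : ‖k z - l z‖ ≤ 2 * ‖k (-Λ) - l (-Λ)‖ := by
    linarith [mv z hz, norm_sub_norm_le (k z - l z) (k (-Λ) - l (-Λ)), norm_nonneg (k z - l z)]
  have m2 := mv Y hY'
  have m3 : ‖k Y - l Y‖ ≤ ‖k z - l z‖ := mx hY'
  obtain ⟨a1, a2, a3⟩ := one_sub_bounds (sol_near hΛ hk (nr Y hY')).2.1
  obtain ⟨b1, b2, -⟩ := one_sub_bounds (sol_near hΛ hl (nr Y hY')).2.1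
  have e : 1 / (1 - k Y) - 1 / (1 - l Y) - (k (-Λ) - l (-Λ)) =
      (1 / (1 - k Y) * (1 / (1 - l Y) - 1) + (1 / (1 - k Y) - 1)) * (k Y - l Y) +
        (k Y - l Y - (k (-Λ) - l (-Λ))) := by
    field_simp
    ring
  have m4 : ‖1 / (1 - k Y) * (1 / (1 - l Y) - 1) + (1 / (1 - k Y) - 1)‖ ≤ 1 / 1000 := by
    refine (norm_add_le _ _).trans ?_
    rw [norm_mul]
    nlinarith [norm_nonneg (1 / (1 - l Y) - 1)]
  have m5 := mul_le_mul m4 m3 (norm_nonneg _) (by norm_num)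
  rw [e]
  refine (norm_add_le _ _).trans ?_
  rw [norm_mul]
  linarith [norm_nonneg (k (-Λ) - l (-Λ))]

theorem ball_sub_DD {Λ s : ℝ} (hs : s = 1 ∨ s = -1) (hΛ : 10 ^ 9 ≤ Λ) :
    ball (-Λ : ℂ) (Λ / 2) ⊆ DD s := fun Y hY => by
  rw [mem_ball, dist_eq_norm, sub_neg_eq_add] at hY
  have a : ‖Y + Λ‖ ^ 2 = (Y.re + Λ) ^ 2 + Y.im ^ 2 := by
    rw [Complex.sq_norm, Complex.normSq_apply]; simp; ring
  have b : (Y.re + Λ) ^ 2 + Y.im ^ 2 ≤ (Λ / 2) ^ 2 := by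
    rw [← a]; exact pow_le_pow_left₀ (norm_nonneg _) hY.le 2
  have c1 := abs_le_of_sq_le_sq' (a := Y.re + Λ + Y.im) (b := 3 / 4 * Λ)
    (by nlinarith [sq_nonneg (Y.re + Λ - Y.im)]) (by linarith)
  have c2 := abs_le_of_sq_le_sq' (a := Y.re + Λ - Y.im) (b := 3 / 4 * Λ)
    (by nlinarith [sq_nonneg (Y.re + Λ + Y.im)]) (by linarith)
  right
  rw [lt_abs]
  rcases hs with rfl | rfl
  · left; linarith [c2.2]
  · right; linarith [c1.2]

end Vale.Agent.P218N.J
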