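import Vale.Agent.P218N.J.Ctx
import Vale.Agent.P218N.J.Ode

/-! The jump in the inner variables. -/

open Filter Topology Metric Set Complex
open scoped ComplexConjugate

noncomputable section

namespace Vale.Agent.P218N.J

open Vale.Agent.P218N.End

open Vale.Agent.P218N.Stokes

variable {k l : ℂ → ℂ} {c₀ : ℝ}

theorem abs_pow_exp (C : ℝ) {b c : ℝ} (hb : 0 < b) (hc : 0 < c) (n : ℕ) :
    ∀ᶠ L : ℝ in atTop, C * ((22 * L) ^ n * Real.exp (-(b * L))) ≤ c := by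
  have h1 := (((Real.tendsto_pow_mul_exp_neg_atTop_nhds_zero n).comp
    (tendsto_id.const_mul_atTop hb)).const_mul ((22 / b) ^ n)).const_mul C
  rw [mul_zero, mul_zero] at h1
  refine (h1.eventually_le_const hc).mono fun L h => le_trans (le_of_eq ?_) h
  simp only [Function.comp, id]
  rw [← mul_assoc ((22 / b) ^ n), ← mul_pow, ← mul_assoc (22 / b), div_mul_cancel₀ _ hb.ne']

/-- the estimates along one arm -/
theorem arm_est {s L η : ℝ} (hs : s = 1 ∨ s = -1) (hk : Sol k (DD s)) (hL : 10 ^ 8 ≤ L)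
    (hη : 0 < η) : ∀ᶠ ε in 𝓝[>] (0 : ℝ), ∀ Y₀ h₀ J : ℂ, ‖Y₀ + (22 * L : ℝ)‖ ≤ 1 / 200 →
      Arm s L ε Y₀ h₀ J →
      ‖J - 4 * (Real.exp (22 * L / 4) * HI Y₀ h₀)‖ ≤ 80 * √L * Real.exp (-(L / 8)) + η ∧
        ‖h₀ - 1 / (1 - k Y₀)‖ ≤ 3 * Real.exp (-(223 / 40 * L)) + η := by
  have hΛ : 10 ^ 9 ≤ 22 * L := by linarith
  have hk' := hk.mono (ball_sub_DD hs hΛ)
  have E1 : 1 ≤ Real.exp (22 * L / 4) := Real.one_le_exp (by linarith)
  have sn : ∀ Y : ℂ, ‖Y + (22 * L : ℝ)‖ ≤ 1 → _ := fun Y hY =>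
    sol_near hΛ hk' (hY.trans (by linarith))
  have hc : ContinuousOn (fun z : ℂ × ℂ => (HI z.1 z.2, 1 / (1 - k z.1)))
      (closedBall (-(22 * L : ℝ) : ℂ) 1 ×ˢ closedBall 1 1) := fun z hz => by
    have h1 : ‖z.1 + (22 * L : ℝ)‖ ≤ 1 := by
      simpa only [mem_closedBall, dist_eq_norm, sub_neg_eq_add] using hz.1
    have h2 : ‖z.2‖ ≤ 2 := by
      linarith [norm_sub_norm_le z.2 1, norm_one (α := ℂ), mem_closedBall_iff_norm.1 hz.2]
    have h3 : ‖2 * z.2 ^ 2‖ ≤ 8 := by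
      rw [norm_mul, norm_pow, Complex.norm_ofNat]
      nlinarith [norm_nonneg z.2]
    have h4 := (abs_le.1 ((Complex.abs_re_le_norm _).trans h3)).1
    have h5 := (abs_le.1 ((Complex.abs_re_le_norm _).trans h1)).2
    rw [add_re, ofReal_re] at h5
    refine ((hasFDerivAt_HI (E := ℂ × ℂ) (p := z) hasFDerivAt_fst hasFDerivAt_snd
      (.inl (by rw [sub_re]; linarith))).continuousAt.prodMk (continuousAt_const.div
        (continuousAt_const.sub (ContinuousAt.comp (g := k) (hk'.der _ (sn _ h1).1).continuousAt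
          continuousAt_fst)) (one_sub_bounds (sn _ h1).2.1).1)).continuousWithinAt
  obtain ⟨δ, hδ, hu⟩ := Metric.uniformContinuousOn_iff.1
    (((isCompact_closedBall _ _).prod (isCompact_closedBall _ _)).uniformContinuousOn_of_continuous
      hc) (η / (8 * Real.exp (22 * L / 4))) (by positivity)
  have t1 : Tendsto (fun ε : ℝ => ε * (25 * L * Real.exp (22 * L / 4) +
      50 * L * Real.exp (25 * L / 1000) + 1)) (𝓝[>] 0) (𝓝 (0 * _)) :=
    (tendsto_id.mono_left nhdsWithin_le_nhds).mul_const _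
  rw [zero_mul] at t1
  filter_upwards [t1.eventually_le_const (half_pos hη), mem_nhdsWithin_of_mem_nhds
    (gt_mem_nhds (lt_min hδ one_half_pos))] with ε e1 e2 Y₀ h₀ J hY
    ⟨t₀, t₁, g, w, Y, h, q, H, hD, w0, w1, y1, y2, y0, h0, hJ⟩
  have e0 := H.eps_nonneg
  obtain ⟨e3, e4⟩ := lt_min_iff.1 e2
  have m0 := left_mem_Icc.2 H.le
  have m1 := right_mem_Icc.2 H.le
  have a1 : ‖Y t₀ + (22 * L : ℝ)‖ ≤ 1 := by
    have := norm_sub_le (Y₀ + (22 * L : ℝ)) (Y₀ - Y t₀)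
    rw [show Y₀ + (22 * L : ℝ) - (Y₀ - Y t₀) = Y t₀ + (22 * L : ℝ) by ring] at this
    linarith
  have a0 : ‖h₀ - 1‖ ≤ 1 := by
    linarith [norm_sub_le_norm_sub_add_norm_sub h₀ (h t₀) 1, H.h1 t₀ m0]
  have a2 := hu (Y₀, h₀) ⟨by
      simpa only [mem_closedBall, dist_eq_norm, sub_neg_eq_add] using hY.trans (by norm_num),
    mem_closedBall_iff_norm.2 a0⟩ (Y t₀, h t₀) ⟨by
      simpa only [mem_closedBall, dist_eq_norm, sub_neg_eq_add] using a1,
    mem_closedBall_iff_norm.2 ((H.h1 t₀ m0).trans (by norm_num))⟩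
    (by
      rw [Prod.dist_eq, dist_eq_norm, dist_eq_norm]
      exact max_lt (y0.trans_lt e3) (h0.trans_lt e3))
  rw [Prod.dist_eq, max_lt_iff, dist_eq_norm, dist_eq_norm] at a2
  obtain ⟨a3, a4⟩ := a2
  simp only at a3 a4
  have L0 : 0 < L := by linarith
  have p1 : 0 ≤ ε * (25 * L * Real.exp (22 * L / 4)) := by positivity
  have p2 : 0 ≤ ε * (50 * L * Real.exp (25 * L / 1000)) := by positivity
  constructor
  · have b1 := H.noether
    have b2 : Complex.exp (-w t₀ / 4) = Real.exp (22 * L / 4) := by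
      rw [w0, neg_neg, Complex.ofReal_exp]
      push_cast
      rfl
    rw [← hJ, b2, w0, neg_re, ofReal_re, neg_neg] at b1
    have b3 : ‖Complex.exp (-w t₁ / 4) * HI (Y t₁) (h t₁)‖ ≤ Real.exp (-(L / 8)) * (20 * √L) := by
      rw [norm_mul, Complex.norm_exp]
      refine mul_le_mul (Real.exp_le_exp.2 ?_) ((norm_HI_le (H.h1 t₁ m1) (H.far t₁ m1).1).trans ?_)
        (norm_nonneg _) (Real.exp_pos _).le
      · simp only [neg_div, neg_re, div_ofNat_re]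
        linarith
      · have := Real.sqrt_le_sqrt y2
        rw [Real.sqrt_mul (by norm_num), show (100 : ℝ) = 10 ^ 2 by norm_num,
          Real.sqrt_sq (by norm_num)] at this
        linarith
    have b4 : ‖(Real.exp (22 * L / 4) : ℂ) * (HI Y₀ h₀ - HI (Y t₀) (h t₀))‖ ≤ η / 8 := by
      rw [norm_mul, Complex.norm_real, Real.norm_of_nonneg (Real.exp_pos _).le]
      refine (mul_le_mul_of_nonneg_left a3.le (Real.exp_pos _).le).trans (le_of_eq ?_)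
      field_simp
    have b5 : J - 4 * (Real.exp (22 * L / 4) * HI Y₀ h₀) =
        J - 4 * (Real.exp (22 * L / 4) * HI (Y t₀) (h t₀) -
          Complex.exp (-w t₁ / 4) * HI (Y t₁) (h t₁)) -
        4 * (Complex.exp (-w t₁ / 4) * HI (Y t₁) (h t₁) +
          Real.exp (22 * L / 4) * (HI Y₀ h₀ - HI (Y t₀) (h t₀))) := by ring
    rw [b5]
    refine (norm_sub_le _ _).trans ?_
    rw [norm_mul 4, Complex.norm_ofNat]
    linarith [norm_add_le_of_le b3 b4]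
  · have b1 := H.cmp hk hD
    obtain ⟨c1, -, c3⟩ := one_sub_bounds (sn _ a1).2.1
    obtain ⟨c4, c5⟩ := norm_h_bounds (H.h1 t₀ m0)
    have c6 : h t₀ ≠ 0 := norm_pos_iff.1 (by linarith)
    have c7 := (abs_le.1 ((Complex.abs_re_le_norm _).trans a1)).2
    rw [add_re, ofReal_re] at c7
    have b2 : Real.exp (25 * L / 1000) * Real.exp (((Y t₀).re - (Y t₁).re) / 4) ≤
        Real.exp (-(223 / 40 * L)) * (4 / 3) := by
      have := Real.exp_bound_div_one_sub_of_interval' (x := 1 / 4) (by norm_num) (by norm_num)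
      rw [← Real.exp_add]
      refine (Real.exp_le_exp.2 (by linarith : _ ≤ -(223 / 40 * L) + 1 / 4)).trans ?_
      rw [Real.exp_add]
      exact mul_le_mul_of_nonneg_left (by linarith) (Real.exp_pos _).le
    have b3 : ‖h t₀ * (1 / (1 - k (Y t₀))) * (1 - 1 / h t₀ - k (Y t₀))‖ ≤
        2 * ‖1 - 1 / h t₀ - k (Y t₀)‖ := by
      rw [norm_mul, norm_mul]
      exact mul_le_mul_of_nonneg_right (by nlinarith [norm_nonneg (1 / (1 - k (Y t₀)))])
        (norm_nonneg _)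
    have b4 : h₀ - 1 / (1 - k Y₀) = h t₀ * (1 / (1 - k (Y t₀))) * (1 - 1 / h t₀ - k (Y t₀)) +
        (h₀ - h t₀) - (1 / (1 - k Y₀) - 1 / (1 - k (Y t₀))) := by
      field_simp
      ring
    have b5 : η / (8 * Real.exp (22 * L / 4)) ≤ η / 8 :=
      div_le_div_of_nonneg_left hη.le (by norm_num) (by linarith)
    rw [b4]
    refine (norm_sub_le_of_le (norm_add_le_of_le b3 h0) a4.le).trans ?_
    linarith [Real.exp_pos (-(223 / 40 * L))]

theorem abs_ref {L : ℝ} (hL : 10 ^ 7 ≤ L) : 256001 + |(-(22 * L : ℝ) : ℂ).im| ≤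
    -(-(22 * L : ℝ) : ℂ).re := by
  simp only [neg_im, ofReal_im, neg_zero, abs_zero, neg_re, ofReal_re, neg_neg]
  linarith

/-- `interp` with `p₂ = pp`, `p₁ = pm`, `Λ = 22 L`; `arm_est` on both arms; `slow_diff`. -/
theorem jump_abs (hc : 0 < c₀) (hk : Sol k (DD 1)) (hl : Sol l (DD (-1)))
    (hs : ∀ Y : ℂ, 256001 + |Y.im| ≤ -Y.re →
      c₀ * Real.exp (Y.re / 4) ≤ ‖k Y - l Y‖ * (-Y.re) ^ 130 ∧
      c₀ * ‖k Y - l Y‖ ≤ Real.exp (Y.re / 4) * (-Y.re) ^ 130)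
    {δ : ℝ} (hδ : 0 < δ) (hδ1 : δ ≤ 1) : ∀ᶠ L : ℝ in atTop, ∀ᶠ ε in 𝓝[>] (0 : ℝ),
    ∀ (Yf hf f : ℂ → ℂ) (εf : ℝ) (pp pm Jp Jm : ℂ), DifferentiableOn ℂ Yf (ball 0 δ) →
      DifferentiableOn ℂ hf (ball 0 δ) → DifferentiableOn ℂ f (ball 0 δ) →
      (∀ p ∈ ball (0 : ℂ) δ, ‖Yf p + (22 * L : ℝ)‖ ≤ 22 * L / 100) →
      (∀ p ∈ ball (0 : ℂ) δ, ‖hf p - 1 + 4 * p‖ ≤ δ / 100) →
      (∀ p ∈ ball (0 : ℂ) (δ / 2),
        ‖deriv f p - 2 * hf p / lI (Yf p) (hf p) * deriv Yf p‖ ≤ εf) →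
      ‖pp‖ ≤ δ / 4 → ‖pm‖ ≤ δ / 4 → ‖Yf pp + (22 * L : ℝ)‖ ≤ 1 / 200 →
      ‖Yf pm + (22 * L : ℝ)‖ ≤ 1 / 200 → Arm 1 L ε (Yf pp) (hf pp) Jp →
      Arm (-1) L ε (Yf pm) (hf pm) Jm →
      ‖(Real.exp (22 * L / 4) * f pp + Jp) - (Real.exp (22 * L / 4) * f pm + Jm) -
          -8 / Real.sqrt (22 * L) * Real.exp (22 * L / 4) *
            (k (-(22 * L : ℝ)) - l (-(22 * L : ℝ)))‖ ≤
        1 / 5 * ‖-8 / Real.sqrt (22 * L) * Real.exp (22 * L / 4) *
            (k (-(22 * L : ℝ)) - l (-(22 * L : ℝ)))‖ + εf * Real.exp (22 * L / 4) := by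
  filter_upwards [eventually_ge_atTop (10 ^ 8 / δ),
    abs_pow_exp (2 * 10 ^ 6) (b := 3 / 40) (by norm_num) (mul_pos hδ hc) 131] with L hL hbig
  rw [div_le_iff₀ hδ] at hL
  have L0 : 0 < L := by
    by_contra hn
    nlinarith [mul_nonneg hδ.le (neg_nonneg.2 (not_lt.1 hn))]
  have L1 : 10 ^ 8 ≤ L := by nlinarith
  have hΛ : 10 ^ 9 ≤ 22 * L := by linarith
  obtain ⟨s1, s2⟩ := hs _ (abs_ref (L := L) (by linarith))
  rw [neg_re, ofReal_re, neg_neg, neg_div, Real.exp_neg] at s1 s2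
  have hu : Real.exp (-(223 / 40 * L)) = Real.exp (-(3 / 40 * L)) / Real.exp (22 * L / 4) := by
    rw [← Real.exp_sub]
    congr 1
    ring
  have u1 : Real.exp (-(L / 8)) ≤ Real.exp (-(3 / 40 * L)) := Real.exp_le_exp.2 (by linarith)
  have u2 : (Real.exp (22 * L / 4))⁻¹ ≤ Real.exp (-(3 / 40 * L)) := by
    rw [← Real.exp_neg]
    exact Real.exp_le_exp.2 (by linarith)
  have r0 : 0 < √(22 * L) := Real.sqrt_pos.2 (by linarith)
  have r1 : √L * √(22 * L) ≤ 22 * L :=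
    (mul_le_mul_of_nonneg_right (Real.sqrt_le_sqrt (by linarith)) r0.le).trans_eq
      (Real.mul_self_sqrt (by linarith))
  have N0 : 0 < (22 * L) ^ 130 := by positivity
  rw [pow_succ (22 * L) 130] at hbig
  set D := k (-(22 * L : ℝ)) - l (-(22 * L : ℝ)) with hD
  have arm := fun {k s η} h1 h2 h3 => arm_est (k := k) (s := s) (L := L) (η := η) h1 h2 L1 h3
  rw [hu] at arm
  have sd := fun {Y} h => slow_diff hΛ (hk.mono (ball_sub_DD (.inl rfl) hΛ))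
    (hl.mono (ball_sub_DD (.inr rfl) hΛ)) (Y := Y) h
  have itp := @interp l (22 * L) δ
  rw [← hD] at sd
  have E0 := Real.exp_pos (22 * L / 4)
  have u0 := Real.exp_pos (-(3 / 40 * L))
  generalize (22 * L) ^ 130 = N at *
  generalize Real.exp (22 * L / 4) = E at *
  generalize Real.exp (-(3 / 40 * L)) = u at *
  generalize √(22 * L) = r at *
  rw [← div_eq_mul_inv, div_le_iff₀ E0] at s1
  have k0 : 2 * 10 ^ 6 * (22 * L) * u ≤ E * ‖D‖ := by
    refine le_of_mul_le_mul_right ?_ N0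
    nlinarith [mul_le_of_le_one_left hc.le hδ1]
  have d0 : 0 < ‖D‖ := (mul_pos_iff_of_pos_left E0).1 (lt_of_lt_of_le (by positivity) k0)
  have k1 : 3 * (u / E) ≤ ‖D‖ / 200 := by
    rw [← mul_div_assoc, div_le_iff₀ E0]
    nlinarith
  have k2 : 80 * √L * Real.exp (-(L / 8)) ≤ E / r * ‖D‖ / 40 := by
    refine (mul_le_mul_of_nonneg_left u1 (by positivity)).trans ?_
    rw [div_mul_eq_mul_div, div_div, le_div_iff₀ (by positivity)]
    nlinarith [mul_le_mul_of_nonneg_right r1 u0.le, mul_pos L0 u0]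
  have k3 : 2 * ‖D‖ ≤ δ / (10 ^ 6 * (22 * L)) := by
    rw [le_div_iff₀ (by positivity)]
    refine le_of_mul_le_mul_right ?_ hc
    have := mul_le_mul_of_nonneg_left (s2.trans (mul_le_mul_of_nonneg_right u2 N0.le))
      (by positivity : 0 ≤ 2 * 10 ^ 6 * (22 * L))
    linarith
  have k4 : δ / (10 ^ 6 * (22 * L)) ≤ 1 / 2 := by
    rw [div_le_iff₀ (by positivity)]
    linarith
  have η0 : 0 < min (‖D‖ / 200) (E / r * ‖D‖ / 40) := lt_min (by positivity) (by positivity)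
  have η1 := min_le_left (‖D‖ / 200) (E / r * ‖D‖ / 40)
  have η2 := min_le_right (‖D‖ / 200) (E / r * ‖D‖ / 40)
  filter_upwards [arm (.inl rfl) hk η0, arm (.inr rfl) hl η0] with ε ap am Yf hf f εf pp pm Jp Jm
    dY dh df bY bh fv hp hm yp ym Ap Am
  obtain ⟨a1, a2⟩ := ap _ _ _ yp Ap
  obtain ⟨a3, a4⟩ := am _ _ _ ym Am
  have a5 := sd (yp.trans (by norm_num))
  have e0 : 0 ≤ εf := (norm_nonneg _).trans (fv 0 (mem_ball_self (by linarith)))
  have g1 : ‖hf pp - 1 / (1 - l (Yf pp)) - D‖ ≤ ‖D‖ / 50 := by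
    rw [show hf pp - 1 / (1 - l (Yf pp)) - D = (hf pp - 1 / (1 - k (Yf pp))) +
      (1 / (1 - k (Yf pp)) - 1 / (1 - l (Yf pp)) - D) by ring]
    linarith [norm_add_le_of_le a2 a5]
  have g2 : ‖hf pp - 1 / (1 - l (Yf pp))‖ ≤ ‖D‖ / 50 + ‖D‖ := by
    simpa only [sub_add_cancel] using norm_add_le_of_le g1 (le_refl ‖D‖)
  have a6 := itp hδ hδ1 (by linarith) (hl.mono (ball_sub_DD (.inr rfl) hΛ)) dY dh df bY bh fv hm hp
    (by linarith) (by linarith)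
  generalize hf pp - 1 / (1 - l (Yf pp)) = Gp at *
  generalize hf pm - 1 / (1 - l (Yf pm)) = Gm at *
  have g3 : ‖Gp - Gm‖ ≤ 103 / 100 * ‖D‖ := by linarith [norm_sub_le Gp Gm]
  have g4 : ‖Gp - D - Gm‖ ≤ 3 / 100 * ‖D‖ := by linarith [norm_sub_le (Gp - D) Gm]
  have e : (E * f pp + Jp) - (E * f pm + Jm) - -8 / r * E * D =
      E * (f pp - f pm + 4 * HI (Yf pp) (hf pp) - 4 * HI (Yf pm) (hf pm) + 8 / r * (Gp - Gm)) +
        -8 / r * E * (Gp - D - Gm) + ((Jp - 4 * (E * HI (Yf pp) (hf pp))) -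
          (Jm - 4 * (E * HI (Yf pm) (hf pm)))) := by ring
  have n1 : ∀ z : ℂ, ‖-8 / (r : ℂ) * E * z‖ = 8 * (E / r * ‖z‖) := fun z => by
    rw [norm_mul, norm_mul, norm_div, norm_neg, Complex.norm_ofNat, Complex.norm_real,
      Complex.norm_real, Real.norm_of_nonneg r0.le, Real.norm_of_nonneg E0.le]
    ring
  rw [e]
  refine norm_add₃_le.trans ?_
  rw [n1, n1, norm_mul, Complex.norm_real, Real.norm_of_nonneg E0.le]
  have b1 := mul_le_mul_of_nonneg_left a6 E0.le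
  have b2 := mul_le_mul_of_nonneg_left g3 (by positivity : 0 ≤ E / r)
  have b3 := mul_le_mul_of_nonneg_left g4 (by positivity : 0 ≤ E / r)
  have b4 := mul_le_of_le_one_right (mul_nonneg e0 E0.le) (g3.trans (by linarith))
  have b5 : E * ((1 / r + εf) * ‖Gp - Gm‖) = E / r * ‖Gp - Gm‖ + εf * E * ‖Gp - Gm‖ := by ring
  have b6 : 0 ≤ E / r * ‖D‖ := by positivity
  linarith [norm_sub_le_of_le a1 a3]

/-- the multiplier decays at most like a power -/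
theorem BL_big (hc : 0 < c₀) (hs : ∀ Y : ℂ, 256001 + |Y.im| ≤ -Y.re →
      c₀ * Real.exp (Y.re / 4) ≤ ‖k Y - l Y‖ * (-Y.re) ^ 130) (C : ℝ) :
    ∀ᶠ L : ℝ in atTop, 0 < ‖BL k l L‖ ∧ C * Real.exp (-(L / 10)) ≤ ‖BL k l L‖ := by
  have κ0 : 0 < 2 * Real.pi * (√2 / 4) * Real.exp (-1 / 2) := by positivity
  filter_upwards [eventually_ge_atTop (10 ^ 7),
    abs_pow_exp C (b := 1 / 10) (by norm_num) (mul_pos κ0 hc) 131] with L hL hbig
  have L0 : 0 < L := by linarith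
  have s1 := hs _ (abs_ref hL)
  rw [neg_re, ofReal_re, neg_neg, neg_div, Real.exp_neg, ← div_eq_mul_inv,
    div_le_iff₀ (Real.exp_pos _)] at s1
  have r0 : 0 < √(22 * L) := Real.sqrt_pos.2 (by linarith)
  have r2 : 0 < √(11 * L) := Real.sqrt_pos.2 (by linarith)
  have r1 : √(11 * L) * √(22 * L) ≤ 22 * L :=
    (mul_le_mul_of_nonneg_right (Real.sqrt_le_sqrt (by linarith)) r0.le).trans_eq
      (Real.mul_self_sqrt (by linarith))
  have e : ‖BL k l L‖ = 2 * Real.pi * (√2 / 4) * Real.exp (-1 / 2) * (8 * (Real.exp (22 * L / 4) *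
      ‖k (-(22 * L : ℝ)) - l (-(22 * L : ℝ))‖)) / (√(11 * L) * √(22 * L)) := by
    simp only [BL, norm_mul, norm_div, norm_neg, Complex.norm_ofNat, Complex.norm_real,
      Real.norm_of_nonneg r0.le, Real.norm_of_nonneg r2.le, Real.norm_of_nonneg Real.pi_pos.le,
      Real.norm_of_nonneg (Real.exp_pos _).le, Real.norm_of_nonneg (Real.sqrt_nonneg 2)]
    field_simp
  have N0 : 0 < (22 * L) ^ 130 := by positivity
  rw [pow_succ (22 * L) 130, one_div_mul_eq_div] at hbig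
  have low : 2 * Real.pi * (√2 / 4) * Real.exp (-1 / 2) * c₀ / ((22 * L) ^ 130 * (22 * L)) ≤
      ‖BL k l L‖ := by
    rw [e, mul_div_assoc, mul_div_assoc]
    refine mul_le_mul_of_nonneg_left ?_ κ0.le
    rw [div_le_div_iff₀ (by positivity) (by positivity)]
    nlinarith [mul_le_mul s1 r1 (by positivity) (hc.le.trans s1), mul_pos hc (mul_pos r2 r0)]
  refine ⟨lt_of_lt_of_le (by positivity) low, le_trans ?_ low⟩
  rw [le_div_iff₀ (by positivity)]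
  linarith

theorem abs_ell {L ϑ : ℝ} (hL : 0 < L) (hϑ : 0 < ϑ) :
    ∀ᶠ n in 𝓝[>] (0 : ℝ), n * (|ell n L| + 1) ^ 2 ≤ ϑ := by
  have h1 := tendsto_log_mul_rpow_nhdsGT_zero (r := 1 / 2) one_half_pos
  have h2 : Tendsto (fun n : ℝ => n ^ (1 / 2 : ℝ)) (𝓝[>] 0) (𝓝 0) := by
    simpa using (Real.continuousAt_rpow_const 0 (1 / 2)
      (.inr one_half_pos.le)).tendsto.mono_left nhdsWithin_le_nhds
  have h3 := (((h2.const_mul (Real.log (11 * L))).add (h1.const_mul 2)).abs.add h2).pow 2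
  simp only [mul_zero, add_zero, abs_zero, ne_eq, OfNat.ofNat_ne_zero, not_false_eq_true,
    zero_pow] at h3
  filter_upwards [h3.eventually_le_const hϑ, self_mem_nhdsWithin] with n h (hn : 0 < n)
  refine le_trans (le_of_eq ?_) h
  have e1 : ell n L = Real.log (11 * L) + 2 * Real.log n := by
    rw [ell, mul_right_comm, Real.log_mul (by positivity) (by positivity), Real.log_pow]
    norm_num
  rw [← mul_assoc, ← add_mul, ← e1, abs_mul, abs_of_pos (Real.rpow_pos_of_pos hn _),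
    ← add_one_mul, mul_pow, ← Real.rpow_natCast (n ^ (1 / 2 : ℝ)), ← Real.rpow_mul hn.le]
  norm_num
  ring

theorem near_one_log {A : ℂ} (h : ‖A - 1‖ ≤ 1 / 2) :
    A ≠ 0 ∧ |A.arg| < Real.pi / 2 ∧ ‖Complex.log A‖ ≤ 3 / 2 * ‖A - 1‖ := by
  have h1 := (abs_le.1 ((Complex.abs_re_le_norm _).trans h)).1
  rw [sub_re, one_re] at h1
  have h2 : 0 < A.re := by linarith
  refine ⟨fun h0 => by simp [h0] at h2, Complex.abs_arg_lt_pi_div_two_iff.2 (.inl h2), ?_⟩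
  simpa using Complex.norm_log_one_add_half_le_self h

theorem pin_log {L n : ℝ} {a Q : ℂ} (L0 : 0 < L) (hn : 0 < n) (hA : ‖n * Q / 2 - 1‖ ≤ 1 / 2)
    (hB : ‖-YI n a Q 0 / (22 * L) - 1‖ ≤ 1 / 2) :
    sE a Q + ell n L = Complex.log (n * Q / 2) - Complex.log (-YI n a Q 0 / (22 * L)) := by
  obtain ⟨A0, A1, -⟩ := near_one_log hA
  obtain ⟨B0, B1, -⟩ := near_one_log hB
  have nn : (n : ℂ) ≠ 0 := ofReal_ne_zero.2 hn.ne'
  have Ln : (L : ℂ) ≠ 0 := ofReal_ne_zero.2 L0.ne'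
  have q1 : Q = (2 / n : ℝ) * (n * Q / 2) := by
    push_cast
    field_simp
  have q2 : Om a Q = (44 * L : ℝ) * (n * Q / 2 * (-YI n a Q 0 / (22 * L))) := by
    rw [YI, Om]
    push_cast
    field_simp
    ring
  have q3 : 2 * Real.log (2 / n) + ell n L = Real.log (44 * L) := by
    rw [ell, show (2 : ℝ) * Real.log (2 / n) = Real.log ((2 / n) ^ 2) by
      rw [Real.log_pow]; norm_num, ← Real.log_mul (by positivity) (by positivity)]
    congr 1
    field_simp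
    ring
  rw [sE, q2, Complex.log_ofReal_mul (by linarith) (mul_ne_zero A0 B0),
    (Complex.log_mul_eq_add_log_iff A0 B0).2
      ⟨by linarith [(abs_lt.1 A1).1, (abs_lt.1 B1).1],
        by linarith [(abs_lt.1 A1).2, (abs_lt.1 B1).2]⟩, ← q3]
  nth_rewrite 1 [q1]
  rw [Complex.log_ofReal_mul (by positivity) A0]
  push_cast
  ring

theorem pin_alg (L : ℝ) (S : ℂ) {n : ℝ} {a x : ℂ} (hn : n ≠ 0) (ha : a ≠ 0) (hx : x ≠ 0) :
    YI n a (Zi x n L - 22 * L) 0 + (22 * L : ℝ) = -2 * (a / n) * (S + ell n L + S * (a - x) / x -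
      (a + a ^ 2 * S - x) / (a * x)) + (22 * L : ℝ) * ((a + n) / n) := by
  have nn : (n : ℂ) ≠ 0 := ofReal_ne_zero.2 hn
  simp only [YI, rh, Zi]
  push_cast
  field_simp
  ring

theorem pin_A {L n : ℝ} {x : ℂ} (L0 : 0 < L) (hn : 0 < n) (h1 : n * (22 * L) ≤ 1 / 10 ^ 5)
    (hm : n * (|ell n L| + 1) ^ 2 ≤ 1 / 10 ^ 5) (x1 : 999 / 1000 * n ≤ ‖x‖)
    (hx : ‖x + n‖ ≤ 1 / 10 ^ 5 * n) : ‖n * (Zi x n L - 22 * L) / 2 - 1‖ ≤ 5 / 10 ^ 5 := by
  have x0 : 0 < ‖x‖ := by linarith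
  have xn := norm_pos_iff.1 x0
  have l0 := abs_nonneg (ell n L)
  rw [show n * (Zi x n L - 22 * L) / 2 - 1 =
    ((n * (1 + ell n L - 11 * L) : ℝ) : ℂ) - (x + n) / x by
      simp only [Zi]
      push_cast
      field_simp
      ring]
  refine (norm_sub_le _ _).trans ?_
  have b1 : ‖(x + n) / x‖ ≤ 2 / 10 ^ 5 := by
    rw [norm_div, div_le_iff₀ x0]
    linarith
  have b2 := abs_sub (1 + ell n L) (11 * L)
  have b3 := abs_add_le 1 (ell n L)
  rw [abs_of_pos (by linarith : 0 < 11 * L)] at b2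
  rw [abs_one] at b3
  rw [Complex.norm_real, Real.norm_eq_abs, abs_mul, abs_of_pos hn]
  linarith [mul_le_mul_of_nonneg_left (b2.trans (add_le_add_left b3 _)) hn.le,
    mul_nonneg hn.le (mul_nonneg l0 l0), mul_nonneg hn.le l0]

/-- The slope equation pins the inner variable: with `Za = 2 - 2 / a`, `Q = Z - Λ`,
`Y = (-a / n) (Q - Za)`, `Za = Z - 2 (sE + ell) + O(1/4000)` and
`sE + ell = log (n Q / 2) - log (-Y / Λ)`. -/
theorem pin {L : ℝ} (hL : 10 ^ 7 ≤ L) : ∃ ε₁ > 0, ∀ (n : ℝ) (a x : ℂ), 0 < n → n ≤ ε₁ →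
    ‖x + n‖ ≤ ε₁ * n → ‖a + n‖ ≤ ε₁ * n →
    ‖YI n a (Zi x n L - 22 * L) 0 + (22 * L : ℝ)‖ ≤ 22 * L / 100 →
    ‖a + a ^ 2 * sE a (Zi x n L - 22 * L) - x‖ ≤ n ^ 2 / 10000 →
    ‖YI n a (Zi x n L - 22 * L) 0 + (22 * L : ℝ)‖ ≤ 1 / 200 := by
  have L0 : 0 < L := by linarith
  obtain ⟨ε₀, h0, hε₀⟩ := (nhdsGT_basis (0 : ℝ)).eventually_iff.1
    (abs_ell L0 (by norm_num : (0 : ℝ) < 1 / 10 ^ 5))
  refine ⟨min (ε₀ / 2) (1 / 10 ^ 5 / (22 * L)), lt_min (half_pos h0) (by positivity),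
    fun n a x hn h1 hx ha hY he => ?_⟩
  have hm := hε₀ ⟨hn, (h1.trans (min_le_left _ _)).trans_lt (half_lt_self h0)⟩
  have e1 := (le_div_iff₀ (by linarith)).1 (min_le_right (ε₀ / 2) (1 / 10 ^ 5 / (22 * L)))
  have e0 : 0 ≤ min (ε₀ / 2) (1 / 10 ^ 5 / (22 * L)) := hn.le.trans h1
  generalize min (ε₀ / 2) (1 / 10 ^ 5 / (22 * L)) = ε at *
  have e2 : ε ≤ 1 / 10 ^ 5 := by nlinarith
  have nb : ∀ z : ℂ, ‖z + n‖ ≤ ε * n → 999 / 1000 * n ≤ ‖z‖ ∧ ‖z‖ ≤ 1001 / 1000 * n :=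
    fun z hz => by
      have := abs_le.1 ((abs_norm_sub_norm_le z (-n)).trans
        ((congrArg norm (sub_neg_eq_add z n)).trans_le hz))
      rw [norm_neg, Complex.norm_real, Real.norm_of_nonneg hn.le] at this
      constructor <;> nlinarith [this.1, this.2]
  obtain ⟨x1, -⟩ := nb x hx
  obtain ⟨a1, a2⟩ := nb a ha
  have x0 : 0 < ‖x‖ := by linarith
  have a0 : 0 < ‖a‖ := by linarith
  have xn := norm_pos_iff.1 x0
  have an := norm_pos_iff.1 a0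
  have Ln : (L : ℂ) ≠ 0 := ofReal_ne_zero.2 L0.ne'
  have l0 := abs_nonneg (ell n L)
  obtain ⟨Y, eY⟩ : ∃ Y, Y = YI n a (Zi x n L - 22 * L) 0 := ⟨_, rfl⟩
  obtain ⟨S, eS⟩ : ∃ S, S = sE a (Zi x n L - 22 * L) := ⟨_, rfl⟩
  rw [← eY] at hY ⊢
  rw [← eS] at he
  have hA := pin_A L0 hn (by nlinarith) hm x1 (hx.trans (mul_le_mul_of_nonneg_right e2 hn.le))
  have hB : ‖-Y / (22 * L) - 1‖ = ‖Y + (22 * L : ℝ)‖ / (22 * L) := by
    rw [show -Y / (22 * L) - 1 = -(Y + (22 * L : ℝ)) / (22 * L : ℝ) by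
      push_cast
      field_simp
      ring, norm_div, norm_neg, Complex.norm_real, Real.norm_of_nonneg (by linarith)]
  have hB1 : ‖-Y / (22 * L) - 1‖ ≤ 1 / 100 := by
    rw [hB, div_le_iff₀ (by linarith)]
    linarith
  have hB2 : ‖-Y / (22 * L) - 1‖ ≤ ‖Y + (22 * L : ℝ)‖ / 100 := by
    rw [hB]
    exact div_le_div_of_nonneg_left (norm_nonneg _) (by norm_num) (by linarith)
  obtain ⟨-, -, A2⟩ := near_one_log (hA.trans (by norm_num))
  obtain ⟨-, -, B2⟩ := near_one_log (hB1.trans (by norm_num))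
  have hS := pin_log L0 hn (hA.trans (by norm_num)) (eY ▸ hB1.trans (by norm_num))
  rw [← eY, ← eS] at hS
  have s1 : ‖S + ell n L‖ ≤ 3 / 2 * (5 / 10 ^ 5) + 3 / 2 * ‖-Y / (22 * L) - 1‖ := by
    rw [hS]
    linarith [norm_sub_le_of_le A2 B2]
  have s2 : ‖S‖ ≤ |ell n L| + 1 := by
    have := norm_sub_le (S + ell n L) (ell n L)
    rw [add_sub_cancel_right, Complex.norm_real, Real.norm_eq_abs] at this
    linarith
  have s3 : ‖a - x‖ ≤ 3 / 2 * (n ^ 2 * (|ell n L| + 1)) := by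
    have b1 := norm_sub_le (a + a ^ 2 * S - x) (a ^ 2 * S)
    rw [show a + a ^ 2 * S - x - a ^ 2 * S = a - x by ring, norm_mul, norm_pow] at b1
    have b2 := mul_le_mul (pow_le_pow_left₀ a0.le a2 2) s2 (norm_nonneg _) (by positivity)
    nlinarith [mul_nonneg (sq_nonneg n) l0, sq_nonneg n]
  have s4 : ‖S * (a - x) / x‖ ≤ 2 / 10 ^ 5 := by
    rw [norm_div, norm_mul, div_le_iff₀ x0]
    have b1 := mul_le_mul s2 s3 (norm_nonneg _) (by positivity)
    nlinarith [mul_le_mul_of_nonneg_left hm hn.le]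
  have s5 : ‖(a + a ^ 2 * S - x) / (a * x)‖ ≤ 2 / 10 ^ 4 := by
    rw [norm_div, norm_mul, div_le_iff₀ (by positivity)]
    nlinarith [mul_le_mul a1 x1 (by positivity) a0.le, sq_nonneg n]
  have e := pin_alg L S hn.ne' an xn
  rw [← eY] at e
  have s6 : ‖-2 * (a / n)‖ ≤ 3 := by
    rw [norm_mul, norm_neg, Complex.norm_ofNat, norm_div, Complex.norm_real,
      Real.norm_of_nonneg hn.le, ← mul_div_assoc, div_le_iff₀ hn]
    linarith
  have s7 : ‖((22 * L : ℝ) : ℂ) * ((a + n) / n)‖ ≤ 1 / 10 ^ 5 := by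
    rw [norm_mul, norm_div, Complex.norm_real, Complex.norm_real, Real.norm_of_nonneg hn.le,
      Real.norm_of_nonneg (by linarith)]
    exact (mul_le_mul_of_nonneg_left ((div_le_iff₀ hn).2 ha) (by linarith)).trans (by linarith)
  have s8 := norm_add_le_of_le ((norm_mul_le _ _).trans (mul_le_mul s6
    (norm_sub_le_of_le (norm_add_le_of_le s1 s4) s5) (norm_nonneg _) (by norm_num))) s7
  rw [← e] at s8
  linarith [norm_nonneg (Y + (22 * L : ℝ))]

end Vale.Agent.P218N.J
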