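import Vale.Agent.P218N.J.Defs

/-! Pointwise bounds and inner approximations of the equation, the Lagrangian and the flux. -/

open Filter Topology Metric Set Complex

noncomputable section

namespace Vale.Agent.P218N.J

open Vale.Agent.P218N.End

variable {a ζ y yt op : ℂ}

namespace ApxP

theorem sqrt_sq (z : ℂ) : Complex.sqrt z ^ 2 = z := Complex.cpow_ofNat_inv_pow _ 2

theorem sqrt_re (z : ℂ) : 0 ≤ (Complex.sqrt z).re := by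
  unfold Complex.sqrt
  rw [Complex.cpow_inv_two_re]
  exact Real.sqrt_nonneg _

theorem norm_sqrt (z : ℂ) : ‖Complex.sqrt z‖ = √‖z‖ := by
  rw [eq_comm, Real.sqrt_eq_iff_mul_self_eq (norm_nonneg _) (norm_nonneg _), ← sq, ← norm_pow,
    sqrt_sq]

theorem norm_one_add (hy : ‖y‖ ≤ 1 / 100000) : ‖1 + y‖ ≤ 100001 / 100000 :=
  (norm_add_le _ _).trans (by rw [norm_one]; linarith)

theorem one_add_ne (hy : ‖y‖ ≤ 1 / 100000) : 1 + y ≠ 0 := fun h => by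
  rw [eq_neg_of_add_eq_zero_right h, norm_neg, norm_one] at hy
  norm_num at hy

theorem norm_sq_sub (hy : ‖y‖ ≤ 1 / 100000) : ‖(1 + y) ^ 2 - 1‖ ≤ 21 / 1000000 := by
  have h1 : (1 + y) ^ 2 - 1 = y * (1 + (1 + y)) := by ring
  have h2 : ‖1 + (1 + y)‖ ≤ 200001 / 100000 :=
    (norm_add_le _ _).trans (by rw [norm_one]; linarith [norm_one_add hy])
  rw [h1, norm_mul]
  nlinarith [norm_nonneg y, norm_nonneg (1 + (1 + y))]

theorem cylD_near {Ω x : ℂ} (hΩ : 1000 ≤ ‖Ω‖) (hx : ‖x‖ ^ 2 ≤ 16 / 1000 * ‖Ω‖)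
    (hy : ‖y‖ ≤ 1 / 100000) (hyt : ‖yt‖ ≤ 1 / 100000) (hop : ‖op‖ ≤ 1 / 100000) :
    ‖cylD Ω⁻¹ (x / (2 * Ω)) (x / 2) y yt op - 1‖ ≤ 1 / 10 := by
  have h0 : Ω ≠ 0 := fun h => by rw [h, norm_zero] at hΩ; linarith
  have h1 : cylD Ω⁻¹ (x / (2 * Ω)) (x / 2) y yt op - 1 =
      ((1 + y) ^ 2 - 1) + (1 + y) ^ 2 * ((2 * op + x * (1 + y)) ^ 2 / Ω) + yt ^ 2 := by
    unfold cylD cylB
    field_simp
    ring
  have h2 := norm_one_add hy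
  have h3 : ‖2 * op + x * (1 + y)‖ ≤ 2 / 100000 + ‖x‖ * (100001 / 100000) := by
    refine (norm_add_le _ _).trans (add_le_add ?_ ?_)
    · rw [norm_mul, Complex.norm_two]; linarith
    · rw [norm_mul]; exact mul_le_mul_of_nonneg_left h2 (norm_nonneg _)
  have h4 : ‖(2 * op + x * (1 + y)) ^ 2 / Ω‖ ≤ 4 / 100 := by
    rw [norm_div, norm_pow, div_le_iff₀ (by linarith)]
    refine (pow_le_pow_left₀ (norm_nonneg _) h3 2).trans ?_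
    nlinarith [sq_nonneg (2 / 100000 - ‖x‖ * (100001 / 100000))]
  have h5 : ‖(1 + y) ^ 2‖ ≤ 11 / 10 := by
    rw [norm_pow]; nlinarith [norm_nonneg (1 + y)]
  have h6 : ‖yt ^ 2‖ ≤ 1 / 100 := by rw [norm_pow]; nlinarith [norm_nonneg yt]
  rw [h1]
  refine (norm_add₃_le).trans ?_
  rw [norm_mul]
  nlinarith [norm_sq_sub hy, norm_nonneg ((1 + y) ^ 2),
    norm_nonneg ((2 * op + x * (1 + y)) ^ 2 / Ω)]

theorem ne_of_Om (hΩ : 1000 ≤ ‖Om a ζ‖) : ζ ≠ 0 ∧ rh a ζ ≠ 0 :=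
  mul_ne_zero_iff.1 fun h => by rw [Om, h, norm_zero] at hΩ; linarith

theorem slope_le (ha : ‖a‖ ≤ 1 / 1000) (hΩ : 1000 ≤ ‖Om a ζ‖) :
    ‖a * ζ‖ ^ 2 ≤ 16 / 1000 * ‖Om a ζ‖ := by
  rcases le_total ‖a * ζ‖ 4 with h | h
  · nlinarith [norm_nonneg (a * ζ)]
  have h1 : a * ζ = rh a ζ - 2 + 2 * a := by unfold rh; ring
  have h2 : ‖a * ζ‖ ≤ ‖rh a ζ‖ + 2 + 2 * ‖a‖ := by
    rw [h1]
    refine (norm_add_le _ _).trans (add_le_add ((norm_sub_le _ _).trans ?_) ?_)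
    · rw [Complex.norm_two]
    · rw [norm_mul, Complex.norm_two]
  have h3 : ‖a * ζ‖ ≤ 1 / 1000 * ‖ζ‖ := by
    rw [norm_mul]; exact mul_le_mul_of_nonneg_right ha (norm_nonneg _)
  have h4 : ‖a * ζ‖ ≤ 3 * ‖rh a ζ‖ := by linarith
  rw [Om, norm_mul ζ, sq]
  refine (mul_le_mul h3 h4 (norm_nonneg _) (by positivity)).trans ?_
  nlinarith [mul_nonneg (norm_nonneg ζ) (norm_nonneg (rh a ζ))]

theorem norm_sqrt_near {D : ℂ} (hD : ‖D - 1‖ ≤ 1 / 10) :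
    9 / 10 ≤ ‖Complex.sqrt D‖ ∧ ‖Complex.sqrt D‖ ≤ 2 := by
  have h1 := abs_le.1 ((abs_norm_sub_norm_le D 1).trans hD)
  rw [norm_one] at h1
  rw [norm_sqrt]
  exact ⟨Real.le_sqrt_of_sq_le (by linarith), Real.sqrt_le_iff.2 ⟨by norm_num, by linarith⟩⟩

theorem norm_sqrt_div (hζ : ζ ≠ 0) (ρ : ℂ) :
    ‖Complex.sqrt (ζ * ρ)‖ / ‖ζ‖ = √(‖ρ‖ / ‖ζ‖) := by
  have h0 : 0 < ‖ζ‖ := norm_pos_iff.2 hζ
  have h1 : ‖ζ * ρ‖ = ‖ρ‖ / ‖ζ‖ * (‖ζ‖ * ‖ζ‖) := by rw [norm_mul]; field_simp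
  rw [norm_sqrt, h1, Real.sqrt_mul (by positivity), Real.sqrt_mul_self h0.le,
    mul_div_cancel_right₀ _ h0.ne']

theorem norm_exp_le (hy : ‖y‖ ≤ 1 / 100000) (ζ ρ : ℂ) :
    ‖Complex.exp (-(ζ + ρ * (1 + y) ^ 2) / 4)‖ ≤ Real.exp ‖ρ‖ * Real.exp (-(ζ.re / 4)) := by
  rw [norm_exp, ← Real.exp_add, Real.exp_le_exp, div_ofNat_re, neg_re, add_re]
  have h1 := (abs_le.1 (abs_re_le_norm (ρ * (1 + y) ^ 2))).1
  have h2 : ‖1 + y‖ ^ 2 ≤ 4 := by nlinarith [norm_one_add hy, norm_nonneg (1 + y)]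
  rw [norm_mul, norm_pow] at h1
  nlinarith [norm_nonneg ρ]

/-- uniform smallness near a compact set of zeros -/
theorem unif {X D : Type} [MetricSpace X] [NormedAddCommGroup D] {K : Set X} (hK : IsCompact K)
    {f : X × D → ℂ} (hc : ∀ x ∈ K, ContinuousAt f (x, 0)) (h0 : ∀ x ∈ K, f (x, 0) = 0) {ε : ℝ}
    (hε : 0 < ε) : ∃ δ > 0, ∀ x ∈ K, ∀ d, ‖d‖ ≤ δ → ‖f (x, d)‖ ≤ ε := by
  obtain ⟨δ, hδ, h⟩ := (hK.prod (isCompact_singleton (x := (0 : D)))).exists_cthickening_subset_open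
    (isOpen_interior (s := {p | ‖f p‖ < ε})) fun p hp => by
      obtain ⟨x, d⟩ := p
      obtain rfl : d = 0 := hp.2
      refine mem_interior_iff_mem_nhds.2 ((hc x hp.1).norm.eventually (gt_mem_nhds ?_))
      simpa [h0 x hp.1] using hε
  refine ⟨δ, hδ, fun x hx d hd => ?_⟩
  have h1 : dist (x, d) (x, 0) ≤ δ := by
    rw [Prod.dist_eq, dist_self, dist_zero_right]
    exact max_le hδ.le hd
  have h2 := interior_subset (h (mem_cthickening_of_dist_le _ (x, 0) _ _ ⟨hx, rfl⟩ h1))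
  exact le_of_lt h2

@[fun_prop]
theorem cat_sqrt {X : Type} [TopologicalSpace X] {f : X → ℂ} {x : X} (hf : ContinuousAt f x)
    (h : 0 ≤ (f x).re ∨ (f x).im ≠ 0) : ContinuousAt (fun p => Complex.sqrt (f p)) x :=
  (continuousAt_sqrt h).comp hf

@[fun_prop]
theorem cat_cylD {X : Type} [TopologicalSpace X] {f₁ f₂ f₃ f₄ f₅ f₆ : X → ℂ} {x : X}
    (h₁ : ContinuousAt f₁ x) (h₂ : ContinuousAt f₂ x) (h₃ : ContinuousAt f₃ x)
    (h₄ : ContinuousAt f₄ x) (h₅ : ContinuousAt f₅ x) (h₆ : ContinuousAt f₆ x) :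
    ContinuousAt (fun p => cylD (f₁ p) (f₂ p) (f₃ p) (f₄ p) (f₅ p) (f₆ p)) x := by
  unfold cylD cylB
  fun_prop

/-- the values of `Ω` in the inner region -/
def KO (W : ℝ) : Set ℂ := closedBall 0 W ∩ {z | 1000 ≤ ‖z‖ ∧ -z.re ≤ ‖z‖ / 2}

theorem compact_KO (W : ℝ) : IsCompact (KO W) :=
  (isCompact_closedBall _ _).inter_right ((isClosed_le continuous_const continuous_norm).inter
    (isClosed_le continuous_re.neg (continuous_norm.div_const 2)))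

theorem KO_ne {W : ℝ} {Ω : ℂ} (h : Ω ∈ KO W) : Ω ≠ 0 := fun e => by
  have := h.2.1
  rw [e, norm_zero] at this
  linarith

theorem slit_of_sq {w z : ℂ} (hw : 0 < w.re) (h : w ^ 2 = 2 * z ∨ w ^ 2 = z) :
    0 ≤ z.re ∨ z.im ≠ 0 := by
  by_contra h0
  rw [not_or, not_le, not_not] at h0
  rcases h with h | h <;>
  · have h1 := congrArg Complex.re h
    have h2 := congrArg Complex.im h
    simp only [sq, mul_re, mul_im, re_ofNat, im_ofNat, h0.2] at h1 h2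
    have h3 : w.im = 0 := by nlinarith
    rw [h3] at h1
    nlinarith [h0.1]

theorem sqrt_KO {W : ℝ} {Ω : ℂ} (h : Ω ∈ KO W) :
    0 < (Complex.sqrt Ω).re ∧ (Complex.sqrt Ω).im ^ 2 ≤ 3 * (Complex.sqrt Ω).re ^ 2 := by
  have h1 := congrArg Complex.re (sqrt_sq Ω)
  have h2 : ‖Complex.sqrt Ω‖ ^ 2 = ‖Ω‖ := by rw [← norm_pow, sqrt_sq]
  have h3 := h.2.1
  have h4 := h.2.2
  rw [Complex.sq_norm, normSq_apply] at h2
  rw [sq, mul_re] at h1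
  refine ⟨(sqrt_re Ω).lt_of_ne fun h0 => ?_, by nlinarith⟩
  rw [← h0] at h1 h2
  nlinarith

theorem sqrt_mul_sqrt {W : ℝ} {Ω D z : ℂ} (h : Ω ∈ KO W) (hD : ‖D - 1‖ ≤ 1 / 10)
    (hz : Ω * D = 2 * z) :
    Complex.sqrt Ω * Complex.sqrt D = √2 * Complex.sqrt z ∧ (0 ≤ z.re ∨ z.im ≠ 0) := by
  obtain ⟨u1, u2⟩ := sqrt_KO h
  have v0 := sqrt_re D
  have v1 := congrArg Complex.re (sqrt_sq D)
  have v2 : ‖Complex.sqrt D‖ ^ 2 = ‖D‖ := by rw [← norm_pow, sqrt_sq]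
  have v3 := (abs_le.1 ((abs_norm_sub_norm_le D 1).trans hD)).2
  have v4 := (abs_le.1 ((abs_re_le_norm (D - 1)).trans hD)).1
  rw [norm_one] at v3
  rw [sub_re, one_re] at v4
  rw [Complex.sq_norm, normSq_apply] at v2
  rw [sq, mul_re] at v1
  have w1 : 0 < (Complex.sqrt Ω * Complex.sqrt D).re := by
    rw [mul_re, sub_pos]
    refine lt_of_le_of_lt (le_abs_self _) (abs_lt_of_sq_lt_sq ?_ (mul_nonneg u1.le v0))
    have e1 : (Complex.sqrt D).im ^ 2 ≤ 1 / 10 := by nlinarith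
    have e2 : 9 / 10 ≤ (Complex.sqrt D).re ^ 2 := by nlinarith
    have e3 := mul_le_mul u2 e1 (sq_nonneg _) (by positivity)
    rw [mul_pow, mul_pow]
    nlinarith [pow_pos u1 2]
  have w2 : (Complex.sqrt Ω * Complex.sqrt D) ^ 2 = 2 * z := by rw [mul_pow, sqrt_sq, sqrt_sq, hz]
  refine ⟨?_, slit_of_sq w1 (Or.inl w2)⟩
  have w3 : ((√2 : ℝ) * Complex.sqrt z) ^ 2 = 2 * z := by
    rw [mul_pow, sqrt_sq, ← ofReal_pow, Real.sq_sqrt (by norm_num)]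
    norm_num
  rcases sq_eq_sq_iff_eq_or_eq_neg.1 (w2.trans w3.symm) with e | e
  · exact e
  · rw [e, neg_re, re_ofReal_mul] at w1
    nlinarith [sqrt_re z, Real.sqrt_nonneg 2]

theorem re_near {D : ℂ} (hD : ‖D - 1‖ ≤ 1 / 10) : 0 ≤ D.re ∨ D.im ≠ 0 := by
  have v4 := (abs_le.1 ((abs_re_le_norm (D - 1)).trans hD)).1
  rw [sub_re, one_re] at v4
  exact Or.inl (by linarith)

/-- the rescaled variables -/
theorem rescale {W ε₁ n : ℝ} (h : InP W ε₁ n a ζ) : ∃ α σ : ℂ, ‖α‖ ≤ ε₁ ∧ ‖σ‖ ≤ ε₁ ∧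
    ‖(n : ℂ)‖ ≤ ε₁ ∧ Om a ζ ∈ KO W ∧ 1 + σ ≠ 0 ∧ (n : ℂ) ≠ 0 ∧ a = -((1 + α) * n) ∧
    ζ = 2 * (1 + σ) / n ∧ rh a ζ = Om a ζ * n / (2 * (1 + σ)) := by
  have h0 : (n : ℂ) ≠ 0 := ofReal_ne_zero.2 h.n0.ne'
  have h1 : ‖(n : ℂ)‖ = n := by rw [norm_real, Real.norm_of_nonneg h.n0.le]
  have h2 := (ne_of_Om h.lo).1
  refine ⟨-((a + n) / n), (ζ * n - 2) / 2, ?_, ?_, h1.le.trans h.n1,
    ⟨mem_closedBall_zero_iff.2 h.hi, h.lo, h.arg⟩, ?_, h0, by field_simp; ring,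
    by field_simp; ring, ?_⟩
  · rw [norm_neg, norm_div, h1, div_le_iff₀ h.n0]
    exact h.an
  · rw [norm_div, Complex.norm_two]
    linarith [h.zn, norm_nonneg (ζ * n - 2)]
  · rw [show 1 + (ζ * n - 2) / 2 = ζ * n / 2 by ring]
    exact div_ne_zero (mul_ne_zero h2 h0) two_ne_zero
  · rw [show 1 + (ζ * n - 2) / 2 = ζ * n / 2 by ring, Om]
    field_simp

end ApxP

open ApxP

theorem Dc_near (ha : ‖a‖ ≤ 1 / 1000) (hΩ : 1000 ≤ ‖Om a ζ‖) (hy : ‖y‖ ≤ 1 / 100000)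
    (hyt : ‖yt‖ ≤ 1 / 100000) (hop : ‖op‖ ≤ 1 / 100000) : ‖Dc a ζ y yt op - 1‖ ≤ 1 / 10 := by
  obtain ⟨h1, h2⟩ := ne_of_Om hΩ
  have h := cylD_near hΩ (slope_le ha hΩ) hy hyt hop
  have e1 : a * ζ / (2 * Om a ζ) = a / (2 * rh a ζ) := by rw [Om]; field_simp
  have e2 : a * ζ / 2 = a / 2 * ζ := by ring
  rwa [e1, e2] at h

theorem norm_lag_le (ha : ‖a‖ ≤ 1 / 1000) (hΩ : 1000 ≤ ‖Om a ζ‖) (hy : ‖y‖ ≤ 1 / 100000)
    (hyt : ‖yt‖ ≤ 1 / 100000) (hop : ‖op‖ ≤ 1 / 100000) : ‖lagCyl a ζ y yt op‖ ≤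
      Real.sqrt (‖rh a ζ‖ / ‖ζ‖) * Real.exp ‖rh a ζ‖ * Real.exp (-(ζ.re / 4)) := by
  have h1 := (norm_sqrt_near (Dc_near ha hΩ hy hyt hop)).2
  rw [lagCyl, norm_mul, norm_mul, norm_div, norm_mul, Complex.norm_two, mul_assoc (√_),
    ← norm_sqrt_div (ne_of_Om hΩ).1]
  refine mul_le_mul ((mul_le_mul_of_nonneg_left h1 (by positivity)).trans (le_of_eq (by ring)))
    (norm_exp_le hy _ _) (norm_nonneg _) (by positivity)

theorem norm_flux_le (ha : ‖a‖ ≤ 1 / 1000) (hΩ : 1000 ≤ ‖Om a ζ‖) (hy : ‖y‖ ≤ 1 / 100000)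
    (hyt : ‖yt‖ ≤ 1 / 100000) (hop : ‖op‖ ≤ 1 / 100000) (da dy : ℂ) :
    ‖fluxCyl a ζ y yt op da dy‖ ≤ 3 * Real.sqrt (‖rh a ζ‖ / ‖ζ‖) * (1 + ‖a * ζ‖) *
      Real.exp ‖rh a ζ‖ * Real.exp (-(ζ.re / 4)) * (‖dy‖ + ‖(ζ - 2) * da / rh a ζ‖) := by
  have h1 := (norm_sqrt_near (Dc_near ha hΩ hy hyt hop)).1
  have h2 := norm_one_add hy
  have h3 : ‖(1 + y) / 2‖ ≤ 1 := by rw [norm_div, Complex.norm_two]; linarith
  have h4 : ‖op + a / 2 * ζ * (1 + y)‖ ≤ 1 + ‖a * ζ‖ := by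
    rw [show a / 2 * ζ * (1 + y) = (1 + y) / 2 * (a * ζ) by ring]
    refine (norm_add_le _ _).trans (add_le_add (by linarith) ?_)
    rw [norm_mul]
    exact mul_le_of_le_one_left (norm_nonneg _) h3
  have h5 : ‖dy + (1 + y) * (ζ - 2) * da / (2 * rh a ζ)‖ ≤ ‖dy‖ + ‖(ζ - 2) * da / rh a ζ‖ := by
    rw [show (1 + y) * (ζ - 2) * da / (2 * rh a ζ) = (1 + y) / 2 * ((ζ - 2) * da / rh a ζ) by
      rw [div_mul_div_comm, mul_assoc (1 + y)]]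
    refine (norm_add_le _ _).trans (add_le_add le_rfl ?_)
    rw [norm_mul]
    exact mul_le_of_le_one_left (norm_nonneg _) h3
  have h6 : ‖1 + y‖ ^ 2 ≤ 11 / 10 := by nlinarith [norm_nonneg (1 + y)]
  rw [fluxCyl, norm_mul, norm_mul, norm_div, norm_mul, norm_mul, norm_div, norm_mul,
    Complex.norm_two, mul_div_assoc 2, norm_sqrt_div (ne_of_Om hΩ).1, norm_pow,
    mul_assoc _ (Real.exp ‖rh a ζ‖)]
  refine mul_le_mul (mul_le_mul ?_ (norm_exp_le hy _ _) (norm_nonneg _) (by positivity)) h5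
    (norm_nonneg _) (by positivity)
  rw [div_le_iff₀ (by linarith)]
  have h7 := mul_le_mul h6 h4 (norm_nonneg _) (by norm_num)
  have h8 := mul_le_mul_of_nonneg_left h1 (by positivity : 0 ≤ 1 + ‖a * ζ‖)
  have h9 : 2 * (‖1 + y‖ ^ 2 * ‖op + a / 2 * ζ * (1 + y)‖) ≤
      3 * ((1 + ‖a * ζ‖) * ‖Complex.sqrt (Dc a ζ y yt op)‖) := by linarith [norm_nonneg (a * ζ)]
  linarith [mul_le_mul_of_nonneg_left h9 (Real.sqrt_nonneg (‖rh a ζ‖ / ‖ζ‖))]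

/-- sizes of the inner variables -/
theorem InP.sizes {W ε₁ n : ℝ} (h : InP W ε₁ n a ζ) (hε : ε₁ ≤ 1 / 1000000) {o : ℂ}
    (hy : ‖y‖ ≤ 1 / 100000) (ho : ‖o‖ ≤ 1 / 100000) :
    ‖hI n a ζ y o - 1‖ ≤ 1 / 10000 ∧ ‖YI n a ζ y + Om a ζ / 2‖ ≤ ‖Om a ζ‖ / 10000 ∧
      (YI n a ζ y).re ≤ 3 / 4 * ‖YI n a ζ y‖ := by
  obtain ⟨α, σ, h1, h2, -, -, h5, h6, h7, h8, h9⟩ := rescale h
  have e0 : 999 / 1000 ≤ ‖1 + σ‖ := by
    have := norm_sub_le (1 + σ) σ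
    rw [add_sub_cancel_right, norm_one] at this
    linarith
  have e1 := norm_one_add hy
  have e2 := norm_sq_sub hy
  have e3 : ‖YI n a ζ y + Om a ζ / 2‖ ≤ ‖Om a ζ‖ / 10000 := by
    have e4 : YI n a ζ y + Om a ζ / 2 = Om a ζ * ((σ - ((1 + y) ^ 2 - 1)) / (2 * (1 + σ))) := by
      rw [YI, h9]
      field_simp
      ring
    have e5 : ‖(σ - ((1 + y) ^ 2 - 1)) / (2 * (1 + σ))‖ ≤ 1 / 10000 := by
      rw [norm_div, norm_mul, Complex.norm_two, div_le_iff₀ (by linarith)]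
      linarith [norm_sub_le σ ((1 + y) ^ 2 - 1)]
    rw [e4, norm_mul]
    linarith [mul_le_mul_of_nonneg_left e5 (norm_nonneg (Om a ζ))]
  refine ⟨?_, e3, ?_⟩
  · have e4 : hI n a ζ y o - 1 = α * (1 + y) ^ 2 + ((1 + y) ^ 2 - 1) - (1 + y) * o / (1 + σ) := by
      rw [hI, h7, h8]
      field_simp
      ring
    have e5 : ‖(1 + y) * o / (1 + σ)‖ ≤ 2 / 100000 := by
      rw [norm_div, norm_mul, div_le_iff₀ (by linarith)]
      nlinarith [norm_nonneg o, norm_nonneg (1 + y)]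
    have e6 : ‖α * (1 + y) ^ 2‖ ≤ 2 / 1000000 := by
      have : ‖1 + y‖ ^ 2 ≤ 2 := by nlinarith [norm_nonneg (1 + y)]
      rw [norm_mul, norm_pow]
      nlinarith [norm_nonneg α, sq_nonneg ‖1 + y‖]
    rw [e4]
    refine (norm_sub_le _ _).trans ?_
    linarith [norm_add_le (α * (1 + y) ^ 2) ((1 + y) ^ 2 - 1)]
  · have e4 := (re_le_norm _).trans e3
    have e5 := norm_sub_le (YI n a ζ y + Om a ζ / 2) (YI n a ζ y)
    rw [add_sub_cancel_left, norm_div, Complex.norm_two] at e5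
    rw [add_re, div_ofNat_re] at e4
    linarith [h.arg, norm_nonneg (Om a ζ)]

/-- the equation; at the limit `resI = - cylE / (1 + y)²` -/
theorem apx_res (W ε : ℝ) (hε : 0 < ε) : ∃ ε₁ > 0, ∀ (n : ℝ) (a ζ y₀ o₀ q₀ y yt ytt op oq pt : ℂ),
    InP W ε₁ n a ζ → ‖y₀‖ ≤ 1 / 100000 → ‖o₀‖ ≤ 1 / 100000 → ‖q₀‖ ≤ 1 / 100000 →
    ‖y - y₀‖ ≤ ε₁ → ‖yt‖ ≤ ε₁ → ‖ytt‖ ≤ ε₁ → ‖op - o₀‖ ≤ ε₁ → ‖oq - q₀‖ ≤ ε₁ → ‖pt‖ ≤ ε₁ →
    cylE a ζ⁻¹ (Om a ζ)⁻¹ (a / 2 * (rh a ζ)⁻¹) (a / 2 * ζ) y yt ytt op oq pt = 0 →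
    ‖resI (YI n a ζ y₀) (hI n a ζ y₀ o₀) (qI n a ζ y₀ o₀ q₀)‖ ≤ ε := by
  have hB := isCompact_closedBall (0 : ℂ) (1 / 100000)
  obtain ⟨δ, hδ, h⟩ := unif ((compact_KO W).prod (hB.prod (hB.prod hB)))
    (f := fun p : (ℂ × ℂ × ℂ × ℂ) × (Fin 9 → ℂ) =>
      resI (-p.1.1 * (1 + p.1.2.1) ^ 2 / (2 * (1 + p.2 2)))
        ((1 + p.2 1) * (1 + p.1.2.1) ^ 2 - (1 + p.1.2.1) * p.1.2.2.1 / (1 + p.2 2))
        (4 * (1 + p.2 1) * (1 + p.1.2.1) * p.1.2.2.1 / p.1.1 -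
          p.1.2.2.1 ^ 2 / ((1 + p.2 2) * p.1.1) - (1 + p.1.2.1) * p.1.2.2.2 / (1 + p.2 2)) +
      cylE (-((1 + p.2 1) * p.2 0)) (p.2 0 / (2 * (1 + p.2 2))) p.1.1⁻¹
        (-((1 + p.2 1) * (1 + p.2 2)) / p.1.1) (-((1 + p.2 1) * (1 + p.2 2))) (p.1.2.1 + p.2 3)
        (p.2 4) (p.2 5) (p.1.2.2.1 + p.2 6) (p.1.2.2.2 + p.2 7) (p.2 8) / (1 + p.1.2.1) ^ 2)
    (fun x hx => by
      have e1 := KO_ne hx.1
      have e2 := one_add_ne (mem_closedBall_zero_iff.1 hx.2.1)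
      unfold resI cylE cylD cylB
      fun_prop (disch := simp [e1, e2]))
    (fun x hx => by
      have e1 := KO_ne hx.1
      have e2 := one_add_ne (mem_closedBall_zero_iff.1 hx.2.1)
      simp only [resI, cylE, cylD, cylB, Pi.zero_apply, add_zero]
      field_simp
      ring) hε
  refine ⟨δ, hδ, fun n a ζ y₀ o₀ q₀ y yt ytt op oq pt hp b1 b2 b3 c1 c2 c3 c4 c5 c6 hE => ?_⟩
  obtain ⟨α, σ, h1, h2, h3, h4, h5, h6, h7, h8, h9⟩ := rescale hp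
  have h10 := KO_ne h4
  have h11 := h (Om a ζ, y₀, o₀, q₀) ⟨h4, mem_closedBall_zero_iff.2 b1,
    mem_closedBall_zero_iff.2 b2, mem_closedBall_zero_iff.2 b3⟩
    ![n, α, σ, y - y₀, yt, ytt, op - o₀, oq - q₀, pt]
    ((pi_norm_le_iff_of_nonneg hδ.le).2 fun i => by fin_cases i <;> assumption)
  have e1 : ζ⁻¹ = n / (2 * (1 + σ)) := by rw [h8, inv_div]
  have e2 : a / 2 * ζ = -((1 + α) * (1 + σ)) := by rw [h7, h8]; field_simp
  have e3 : a / 2 * (rh a ζ)⁻¹ = -((1 + α) * (1 + σ)) / Om a ζ := by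
    rw [h9]
    generalize Om a ζ = Ω at h10
    rw [h7]
    field_simp
  have e4 : YI n a ζ y₀ = -Om a ζ * (1 + y₀) ^ 2 / (2 * (1 + σ)) := by rw [YI, h9]; field_simp
  have e5 : hI n a ζ y₀ o₀ = (1 + α) * (1 + y₀) ^ 2 - (1 + y₀) * o₀ / (1 + σ) := by
    rw [hI, h7, h8]; field_simp; ring
  have e6 : qI n a ζ y₀ o₀ q₀ = 4 * (1 + α) * (1 + y₀) * o₀ / Om a ζ -
      o₀ ^ 2 / ((1 + σ) * Om a ζ) - (1 + y₀) * q₀ / (1 + σ) := by
    rw [qI]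
    generalize Om a ζ = Ω at h10
    rw [h7, h8]
    field_simp
    ring
  rw [e1, e2, e3] at hE
  rw [e4, e5, e6]
  generalize Om a ζ = Ω at h11 hE ⊢
  rw [h7] at hE
  simp only [Matrix.cons_val, add_sub_cancel] at h11
  rwa [hE, zero_div, add_zero] at h11

/-- the Lagrangian -/
theorem apx_lag (W ε : ℝ) (hε : 0 < ε) : ∃ ε₁ > 0, ∀ (n : ℝ) (a ζ y₀ o₀ y yt op : ℂ),
    InP W ε₁ n a ζ → ‖y₀‖ ≤ 1 / 100000 → ‖o₀‖ ≤ 1 / 100000 →
    ‖y - y₀‖ ≤ ε₁ → ‖yt‖ ≤ ε₁ → ‖op - o₀‖ ≤ ε₁ →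
    ‖lagCyl a ζ y yt op - n * (Real.sqrt 2 / 4) * Complex.exp (-ζ / 4) *
      lI (YI n a ζ y₀) (hI n a ζ y₀ o₀)‖ ≤ ε * n * Real.exp (-(ζ.re / 4)) := by
  have hB := isCompact_closedBall (0 : ℂ) (1 / 100000)
  have key : ∀ x ∈ KO W ×ˢ closedBall (0 : ℂ) (1 / 100000) ×ˢ closedBall (0 : ℂ) (1 / 100000),
      ‖cylD x.1⁻¹ (-1 / x.1) (-1) x.2.1 0 x.2.2 - 1‖ ≤ 1 / 10 ∧
      x.1 * cylD x.1⁻¹ (-1 / x.1) (-1) x.2.1 0 x.2.2 = 2 * (2 * ((1 + x.2.1) ^ 2 -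
        (1 + x.2.1) * x.2.2) ^ 2 - -x.1 * (1 + x.2.1) ^ 2 / 2) := fun x hx => by
    have e1 := KO_ne hx.1
    have e2 := cylD_near (x := -2) (yt := 0) hx.1.2.1
      (by rw [norm_neg, Complex.norm_two]; linarith [hx.1.2.1])
      (mem_closedBall_zero_iff.1 hx.2.1) (by norm_num) (mem_closedBall_zero_iff.1 hx.2.2)
    rw [show -2 / (2 * x.1) = -1 / x.1 by field_simp, show (-2 / 2 : ℂ) = -1 by norm_num] at e2
    refine ⟨e2, ?_⟩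
    unfold cylD cylB
    field_simp
    ring
  obtain ⟨δ, hδ, h⟩ := unif ((compact_KO W).prod (hB.prod hB))
    (f := fun p : (ℂ × ℂ × ℂ) × (Fin 6 → ℂ) =>
      Complex.sqrt p.1.1 / (4 * (1 + p.2 2)) *
        Complex.sqrt (cylD p.1.1⁻¹ (-((1 + p.2 1) * (1 + p.2 2)) / p.1.1)
          (-((1 + p.2 1) * (1 + p.2 2))) (p.1.2.1 + p.2 3) (p.2 4) (p.1.2.2 + p.2 5)) *
        Complex.exp (-(p.1.1 * p.2 0 / (2 * (1 + p.2 2)) * (1 + (p.1.2.1 + p.2 3)) ^ 2) / 4) -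
      √2 / 4 * lI (-p.1.1 * (1 + p.1.2.1) ^ 2 / (2 * (1 + p.2 2)))
        ((1 + p.2 1) * (1 + p.1.2.1) ^ 2 - (1 + p.1.2.1) * p.1.2.2 / (1 + p.2 2)))
    (fun x hx => by
      have e1 := KO_ne hx.1
      obtain ⟨e2, e3⟩ := key x hx
      have e4 := slit_of_sq (sqrt_KO hx.1).1 (Or.inr (sqrt_sq _))
      have e5 := re_near e2
      have e6 := (sqrt_mul_sqrt hx.1 e2 e3).2
      unfold lI
      fun_prop (disch := (simp only [Pi.zero_apply, add_zero, mul_one, div_one, one_mul]; first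
        | assumption | norm_num)))
    (fun x hx => by
      obtain ⟨e2, e3⟩ := key x hx
      have e4 := (sqrt_mul_sqrt hx.1 e2 e3).1
      simp only [lI, Pi.zero_apply, add_zero, mul_one, div_one, mul_zero, zero_div, zero_mul,
        neg_zero, Complex.exp_zero, one_mul]
      linear_combination e4 / 4) hε
  refine ⟨δ, hδ, fun n a ζ y₀ o₀ y yt op hp b1 b2 c1 c2 c4 => ?_⟩
  obtain ⟨α, σ, h1, h2, h3, h4, h5, h6, h7, h8, h9⟩ := rescale hp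
  have h10 := KO_ne h4
  have h11 := h (Om a ζ, y₀, o₀) ⟨h4, mem_closedBall_zero_iff.2 b1, mem_closedBall_zero_iff.2 b2⟩
    ![n, α, σ, y - y₀, yt, op - o₀]
    ((pi_norm_le_iff_of_nonneg hδ.le).2 fun i => by fin_cases i <;> assumption)
  have e2 : a / 2 * ζ = -((1 + α) * (1 + σ)) := by rw [h7, h8]; field_simp
  have e3 : a / (2 * rh a ζ) = -((1 + α) * (1 + σ)) / Om a ζ := by
    rw [h9]
    generalize Om a ζ = Ω at h10
    rw [h7]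
    field_simp
  have e4 : YI n a ζ y₀ = -Om a ζ * (1 + y₀) ^ 2 / (2 * (1 + σ)) := by rw [YI, h9]; field_simp
  have e5 : hI n a ζ y₀ o₀ = (1 + α) * (1 + y₀) ^ 2 - (1 + y₀) * o₀ / (1 + σ) := by
    rw [hI, h7, h8]; field_simp; ring
  have e6 : Complex.sqrt (Om a ζ) / (2 * ζ) = n * (Complex.sqrt (Om a ζ) / (4 * (1 + σ))) := by
    generalize Complex.sqrt (Om a ζ) = r
    rw [h8]
    field_simp
    ring
  have e7 : Complex.exp (-(ζ + rh a ζ * (1 + y) ^ 2) / 4) = Complex.exp (-ζ / 4) *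
      Complex.exp (-(Om a ζ * n / (2 * (1 + σ)) * (1 + y) ^ 2) / 4) := by
    rw [← Complex.exp_add, ← h9]
    congr 1
    ring
  have e8 : ‖(n : ℂ) * Complex.exp (-ζ / 4)‖ = n * Real.exp (-(ζ.re / 4)) := by
    rw [norm_mul, norm_real, Real.norm_of_nonneg hp.n0.le, norm_exp, div_ofNat_re, neg_re, neg_div]
  simp only [Matrix.cons_val, add_sub_cancel] at h11
  have h12 := mul_le_mul_of_nonneg_left h11 (norm_nonneg ((n : ℂ) * Complex.exp (-ζ / 4)))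
  rw [← norm_mul, e8] at h12
  refine le_trans (le_of_eq (congrArg _ ?_)) (h12.trans (le_of_eq (by ring)))
  rw [lagCyl, Dc, e2, e3, e4, e5, e7, ← Om, e6]
  ring

/-- the flux at a point with `y₀ = 0`; `-(ζ - 2) da / n` is the variation of `Y` -/
theorem apx_flux (W ε : ℝ) (hε : 0 < ε) : ∃ ε₁ > 0, ∀ (n : ℝ) (a ζ o₀ y yt op da dy : ℂ),
    InP W ε₁ n a ζ → ‖o₀‖ ≤ 1 / 100000 → ‖y‖ ≤ ε₁ → ‖yt‖ ≤ ε₁ → ‖op - o₀‖ ≤ ε₁ →
    ‖fluxCyl a ζ y yt op da dy - n * (Real.sqrt 2 / 4) * Complex.exp (-ζ / 4) *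
      (2 * hI n a ζ 0 o₀ / lI (YI n a ζ 0) (hI n a ζ 0 o₀) * (-((ζ - 2) * da) / n))‖ ≤
      n * Real.exp (-(ζ.re / 4)) * (ε * ‖(ζ - 2) * da / n‖ + 10 * W * ‖dy‖) := by
  have hB := isCompact_closedBall (0 : ℂ) (1 / 100000)
  have key : ∀ x ∈ KO W ×ˢ closedBall (0 : ℂ) (1 / 100000),
      ‖cylD x.1⁻¹ (-1 / x.1) (-1) 0 0 x.2 - 1‖ ≤ 1 / 10 ∧
      x.1 * cylD x.1⁻¹ (-1 / x.1) (-1) 0 0 x.2 = 2 * (2 * (1 - x.2) ^ 2 - -x.1 / 2) := fun x hx => by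
    have e1 := KO_ne hx.1
    have e2 := cylD_near (x := -2) (y := 0) (yt := 0) hx.1.2.1
      (by rw [norm_neg, Complex.norm_two]; linarith [hx.1.2.1])
      (by norm_num) (by norm_num) (mem_closedBall_zero_iff.1 hx.2)
    rw [show -2 / (2 * x.1) = -1 / x.1 by field_simp, show (-2 / 2 : ℂ) = -1 by norm_num] at e2
    refine ⟨e2, ?_⟩
    unfold cylD cylB
    field_simp
    ring
  obtain ⟨A, hA⟩ : ∃ A : (ℂ × ℂ) × (Fin 6 → ℂ) → ℂ, A = fun p =>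
      Complex.sqrt p.1.1 / (1 + p.2 2) * (1 + p.2 3) ^ 2 *
        (p.1.2 + p.2 5 + -((1 + p.2 1) * (1 + p.2 2)) * (1 + p.2 3)) /
        Complex.sqrt (cylD p.1.1⁻¹ (-((1 + p.2 1) * (1 + p.2 2)) / p.1.1)
          (-((1 + p.2 1) * (1 + p.2 2))) (p.2 3) (p.2 4) (p.1.2 + p.2 5)) *
        Complex.exp (-(p.1.1 * p.2 0 / (2 * (1 + p.2 2)) * (1 + p.2 3) ^ 2) / 4) := ⟨_, rfl⟩
  have sD : ∀ x ∈ KO W ×ˢ closedBall (0 : ℂ) (1 / 100000),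
      Complex.sqrt (cylD x.1⁻¹ (-1 / x.1) (-1) 0 0 x.2) ≠ 0 := fun x hx e => by
    have := (norm_sqrt_near (key x hx).1).1
    rw [e, norm_zero] at this
    linarith
  have cA : ∀ x ∈ KO W ×ˢ closedBall (0 : ℂ) (1 / 100000), ContinuousAt A (x, 0) := fun x hx => by
    have e1 := KO_ne hx.1
    have e4 := slit_of_sq (sqrt_KO hx.1).1 (Or.inr (sqrt_sq _))
    have e5 := re_near (key x hx).1
    have e6 := sD x hx
    rw [hA]
    fun_prop (disch := (simp only [Pi.zero_apply, add_zero, mul_one]; first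
      | assumption | norm_num))
  have vA : ∀ x : ℂ × ℂ, A (x, 0) = Complex.sqrt x.1 * (x.2 - 1) /
      Complex.sqrt (cylD x.1⁻¹ (-1 / x.1) (-1) 0 0 x.2) := fun x => by
    simp only [hA, Pi.zero_apply, add_zero, mul_one, div_one, mul_zero, zero_div,
      neg_zero, Complex.exp_zero, one_pow, sub_eq_add_neg]
  obtain ⟨δ₁, hδ₁, g1⟩ := unif ((compact_KO W).prod hB) (f := fun p => A p - A (p.1, 0))
    (fun x hx => (cA x hx).sub ((cA x hx).comp_of_eq (by fun_prop) rfl))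
    (fun x _ => sub_self _) one_pos
  obtain ⟨δ₂, hδ₂, g2⟩ := unif ((compact_KO W).prod hB)
    (f := fun p => A p * ((1 + p.2 3) * (1 + p.2 2) / p.1.1) + √2 / 4 *
      (2 * (1 + p.2 1 - p.1.2 / (1 + p.2 2)) /
        lI (-p.1.1 / (2 * (1 + p.2 2))) (1 + p.2 1 - p.1.2 / (1 + p.2 2))))
    (fun x hx => by
      have e1 := KO_ne hx.1
      obtain ⟨e2, e3⟩ := key x hx
      obtain ⟨e4, e5⟩ := sqrt_mul_sqrt hx.1 e2 e3
      have e6 : Complex.sqrt (2 * (1 - x.2) ^ 2 - -x.1 / 2) ≠ 0 := fun e => by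
        rw [e, mul_zero] at e4
        refine mul_ne_zero (fun e => ?_) (sD x hx) e4
        have := (sqrt_KO hx.1).1
        rw [e, zero_re] at this
        exact lt_irrefl _ this
      have e7 := cA x hx
      unfold lI
      fun_prop (disch := (simp only [Pi.zero_apply, add_zero, mul_one, div_one]; first
        | assumption | norm_num)))
    (fun x hx => by
      have e1 := KO_ne hx.1
      obtain ⟨e2, e3⟩ := key x hx
      have e4 := (sqrt_mul_sqrt hx.1 e2 e3).1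
      have e5 := sD x hx
      have e6 := sqrt_sq x.1
      have e7 : ((√2 : ℝ) : ℂ) ^ 2 = 2 := by
        rw [← ofReal_pow, Real.sq_sqrt (by norm_num)]
        norm_num
      have e8 : ((√2 : ℝ) : ℂ) ≠ 0 := fun e => by rw [e] at e7; norm_num at e7
      simp only [vA, lI, Pi.zero_apply, add_zero, mul_one, div_one]
      rw [mul_comm ((√2 : ℝ) : ℂ), ← div_eq_iff e8] at e4
      rw [← e4]
      generalize Complex.sqrt (cylD _ _ _ _ _ _) = r at e5 ⊢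
      generalize Complex.sqrt x.1 = u at e6 ⊢
      have e9 : u ≠ 0 := fun e => e1 (by rw [← e6, e]; ring)
      rw [← e6]
      field_simp
      linear_combination (2 * (1 - x.2)) * e7) hε
  refine ⟨min δ₁ δ₂, lt_min hδ₁ hδ₂, fun n a ζ o₀ y yt op da dy hp b2 c1 c2 c4 => ?_⟩
  obtain ⟨α, σ, h1, h2, h3, h4, h5, h6, h7, h8, h9⟩ := rescale hp
  have h10 := KO_ne h4
  have hx : (Om a ζ, o₀) ∈ KO W ×ˢ closedBall (0 : ℂ) (1 / 100000) :=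
    ⟨h4, mem_closedBall_zero_iff.2 b2⟩
  have hd : ‖![(n : ℂ), α, σ, y, yt, op - o₀]‖ ≤ min δ₁ δ₂ :=
    (pi_norm_le_iff_of_nonneg (lt_min hδ₁ hδ₂).le).2 fun i => by fin_cases i <;> assumption
  have h11 := g1 _ hx _ (hd.trans (min_le_left _ _))
  have h12 := g2 _ hx _ (hd.trans (min_le_right _ _))
  have h13 : ‖A ((Om a ζ, o₀), 0)‖ ≤ 2 * W := by
    have f1 := (norm_sqrt_near (key _ hx).1).1
    have f2 : √‖Om a ζ‖ ≤ W :=
      (Real.sqrt_le_iff.2 ⟨norm_nonneg _, by nlinarith [hp.lo]⟩).trans hp.hi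
    have f3 : ‖o₀ - 1‖ ≤ 3 / 2 := (norm_sub_le _ _).trans (by rw [norm_one]; linarith)
    have f4 := hp.lo.trans hp.hi
    rw [vA, norm_div, norm_mul, norm_sqrt, div_le_iff₀ (by linarith)]
    refine (mul_le_mul f2 f3 (norm_nonneg _) (by linarith)).trans ?_
    nlinarith
  have h14 : ‖A ((Om a ζ, o₀), ![(n : ℂ), α, σ, y, yt, op - o₀])‖ ≤ 10 * W := by
    have f1 := norm_sub_norm_le (A ((Om a ζ, o₀), ![(n : ℂ), α, σ, y, yt, op - o₀]))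
      (A ((Om a ζ, o₀), 0))
    linarith [hp.lo.trans hp.hi]
  have e2 : a / 2 * ζ = -((1 + α) * (1 + σ)) := by rw [h7, h8]; field_simp
  have e3 : a / (2 * rh a ζ) = -((1 + α) * (1 + σ)) / Om a ζ := by
    rw [h9]
    generalize Om a ζ = Ω at h10
    rw [h7]
    field_simp
  have e4 : YI n a ζ 0 = -Om a ζ / (2 * (1 + σ)) := by rw [YI, h9]; field_simp; ring
  have e5 : hI n a ζ 0 o₀ = 1 + α - o₀ / (1 + σ) := by
    rw [hI, h7, h8]; field_simp; ring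
  have e6 : 2 * Complex.sqrt (Om a ζ) / ζ = n * (Complex.sqrt (Om a ζ) / (1 + σ)) := by
    generalize Complex.sqrt (Om a ζ) = r
    rw [h8]
    field_simp
  have e7 : Complex.exp (-(ζ + rh a ζ * (1 + y) ^ 2) / 4) = Complex.exp (-ζ / 4) *
      Complex.exp (-(Om a ζ * n / (2 * (1 + σ)) * (1 + y) ^ 2) / 4) := by
    rw [← Complex.exp_add, ← h9]
    congr 1
    ring
  have e8 : ‖(n : ℂ) * Complex.exp (-ζ / 4)‖ = n * Real.exp (-(ζ.re / 4)) := by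
    rw [norm_mul, norm_real, Real.norm_of_nonneg hp.n0.le, norm_exp, div_ofNat_re, neg_re, neg_div]
  have e9 : (1 + y) * (ζ - 2) * da / (2 * rh a ζ) =
      (1 + y) * (1 + σ) / Om a ζ * ((ζ - 2) * da / n) := by
    rw [h9]
    field_simp
  have e10 : fluxCyl a ζ y yt op da dy = n * Complex.exp (-ζ / 4) *
      (A ((Om a ζ, o₀), ![(n : ℂ), α, σ, y, yt, op - o₀]) *
        (dy + (1 + y) * (1 + σ) / Om a ζ * ((ζ - 2) * da / n))) := by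
    simp only [hA, Matrix.cons_val, add_sub_cancel]
    rw [fluxCyl, Dc, e2, e3, e7, e9, ← Om, e6]
    ring
  simp only [Matrix.cons_val] at h12
  rw [e10, e4, e5, ← e8, neg_div (n : ℂ)]
  generalize A _ = A1 at h12 h14 ⊢
  generalize (ζ - 2) * da / n = m
  generalize (1 + y) * (1 + σ) / Om a ζ = t at h12 ⊢
  generalize 2 * (1 + α - o₀ / (1 + σ)) / lI _ _ = l at h12 ⊢
  rw [show (n : ℂ) * Complex.exp (-ζ / 4) * (A1 * (dy + t * m)) -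
    n * (√2 / 4) * Complex.exp (-ζ / 4) * (l * -m) =
    n * Complex.exp (-ζ / 4) * ((A1 * t + √2 / 4 * l) * m + A1 * dy) by ring, norm_mul]
  refine mul_le_mul_of_nonneg_left ((norm_add_le _ _).trans (add_le_add ?_ ?_)) (norm_nonneg _) <;>
    rw [norm_mul]
  exacts [mul_le_mul_of_nonneg_right h12 (norm_nonneg _),
    mul_le_mul_of_nonneg_right h14 (norm_nonneg _)]

/-- the fast rate is close to `1/4` -/
theorem inv_la {Ω : ℂ} (hΩ : 1000 ≤ ‖Ω‖) : la (-(2 * Ω)⁻¹) ≠ 0 ∧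
    ‖(la (-(2 * Ω)⁻¹))⁻¹ - 4‖ ≤ 100 / ‖Ω‖ := by
  refine ⟨la_ne _, ?_⟩
  have h0 : 0 < ‖Ω‖ := by linarith
  have h1 := norm_nu_le' (-(2 * Ω)⁻¹)
  have h2 := la_ne (-(2 * Ω)⁻¹)
  have h3 := la_eq (-(2 * Ω)⁻¹)
  have h4 : 1 / ‖Ω‖ ≤ 1 / 1000 := one_div_le_one_div_of_le (by norm_num) hΩ
  rw [norm_neg, norm_inv, norm_mul, Complex.norm_two,
    show 8 * (2 * ‖Ω‖)⁻¹ = 4 * (1 / ‖Ω‖) by field_simp; norm_num] at h1
  generalize la _ = L at h2 h3 ⊢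
  generalize nu _ = v at h1 h3
  have h5 : 1 / 4 ≤ ‖L‖ + ‖v‖ := by
    have := norm_sub_le L v
    rw [h3, add_sub_cancel_right, ← h3] at this
    simpa using this
  have h6 : L⁻¹ - 4 = -(4 * v) / L := by
    field_simp
    rw [h3]
    ring
  rw [h6, norm_div, norm_neg, norm_mul, div_le_iff₀ (by linarith), ← mul_one_div 100,
    show ‖(4 : ℂ)‖ = 4 by simp]
  have h7 : 0 < 1 / ‖Ω‖ := by positivity
  nlinarith

end Vale.Agent.P218N.J
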