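import Vale.Agent.P218N.J.Inner

/-! From the outer family to the final configuration. -/

open Filter Topology Metric Set Complex
open scoped ComplexConjugate

noncomputable section

namespace Vale.Agent.P218N.J

open Vale.Agent.P218N.End

variable {ι : Type} [Fintype ι] [DecidableEq ι] {e A κ : ℝ}

namespace Chn

theorem ev_small {A c b : ℝ} (hA : 0 < A) (hc : 0 < c) (hb : 0 < b) : ∀ᶠ η in 𝓝[>] (0 : ℝ),
    ∀ ρ ∈ Ioo (0 : ℝ) η, (1 / (12 * A * ρ) + 2) * Real.exp (-(c / ρ)) ≤ b := by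
  have h1 : Tendsto (fun ρ : ℝ => c * ρ⁻¹) (𝓝[>] 0) atTop :=
    tendsto_inv_nhdsGT_zero.const_mul_atTop hc
  have h2 := (((Real.tendsto_pow_mul_exp_neg_atTop_nhds_zero 1).const_mul (1 / (12 * A * c))).add
    (Real.tendsto_exp_neg_atTop_nhds_zero.const_mul 2)).comp h1
  obtain ⟨η, h3, h4⟩ := (nhdsGT_basis (0 : ℝ)).eventually_iff.1
    (h2.eventually_le_const (show _ < b by simpa))
  filter_upwards [Ioo_mem_nhdsGT h3] with η' k ρ hρ
  refine le_trans (le_of_eq ?_) (h4 ⟨hρ.1, hρ.2.trans k.2⟩)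
  have := hρ.1.ne'
  simp only [Function.comp_apply, div_eq_mul_inv c]
  field_simp

theorem geo (L : ℝ) (N : ℕ) :
    ∑ k ∈ Finset.range N, Real.exp (-((L + k) / 10)) ≤ 11 * Real.exp (-(L / 10)) := by
  have key : ∀ N : ℕ, ∑ k ∈ Finset.range N, Real.exp (-((L + k) / 10)) +
      11 * Real.exp (-((L + N) / 10)) ≤ 11 * Real.exp (-(L / 10)) := fun N => by
    induction N with
    | zero => simp
    | succ N ih =>
      have h1 : Real.exp (-((L + N) / 10)) =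
          Real.exp (-((L + (N + 1 : ℕ)) / 10)) * Real.exp (1 / 10) := by
        rw [← Real.exp_add]; congr 1; push_cast; ring
      rw [Finset.sum_range_succ]
      nlinarith [Real.add_one_le_exp (1 / 10), Real.exp_pos (-((L + (N + 1 : ℕ)) / 10))]
  linarith [key N, Real.exp_pos (-((L + N) / 10))]

theorem exp_min (x y : ℝ) :
    Real.exp (-(min x y / 10)) ≤ Real.exp (-(x / 10)) + Real.exp (-(y / 10)) := by
  rcases min_choice x y with h | h <;> rw [h] <;>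
    linarith [Real.exp_pos (-(x / 10)), Real.exp_pos (-(y / 10))]

theorem mst_pas (T e s ρ : ℝ) {a : ℝ} (h : ¬ a < 0) : mst T e a s ρ 0 = mst T e a 1 ρ 0 := by
  simp [mst, h]

end Chn

open Chn

/-- The scales `t i k = min (1 / (12 |a i| ρ)) (L + k)`, `k = 0, …, N = ⌈1 / (12 A ρ)⌉`, are used
for all active ends at the same time (`tele` with `ist_step`; `Eqv.refl` at the passive ends);
`∑ exp (-(L + k) / 10) ≤ 11 exp (-L / 10)` and `N exp (-e / (60 ρ)) ≤ exp (-L / 10)`. -/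
theorem chain (c₀ : Cx ι) (hF : Fit c₀.M c₀.X e A κ) {a : ι → ℝ}
    (lo : ∀ i ∈ c₀.P.I, a i < 0 → A ≤ |a i|) (up : ∀ i ∈ c₀.P.I, e * |a i| ≤ 1 / 2) {K : ℕ}
    (hK : 1 ≤ K) {L : ℝ} (hL : Lmin c₀ A ≤ L) : ∃ C : ℝ, ∀ᶠ η in 𝓝[>] (0 : ℝ),
      ∀ ρ ∈ Ioo (0 : ℝ) η, (c₀.sc ρ).Ok → ∀ s : ℝ, (s = 1 ∨ s = -1) →
      ∀ ξ ∈ P218F.Box c₀.P.I a K η ρ,
        AllG (c₀.sc ρ) (6 * e / ρ) ξ (fins c₀.P.T e a s ρ L ξ) ∧
        (∀ i ∈ c₀.P.I, Wt (fins c₀.P.T e a s ρ L ξ i) (if a i < 0 then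
          ‖Complex.exp (1 / 2 / ξ i)‖ * Real.exp (-(L / 10))
          else (c₀.M + 2) * Real.exp (-(101 / 100 * e / ρ)))) ∧
        ‖Gf c₀.P c₀.Sol e a s ρ 0 ξ - vl c₀.P c₀.Sol (6 * e / ρ) (fins c₀.P.T e a s ρ L ξ) ξ‖ ≤
          30 * (c₀.P.I.card + 1) * c₀.C₁ * Real.exp (-(L / 10)) *
              ∑ i ∈ c₀.P.I.filter (fun i => a i < 0), ‖Complex.exp (1 / 2 / ξ i)‖ +
            C * Real.exp (-((e + e / 200) / ρ)) := by
  have e0 := hF.e0
  refine ⟨(c₀.P.I.card + 1) * (2 * c₀.C₁) * (c₀.P.I.card * (c₀.M + 2) + 1), ?_⟩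
  filter_upwards [mst_allG c₀ hF lo up hK, mst_endG c₀ hF, ist_step c₀ hF, ist_top c₀ hF,
    ist_fin c₀ hF hL, ev_small hF.A0 (show 0 < e / 60 by positivity) (Real.exp_pos (-(L / 10))),
    ev_small hF.A0 (show 0 < e / 200 by positivity) one_pos]
    with η h1 h2 h3 h4 h5 h6 h7 ρ hρ H s hs ξ hξ
  have ρ0 := hρ.1
  have hφ : (0 : ℝ) ∈ Icc (-(1 / 1000)) (Real.pi / 2) := ⟨by norm_num, by positivity⟩
  have nρ : ‖(ρ : ℂ)‖ = ρ := by simp [ρ0.le]
  have p0 : ∀ s : ℝ, P218F.pol ρ (s * 0) = ρ := fun s => by simp [P218F.pol]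
  have G0 := h1 ρ hρ H s 0 hs hφ ξ (by rwa [p0])
  have act : ∀ i ∈ c₀.P.I, a i < 0 → Act e A η ρ (a i) (ξ i) := fun i hi k =>
    ⟨k, lo i hi k, up i hi, ρ0, hρ.2, by simpa only [nρ] using hξ.2 i hi⟩
  have pas := fun i (hi : i ∈ c₀.P.I) => h2 ρ hρ H (a i) 1 0 (ξ i) (lo i hi) (up i hi) (.inl rfl) hφ
    (by simpa only [nρ, p0] using hξ.2 i hi)
  have fi := fun i (hi : i ∈ c₀.P.I) k => h5 ρ (a i) (ξ i) _ s (act i hi k) rfl H hs
  have n0 : ∀ i, a i < 0 → 0 < 12 * (|a i| * ρ) := fun i k => by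
    have := abs_pos.2 k.ne
    positivity
  have C0 : 0 ≤ 2 * c₀.C₁ := mul_nonneg zero_le_two H.C₁_nonneg
  have L0 : 0 ≤ L := le_trans (by
    have := H.spec.K0
    have := H.L0
    have : 0 ≤ c₀.P.K := by change 1000 ≤ c₀.P.K at *; linarith
    have : 0 ≤ c₀.L₀ := H.L0.le
    unfold Lmin
    positivity) hL
  let t : ι → ℕ → ℝ := fun i k => min (1 / (12 * (|a i| * ρ))) (L + k)
  have t0 : ∀ i ∈ c₀.P.I, a i < 0 → t i 0 = L := fun i hi k => by
    simp only [t, Nat.cast_zero, add_zero]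
    exact min_eq_right ((le_div_iff₀' (n0 i k)).2 (fi i hi k).1)
  let σ : ℕ → ι → ES := fun k i => if a i < 0 then
    ist c₀.P.T (e / (2000 * ρ)) s (ξ i) (|a i| * ρ) (t i k) else mst c₀.P.T e (a i) 1 ρ 0
  let W : ℕ → ι → ℝ := fun k i => if a i < 0 then ‖Complex.exp (1 / 2 / ξ i)‖ *
    Real.exp (-(t i k / 10)) else (c₀.M + 2) * Real.exp (-(101 / 100 * e / ρ))
  have w0 : 0 ≤ (c₀.M + 2) * Real.exp (-(101 / 100 * e / ρ)) :=
    mul_nonneg (by linarith [show 1 ≤ c₀.M from H.M1]) (Real.exp_pos _).le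
  have step : ∀ k, ∀ i ∈ c₀.P.I, Lnk (c₀.sc ρ) (ξ i) (2 * c₀.C₁) (W k i) (σ k i) (σ (k + 1) i) ∧
      Wt (σ k i) (W k i) ∧ Wt (σ (k + 1) i) (W k i) := fun k i hi => by
    by_cases r : a i < 0
    · simp only [σ, W, if_pos r]
      refine h3 ρ (a i) (ξ i) _ s _ _ (act i hi r) rfl H hs (hL.trans (le_min
        ((le_div_iff₀' (n0 i r)).2 (fi i hi r).1) (by simp))) (min_le_min le_rfl (by simp)) ?_
        ((le_div_iff₀' (n0 i r)).1 (min_le_left _ _))
      simp only [t, ← min_add_add_right]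
      exact min_le_min (by simp) (by push_cast; linarith)
    · simp only [σ, W, if_neg r]
      exact ⟨(Eqv.refl H (pas i hi).1).lnk H C0 w0, (pas i hi).2, (pas i hi).2⟩
  have G : ∀ k, AllG (c₀.sc ρ) (6 * e / ρ) ξ (σ k) := fun k =>
    ⟨G0.xi, G0.rc, fun i hi => (step k i hi).1.1⟩
  have fe : ∀ i ∈ c₀.P.I, Eqv (c₀.sc ρ) (ξ i) (fins c₀.P.T e a s ρ L ξ i) (σ 0 i) := fun i hi => by
    by_cases r : a i < 0
    · simp only [σ, fins, if_pos r, t0 i hi r]
      exact (fi i hi r).2.2.1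
    · simp only [σ, fins, if_neg r]
      exact Eqv.refl H (pas i hi).1
  have Gf' : AllG (c₀.sc ρ) (6 * e / ρ) ξ (fins c₀.P.T e a s ρ L ξ) :=
    ⟨G0.xi, G0.rc, fun i hi => (fe i hi).1⟩
  refine ⟨Gf', fun i hi => ?_, ?_⟩
  · by_cases r : a i < 0
    · simp only [fins, if_pos r]
      exact (fi i hi r).2.2.2.1
    · simp only [fins, if_neg r]
      exact (pas i hi).2
  obtain ⟨N, N1, N2⟩ : ∃ N : ℕ, 1 / (12 * A * ρ) ≤ N ∧ (N : ℝ) + 1 ≤ 1 / (12 * A * ρ) + 2 :=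
    ⟨_, Nat.le_ceil _, by
      linarith [Nat.ceil_lt_add_one (show 0 ≤ 1 / (12 * A * ρ) by have := hF.A0; positivity)]⟩
  have tN : ∀ i ∈ c₀.P.I, a i < 0 → t i N = 1 / (12 * (|a i| * ρ)) := fun i hi r =>
    min_eq_left (le_trans (one_div_le_one_div_of_le (by have := hF.A0; positivity)
      (by nlinarith [lo i hi r])) (N1.trans (le_add_of_nonneg_left L0)))
  have top := tele (σ' := σ N) (W := W N) H C0 G0 (fun i hi => by
      by_cases r : a i < 0
      · simp only [σ, W, if_pos r]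
        exact (h4 ρ (a i) (ξ i) _ s _ (act i hi r) rfl H hs (tN i hi r)).1
      · simp only [σ, W, if_neg r, mst_pas _ _ s _ r]
        exact (Eqv.refl H (pas i hi).1).lnk H C0 w0) fun i hi => by
      by_cases r : a i < 0
      · simp only [σ, W, if_pos r]
        exact (h4 ρ (a i) (ξ i) _ s _ (act i hi r) rfl H hs (tN i hi r)).2.symm
      · simp only [σ, W, if_neg r, mst_pas _ _ s _ r]
        exact ⟨(pas i hi).2, (pas i hi).2⟩
  have mid := dist_le_range_sum_of_dist_le (f := fun k => vl c₀.P c₀.Sol (6 * e / ρ) (σ k) ξ) N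
    fun {k} _ => (dist_eq_norm _ _).trans_le
      (tele H C0 (G k) (fun i hi => (step k i hi).1) fun i hi => (step k i hi).2)
  have b1 : ∀ i ∈ c₀.P.I, ∑ k ∈ Finset.range (N + 1), W k i ≤ (if a i < 0 then
      15 * Real.exp (-(L / 10)) * ‖Complex.exp (1 / 2 / ξ i)‖ else 0) +
      (c₀.M + 2) * ((N + 1) * Real.exp (-(101 / 100 * e / ρ))) := fun i hi => by
    by_cases r : a i < 0
    · simp only [W, if_pos r, ← Finset.mul_sum]
      have k1 : Real.exp (-(1 / (12 * (|a i| * ρ)) / 10)) ≤ Real.exp (-(e / 60 / ρ)) := by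
        refine Real.exp_le_exp.2 (neg_le_neg ?_)
        rw [div_div, div_div, div_le_div_iff₀ (by positivity) (by linarith [n0 i r])]
        nlinarith [up i hi]
      have k2 := (Finset.sum_le_sum fun k (_ : k ∈ Finset.range (N + 1)) =>
        (exp_min (1 / (12 * (|a i| * ρ))) (L + k)).trans (add_le_add k1 le_rfl))
      rw [Finset.sum_add_distrib, Finset.sum_const, Finset.card_range, nsmul_eq_mul] at k2
      have k3 := (mul_le_mul_of_nonneg_right N2 (Real.exp_pos _).le).trans (h6 ρ hρ)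
      push_cast at k2
      have k4 : ∑ k ∈ Finset.range (N + 1), Real.exp (-(t i k / 10)) ≤
          15 * Real.exp (-(L / 10)) := by
        linarith [geo L (N + 1), Real.exp_pos (-(L / 10))]
      nlinarith [mul_le_mul_of_nonneg_left k4 (norm_nonneg (Complex.exp (1 / 2 / ξ i))),
        mul_nonneg (show (0 : ℝ) ≤ N + 1 by positivity) w0]
    · simp only [W, if_neg r, Finset.sum_const, Finset.card_range, nsmul_eq_mul]
      push_cast
      linarith
  have b2 : ((N : ℝ) + 1) * Real.exp (-(101 / 100 * e / ρ)) ≤ Real.exp (-((e + e / 200) / ρ)) := by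
    rw [show -(101 / 100 * e / ρ) = -(e / 200 / ρ) + -((e + e / 200) / ρ) by ring, Real.exp_add,
      ← mul_assoc]
    exact mul_le_of_le_one_left (Real.exp_pos _).le
      ((mul_le_mul_of_nonneg_right N2 (Real.exp_pos _).le).trans (h7 ρ hρ))
  have b3 : ((N : ℝ) + 1) * Real.exp (-(6 * e / ρ / 5)) ≤ Real.exp (-((e + e / 200) / ρ)) :=
    (mul_le_mul_of_nonneg_left (Real.exp_le_exp.2 (neg_le_neg (by
      rw [div_right_comm]; exact div_le_div_of_nonneg_right (by linarith) ρ0.le)))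
      (by positivity)).trans b2
  have b4 := Finset.sum_le_sum b1
  rw [Finset.sum_comm, Finset.sum_add_distrib, ← Finset.sum_filter, ← Finset.mul_sum,
    Finset.sum_const, nsmul_eq_mul, Finset.sum_range_succ] at b4
  rw [← Finset.mul_sum, Finset.sum_add_distrib, Finset.sum_const, Finset.card_range, nsmul_eq_mul,
    dist_comm, dist_eq_norm] at mid
  have b5 := mul_le_mul_of_nonneg_left b2 (show 0 ≤ (c₀.P.I.card : ℝ) * (c₀.M + 2) by
    have : 1 ≤ c₀.M := H.M1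
    positivity)
  rw [show vl c₀.P c₀.Sol _ (fins c₀.P.T e a s ρ L ξ) ξ = vl c₀.P c₀.Sol _ (σ 0) ξ from
    tele_eqv (c := c₀.sc ρ) H Gf' fe]
  refine (norm_sub_le_norm_sub_add_norm_sub _ _ _).trans ((add_le_add top mid).trans ?_)
  have b6 : 0 ≤ ((c₀.P.I.card : ℝ) + 1) * (2 * c₀.C₁) := by positivity
  have b7 := mul_le_mul_of_nonneg_left (show (∑ i ∈ c₀.P.I, W N i + Real.exp (-(6 * e / ρ / 5))) +
    (∑ k ∈ Finset.range N, ∑ i ∈ c₀.P.I, W k i + N * Real.exp (-(6 * e / ρ / 5))) ≤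
    15 * Real.exp (-(L / 10)) * ∑ i ∈ c₀.P.I.filter (fun i => a i < 0),
      ‖Complex.exp (1 / 2 / ξ i)‖ + (c₀.P.I.card * (c₀.M + 2) + 1) *
      Real.exp (-((e + e / 200) / ρ)) by linarith) b6
  exact (le_of_eq (mul_add _ _ _).symm).trans (b7.trans (le_of_eq (by ring)))

end Vale.Agent.P218N.J
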