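import Vale.Agent.P218N.J.Defs

/-! Second layer of definitions: states of the ends, values, links. -/

open Filter Topology Metric Set Complex
open scoped ComplexConjugate

noncomputable section

namespace Vale.Agent.P218N.J

open Vale.Agent.P218N.End

/-! ### contours -/

/-- composition with `t ↦ 2 t - k` -/
def af (k : ℝ) : BC →L[ℂ] BC :=
  BoundedContinuousFunction.compContinuousCLM ℂ ℂ ⟨fun t : ℝ => 2 * t - k, by fun_prop⟩

/-- concatenation of two paths -/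
def cat (γ₁ γ₂ : Path) : Path where
  ze := af 0 γ₁.ze + af 1 γ₂.ze - γ₁.ze 1 • (1 : BC)
  g := (2 : ℂ) • af 0 γ₁.g + (2 : ℂ) • af 1 γ₂.g

/-- the real segment `T → P` on `[0, 1/2]`, then the polygon `P → q₁ → q₂ → q₃` -/
def pq (T P : ℝ) (q₁ q₂ q₃ : ℂ) : Path := cat (sg T P) (pg P q₁ q₂ q₃)

/-- the contour `T → P → U → E` -/
def ctr (T P : ℝ) (U E : ℂ) : Path := pq T P ((P + U) / 2) U E

/-- the trace of a path -/
def rng (γ : Path) : Set ℂ := γ.ze '' Icc 0 1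

/-- the state of an end: a disc of slopes and a contour -/
structure ES where
  ah : ℂ
  rd : ℝ
  γ : Path

/-- a bound for the weight of the end point -/
def Wt (s : ES) (w : ℝ) : Prop := ∀ a ∈ closedBall s.ah s.rd,
  Real.sqrt (‖rh a (s.γ.ze 1)‖ / ‖s.γ.ze 1‖) * Real.exp (-((s.γ.ze 1).re / 4)) ≤ w

/-! ### the constants -/

/-- the problem and its constants -/
structure Cx (ι : Type) where
  P : Par ι
  Sol : Cfg ι → (ι → ℂ) → Out ι → Prop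
  M : ℝ
  K' : ℝ
  C : ℝ
  X : ℝ
  L₀ : ℝ
  ε : ℝ
  ρ : ℝ

variable {ι : Type} [Fintype ι] [DecidableEq ι]

namespace Cx

/-- change of the scale -/
def sc (c : Cx ι) (ρ : ℝ) : Cx ι := { c with ρ := ρ }

/-- change of the tolerance -/
def tol (c : Cx ι) (ε : ℝ) : Cx ι := { c with ε := ε }

/-- the constant of the truncation estimate -/
def C₁ (c : Cx ι) : ℝ := 100 * (1 + c.M ^ 2) * Real.exp (c.M ^ 2 + 3) / c.P.c + c.C

structure Ok (c : Cx ι) : Prop where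
  spec : Spec0 c.P c.Sol
  loc : Loc c.P c.Sol c.M c.K' c.C c.ε c.ρ
  M1 : 1 ≤ c.M
  K0 : 0 ≤ c.K'
  C0 : 0 ≤ c.C
  X1 : 1 ≤ c.X
  L0 : 0 < c.L₀
  ε0 : 0 < c.ε
  ρ0 : 0 < c.ρ
  Mρ : c.M * c.ρ ≤ 1 / 1000
  big : ∀ u, c.L₀ ≤ u →
    2 * (c.K' * (1 + 16 * (4 * c.M ^ 2 * c.C / u + c.ε) ^ 2 * (c.X * u))) ≤ u ∧
      c.C * (1 + (3 * Real.log (4 * c.M ^ 2 * c.X) + 6 * Real.pi)) ≤ u / 4

end Cx

/-- the conditions on the disc and on the end point `E` -/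
structure Side (c : Cx ι) (x ah : ℂ) (rd : ℝ) (E : ℂ) : Prop where
  al : ‖x‖ ≤ c.M * c.ρ
  big : c.L₀ * c.ρ ^ 2 ≤ rd
  sm : ‖ah‖ + rd ≤ c.M * c.ρ
  ref : ‖ah + ah ^ 2 * sE ah E - x‖ ≤ rd / 8
  hi : ∀ a ∈ closedBall ah rd, ‖Om a E‖ ≤ c.X * (rd / c.ρ ^ 2)

/-- a good state for the parameter `x` -/
structure EndG (c : Cx ι) (x : ℂ) (s : ES) : Prop where
  side : Side c x s.ah s.rd (s.γ.ze 1)
  up : ∀ t, ‖s.γ.ze t‖ ≤ c.M / c.ρ
  adm : ∀ a ∈ closedBall s.ah s.rd, AdmP c.P.c c.P.K c.P.T a s.γ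
  pre : ∃ t₁ ∈ Icc (0 : ℝ) 1, (∀ t ∈ Icc 0 t₁, (s.γ.ze t).im = 0) ∧
    1 / (c.M * c.ρ) ≤ (s.γ.ze t₁).re
  mono : StrictMonoOn (fun t => (s.γ.ze t).re) (Icc 0 1)

/-- a good configuration -/
structure AllG (c : Cx ι) (Rc : ℝ) (ξ : ι → ℂ) (σ : ι → ES) : Prop where
  xi : ‖ξ‖ < c.P.r
  rc : 1 / (c.M * c.ρ) ≤ Rc ∧ Rc ≤ c.M / c.ρ
  ends : ∀ i ∈ c.P.I, EndG c (ξ i) (σ i)

/-- the truncated problem without fast data -/
def cfg (Rc : ℝ) (σ : ι → ES) : Cfg ι := ⟨Rc, fun i => (σ i).γ, fun _ => 0⟩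

/-- the truncated problem with fast data `ω` at the end `i` -/
def cfw (Rc : ℝ) (σ : ι → ES) (i : ι) (ω : WD) : Cfg ι :=
  ⟨Rc, fun k => (σ k).γ, Function.update (fun _ => 0) i ω⟩

/-- the centres -/
def ahs (σ : ι → ES) : ι → ℂ := fun i => (σ i).ah

/-- the radii -/
def rds (σ : ι → ES) : ι → ℝ := fun i => (σ i).rd

/-- the value of the truncated functional -/
def vl (P : Par ι) (Sol : Cfg ι → (ι → ℂ) → Out ι → Prop) (Rc : ℝ) (σ : ι → ES) (ξ : ι → ℂ) :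
    ℂ := Classical.epsilon fun v => ∃ o, Sol (cfg Rc σ) ξ o ∧ Half P (ahs σ) (rds σ) o ∧ o.v = v

/-- the change of the state of one end changes the value by `m`, up to an error -/
def Lnm (c : Cx ι) (x m : ℂ) (b N : ℝ) (s s' : ES) : Prop :=
  EndG c x s ∧ EndG c x s' ∧ ∀ (Rc : ℝ) (ξ : ι → ℂ) (σ : ι → ES) (W : ι → ℝ), ∀ i ∈ c.P.I,
    ξ i = x → AllG c Rc ξ (Function.update σ i s) → (∀ k ∈ c.P.I, k ≠ i → Wt (σ k) (W k)) →
    ‖vl c.P c.Sol Rc (Function.update σ i s) ξ - vl c.P c.Sol Rc (Function.update σ i s') ξ - m‖ ≤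
      b + N * (∑ k ∈ c.P.I.erase i, W k + Real.exp (-(Rc / 5)))

/-- a link without main term -/
def Lnk (c : Cx ι) (x : ℂ) (N w : ℝ) (s s' : ES) : Prop := Lnm c x 0 (N * w) N s s'

/-- the two states give the same values -/
def Eqv (c : Cx ι) (x : ℂ) (s s' : ES) : Prop := Lnm c x 0 0 0 s s'

/-- all contours `T → P → U → E` with `U`, `E` near the standard points are good -/
structure Reg (c : Cx ι) (x ah : ℂ) (rd s P : ℝ) (Z : ℂ) (t : ℝ) : Prop where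
  hs : s = 1 ∨ s = -1
  geo : ∀ a ∈ closedBall ah rd, GeoA c.P.K P (cs s a) Z t
  TP : c.P.T < P
  lo : 1 / (c.M * c.ρ) ≤ P
  up : 2 * Z.re ≤ c.M / c.ρ
  side : ∀ E ∈ closedBall (E0 Z t) (t / 100), Side c x ah rd (cs s E)

/-! ### the states which are used -/

/-- the constants `M`, `X` fit to the direction -/
structure Fit (M X e A κ : ℝ) : Prop where
  e0 : 0 < e
  A0 : 0 < A
  κ0 : 0 < κ
  κe : 4000 * κ ≤ e
  Mκ : 2 ≤ M * κ
  Me : 10 * e ≤ M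
  MA : 10 ≤ M * A
  XA : 100000 ≤ X * A ^ 2
  Xe : 30000 * e ^ 2 ≤ X

/-- the outer state of an end with the direction `a` -/
def mst (T e a s ρ φ : ℝ) : ES :=
  if a < 0 then ⟨a * P218F.pol ρ (s * φ), |a| * ρ / 2400, ctr T (e / (2000 * ρ))
    (cs s (U0 (2 / (|a| * ρ) : ℝ) (1 / (12 * (|a| * ρ)))))
    (cs s (E0 (2 / (|a| * ρ) : ℝ) (1 / (12 * (|a| * ρ)))))⟩
  else ⟨a * P218F.pol ρ (s * φ), ρ / (1000 * e), sg T (5 * e / ρ : ℝ)⟩

/-- the outer family -/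
def Gf (P : Par ι) (Sol : Cfg ι → (ι → ℂ) → Out ι → Prop) (e : ℝ) (a : ι → ℝ) (s ρ φ : ℝ) :
    (ι → ℂ) → ℂ := vl P Sol (6 * e / ρ) fun i => mst P.T e (a i) s ρ φ

/-- an active end in the direction `φ = 0` -/
structure Act (e A η ρ a : ℝ) (x : ℂ) : Prop where
  neg : a < 0
  lo : A ≤ |a|
  up : e * |a| ≤ 1 / 2
  ρ0 : 0 < ρ
  ρ1 : ρ < η
  xa : ‖x - a * ρ‖ < η * ρ

/-- the logarithmic shift -/
def ell (n t : ℝ) : ℝ := Real.log (11 * n ^ 2 * t)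

/-- the reference turning point -/
def Zi (x : ℂ) (n t : ℝ) : ℂ := 2 - 2 / x + 2 * ell n t

/-- the reference slope -/
def ahi (x : ℂ) (n t : ℝ) : ℂ := (1 / x - ell n t)⁻¹

/-- the corner of the contour with the sign `s` -/
def Us (s : ℝ) (Z : ℂ) (t : ℝ) : ℂ := cs s (U0 (cs s Z) t)

/-- the end point of the contour with the sign `s` -/
def Es (s : ℝ) (Z : ℂ) (t : ℝ) : ℂ := cs s (E0 (cs s Z) t)

/-- the inner state of scale `t` -/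
def ist (T P s : ℝ) (x : ℂ) (n t : ℝ) : ES :=
  ⟨ahi x n t, n ^ 2 * t / 200, ctr T P (Us s (Zi x n t) t) (Es s (Zi x n t) t)⟩

/-- the final state, through the point `Z - 22 t` -/
def fin (T P s : ℝ) (x : ℂ) (n t : ℝ) : ES := ⟨ahi x n t, n ^ 2 * t / 200,
  pq T P (Zi x n t - 22 * t) (Us s (Zi x n t) t) (Es s (Zi x n t) t)⟩

/-- the common prefix of the two final states -/
def pfx (T P : ℝ) (x : ℂ) (n t : ℝ) : ES := ⟨ahi x n t, n ^ 2 * t / 200,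
  pq T P ((2 * P + (Zi x n t - 22 * t)) / 3) ((P + 2 * (Zi x n t - 22 * t)) / 3)
    (Zi x n t - 22 * t)⟩

/-- the final configuration -/
def fins (T e : ℝ) (a : ι → ℝ) (s ρ L : ℝ) (ξ : ι → ℂ) : ι → ES := fun i =>
  if a i < 0 then fin T (e / (2000 * ρ)) s (ξ i) (|a i| * ρ) L else mst T e (a i) 1 ρ 0

/-- the least admissible inner scale -/
def Lmin (c : Cx ι) (A : ℝ) : ℝ := 10 ^ 7 + 200 * c.P.K + 200 * c.L₀ / A ^ 2

/-- the Stokes multiplier at the scale `L` -/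
def BL (k l : ℂ → ℂ) (L : ℝ) : ℂ :=
  2 * Real.pi * (Real.sqrt 2 / 4) * Real.exp (-1 / 2) / Real.sqrt (11 * L) *
    (-8 / Real.sqrt (22 * L) * Real.exp (22 * L / 4) * (k (-(22 * L : ℝ)) - l (-(22 * L : ℝ))))

/-- One arm of the final contour in the inner variables; `J` is its normalised area. -/
def Arm (s L ε : ℝ) (Y₀ h₀ J : ℂ) : Prop := ∃ (t₀ t₁ : ℝ) (g w Y h q : ℝ → ℂ),
  Leg t₀ t₁ (25 * L) ε g w Y h q ∧ (∀ t ∈ Icc t₀ t₁, Y t ∈ Stokes.DD s) ∧ w t₀ = -(22 * L : ℝ) ∧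
    L / 2 ≤ (w t₁).re ∧ 2 / 5 * L ≤ (Y t₁).re ∧ ‖Y t₁‖ ≤ 100 * L ∧ ‖Y₀ - Y t₀‖ ≤ ε ∧
    ‖h₀ - h t₀‖ ≤ ε ∧ J = ∫ t in t₀..t₁, g t * (Complex.exp (-w t / 4) * lI (Y t) (h t))

end Vale.Agent.P218N.J
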