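import Vale.Agent.P218N.J.Spec
import Vale.Agent.P218N.Stokes.Jump

/-! Definitions for the contour calculus. -/

open Filter Topology Metric Set Complex
open scoped ComplexConjugate

noncomputable section

namespace Vale.Agent.P218N.J

open Vale.Agent.P218N.End

/-- the polar form of `Ω` -/
def Bq (a p q : ℂ) : ℂ := (p * rh a q + q * rh a p) / 2

/-- the segment from `p` to `q` is admissible -/
def SegOK (c K : ℝ) (a p q : ℂ) : Prop := p ≠ q ∧ c * ‖q - p‖ ≤ (q - p).re ∧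
  ∀ X ∈ ({Om a p, Bq a p q, Om a q} : Set ℂ),
    c * (‖q - p‖ * ‖X‖) ≤ (conj (q - p) * X).re ∧ K * ‖q - p‖ ≤ (conj (q - p) * X).re

/-- the polygon `T → U → E` -/
def pg2 (T U E : ℂ) : Path := pg T ((T + U) / 2) U E

/-- the trace of a polygon -/
def img (p q₁ q₂ q₃ : ℂ) : Set ℂ := segment ℝ p q₁ ∪ segment ℝ q₁ q₂ ∪ segment ℝ q₂ q₃

/-- the slope of `z` lies in `[l, h]` -/
def Tn (l h : ℝ) (z : ℂ) : Prop := 0 < z.re ∧ l * z.re ≤ z.im ∧ z.im ≤ h * z.re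

/-- the identity for `s = 1`, the conjugation for `s = -1` -/
def cs (s : ℝ) (z : ℂ) : ℂ := ⟨z.re, s * z.im⟩

/-- the corner above the turning point -/
def U0 (Z : ℂ) (t : ℝ) : ℂ := Z + (-2 + 4 * I) * t

/-- the end point beyond the turning point -/
def E0 (Z : ℂ) (t : ℝ) : ℂ := Z + (1 / 2 + 3 / 2 * I) * t

/-- the position of the slope `a` relative to the contours of scale `t` around `Z` -/
structure GeoA (K T : ℝ) (a Z : ℂ) (t : ℝ) : Prop where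
  K0 : 1000 ≤ K
  KT : 1000 * K ≤ T
  t0 : 0 < t
  Zt : 23 * t ≤ Z.re
  Zi : |Z.im| ≤ Z.re / 100
  ZT : 1000 * T ≤ Z.re
  aT : ‖a‖ * (T + 2) ≤ 1 / 100
  g1 : ∀ y ∈ closedBall (U0 Z t) (t / 100), Tn (-3) (1 / 4) (rh a y)
  g2 : ∀ y ∈ closedBall (U0 Z t) (t / 100) ∪ closedBall (E0 Z t) (t / 100),
    Tn (-3) 2 ((1 + I) * rh a y)
  g3 : ∀ y ∈ closedBall (U0 Z t) (t / 100) ∪ closedBall (E0 Z t) (t / 100),
    200 * K ≤ Z.re * ‖rh a y‖ ∧ ‖rh a y‖ ≤ 5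

/-- the inner regime: the turning point `2 - 2 / a` is close to `Z` at the scale `t` -/
structure GeoI (K T n : ℝ) (a Z : ℂ) (t : ℝ) : Prop where
  K0 : 1000 ≤ K
  KT : 1000 * K ≤ T
  n0 : 0 < n
  Kt : 200 * K ≤ t
  Zt : 23 * t ≤ Z.re
  Zi : |Z.im| ≤ Z.re / 100
  nT : n * (T + 2) ≤ 1 / 1000
  an : ‖a + n‖ ≤ n / 100
  aZ : ‖2 - 2 / a - Z‖ ≤ t / 50

/-! ### the inner problem -/

/-- the inner Lagrangian -/
def lI (Y h : ℂ) : ℂ := Complex.sqrt (2 * h ^ 2 - Y)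

/-- the inner Hamiltonian -/
def HI (Y h : ℂ) : ℂ := -Y / lI Y h

/-- the residual of the inner equation `4 Y'' = Y' - 1 + 2 Y'² (2 - Y') / Y` -/
def resI (Y h q : ℂ) : ℂ := 4 * q - (h - 1 + 2 * h ^ 2 * (2 - h) / Y)

/-- an approximate solution of the inner equation along a path `w` with speed `g` -/
structure Leg (t₀ t₁ len ε : ℝ) (g w Y h q : ℝ → ℂ) : Prop where
  le : t₀ ≤ t₁
  cg : Continuous g
  cq : ContinuousOn q (Icc t₀ t₁)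
  dw : ∀ t, HasDerivAt w (g t) t
  dY : ∀ t, HasDerivAt Y (g t * h t) t
  dh : ∀ t, HasDerivAt h (g t * q t) t
  dir : ∀ t ∈ Icc t₀ t₁, ‖g t‖ / 100 ≤ (g t).re
  len : ∫ t in t₀..t₁, ‖g t‖ ≤ len
  h1 : ∀ t ∈ Icc t₀ t₁, ‖h t - 1‖ ≤ 1 / 10000
  far : ∀ t ∈ Icc t₀ t₁, 128000 ≤ ‖Y t‖ ∧ (Y t).re ≤ 3 / 4 * ‖Y t‖
  res : ∀ t ∈ Icc t₀ t₁, ‖resI (Y t) (h t) (q t)‖ ≤ ε

/-- `Y = R / (-n)` in terms of the zero modes -/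
def YI (n : ℝ) (a ζ y : ℂ) : ℂ := -(rh a ζ * (1 + y) ^ 2) / n

/-- `h = R' / (-n)` -/
def hI (n : ℝ) (a ζ y o : ℂ) : ℂ := -(a * (1 + y) ^ 2 + 2 * (1 + y) * o / ζ) / n

/-- `q = R'' / (-n)` -/
def qI (n : ℝ) (a ζ y o q : ℂ) : ℂ :=
  -(4 * a * (1 + y) * o / Om a ζ + 2 * o ^ 2 / (ζ * Om a ζ) + 2 * (1 + y) * q / ζ) / n

/-- a point of the inner region -/
structure InP (W ε₁ n : ℝ) (a ζ : ℂ) : Prop where
  n0 : 0 < n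
  n1 : n ≤ ε₁
  an : ‖a + n‖ ≤ ε₁ * n
  zn : ‖ζ * n - 2‖ ≤ ε₁
  lo : 1000 ≤ ‖Om a ζ‖
  hi : ‖Om a ζ‖ ≤ W
  arg : -(Om a ζ).re ≤ ‖Om a ζ‖ / 2

/-! ### values -/

variable {ι : Type} [Fintype ι] [DecidableEq ι]

/-- one end of a good configuration -/
structure EndOK (P : Par ι) (M K' ρ : ℝ) (ah : ℂ) (rd : ℝ) (γ : Path) (x : ℂ) : Prop where
  al : ‖x‖ ≤ M * ρ
  up : ∀ t, ‖γ.ze t‖ ≤ M / ρ
  lo : 1 / (M * ρ) ≤ (γ.ze 1).re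
  adm : ∀ a ∈ closedBall ah rd, AdmP P.c P.K P.T a γ
  pre : ∃ t₁ ∈ Icc (0 : ℝ) 1, (∀ t ∈ Icc 0 t₁, (γ.ze t).im = 0) ∧ 1 / (M * ρ) ≤ (γ.ze t₁).re
  rd0 : 0 < rd
  rad : 2 * (K' * ρ ^ 2) ≤ rd
  sm : ‖ah‖ + rd ≤ M * ρ
  ref : ‖ah + ah ^ 2 * sE ah (γ.ze 1) - x‖ ≤ rd / 8

/-- a good configuration without fast data -/
structure AllOK (P : Par ι) (M K' ρ : ℝ) (ah : ι → ℂ) (rd : ι → ℝ) (Rc : ℝ) (γ : ι → Path)
    (ξ : ι → ℂ) : Prop where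
  pos : 0 < ρ
  xi : ‖ξ‖ < P.r
  rc : 1 / (M * ρ) ≤ Rc ∧ Rc ≤ M / ρ
  ends : ∀ i ∈ P.I, EndOK P M K' ρ (ah i) (rd i) (γ i) (ξ i)

/-- the value of the truncated functional -/
def val (P : Par ι) (Sol : Cfg ι → (ι → ℂ) → Out ι → Prop) (ah : ι → ℂ) (rd : ι → ℝ) (Rc : ℝ)
    (γ : ι → Path) (ξ : ι → ℂ) : ℂ :=
  Classical.epsilon fun v => ∃ o, Sol ⟨Rc, γ, 0⟩ ξ o ∧ Half P ah rd o ∧ o.v = v

end Vale.Agent.P218N.J
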