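import Vale.Agent.P218N.J.Geo1

/-! Admissibility of the segments of the contours in the inner regime. -/

open Filter Topology Metric Set Complex
open scoped ComplexConjugate

noncomputable section

namespace Vale.Agent.P218N.J

open Vale.Agent.P218N.End

variable {K T t n s : ℝ} {a Z : ℂ}

namespace GeoI

theorem neg_a (h : GeoI K T n a Z t) : Tn (-1 / 99) (1 / 99) (-a) ∧ 99 / 100 * n ≤ ‖a‖ ∧
    ‖a‖ ≤ 101 / 100 * n := by
  have h0 := h.n0
  have h1 : ‖-a - n‖ ≤ n / 100 := by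
    rw [← neg_add', norm_neg]
    exact h.an
  obtain ⟨k1, k2, k3, k4⟩ := near_re h1
  rw [ofReal_re] at k1 k2
  rw [ofReal_im] at k3 k4
  have k5 := re_le_norm (-a)
  have k6 := norm_add_le (-a - n) n
  rw [sub_add_cancel, norm_real, Real.norm_eq_abs, abs_of_pos h0] at k6
  rw [norm_neg] at k5 k6
  refine ⟨⟨?_, ?_, ?_⟩, ?_, ?_⟩ <;> linarith

theorem a_ne (h : GeoI K T n a Z t) : a ≠ 0 := by
  have h0 := h.n0
  have h1 := h.neg_a.2.1
  intro e
  rw [e, norm_zero] at h1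
  linarith

theorem rh_eq (h : GeoI K T n a Z t) (y : ℂ) : rh a y = -a * (2 - 2 / a - y) := by
  have := h.a_ne
  rw [rh]
  field_simp
  ring

theorem norm_rh (h : GeoI K T n a Z t) (y : ℂ) : ‖rh a y‖ = ‖a‖ * ‖2 - 2 / a - y‖ := by
  rw [h.rh_eq, norm_mul, norm_neg]

theorem t0 (h : GeoI K T n a Z t) : 0 < t := by linarith [h.K0, h.Kt]

theorem nZ' (h : GeoI K T n a Z t) : ‖Z * n - 2‖ ≤ 1 / 40 := by
  have h0 := h.n0
  have ha := h.a_ne
  obtain ⟨-, a1, -⟩ := h.neg_a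
  have hn1 : n ≤ 1 / 1000000 := by nlinarith [h.nT, h.K0, h.KT]
  have e : Z * n - 2 = 2 * n - 2 * ((a + n) / a) - (2 - 2 / a - Z) * n := by
    field_simp
    ring
  have k1 : ‖(a + n) / a‖ ≤ 1 / 99 := by
    rw [norm_div, div_le_iff₀ (by linarith)]
    linarith [h.an]
  have k2 : ‖(2 - 2 / a - Z) * n‖ ≤ t / 50 * n := by
    rw [norm_mul, norm_real, Real.norm_eq_abs, abs_of_pos h0]
    exact mul_le_mul_of_nonneg_right h.aZ h0.le
  have k3 : ‖(2 : ℂ) * n‖ = 2 * n := by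
    rw [norm_mul, Complex.norm_ofNat, norm_real, Real.norm_eq_abs, abs_of_pos h0]
  have k4 : ‖2 * ((a + n) / a)‖ = 2 * ‖(a + n) / a‖ := by rw [norm_mul, Complex.norm_ofNat]
  have k5 : ‖Z * n - 2‖ ≤ 2 * n + 2 / 99 + t / 50 * n := by
    rw [e]
    refine (norm_sub_le _ _).trans ((add_le_add (norm_sub_le _ _) le_rfl).trans ?_)
    linarith
  have k6 := re_le_norm (Z * n - 2)
  rw [sub_re, re_mul_ofReal, re_ofNat] at k6
  have k7 := mul_le_mul_of_nonneg_right h.Zt h0.le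
  linarith

/-- `n Z` is close to two -/
theorem nZ (h : GeoI K T n a Z t) : ‖Z * n - 2‖ ≤ 1 / 20 := h.nZ'.trans (by norm_num)

theorem nZre (h : GeoI K T n a Z t) : 39 / 20 ≤ Z.re * n ∧ Z.re * n ≤ 41 / 20 := by
  obtain ⟨k1, k2, -, -⟩ := near_re h.nZ
  rw [re_mul_ofReal, re_ofNat] at k1 k2
  constructor <;> linarith

theorem ZT (h : GeoI K T n a Z t) : 1950 * T ≤ Z.re := by
  have h0 := h.n0
  refine le_of_mul_le_mul_right ?_ h0
  nlinarith [h.nZre.1, h.nT]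

theorem aT (h : GeoI K T n a Z t) : ‖a‖ * (T + 2) ≤ 1 / 100 := by
  have h1 := mul_le_mul_of_nonneg_right h.neg_a.2.2 (show 0 ≤ T + 2 by linarith [h.K0, h.KT])
  linarith [h.nT]

theorem near (h : GeoI K T n a Z t) (y : ℂ) :
    Z.re - y.re - t / 50 ≤ (2 - 2 / a - y).re ∧ (2 - 2 / a - y).re ≤ Z.re - y.re + t / 50 ∧
      Z.im - y.im - t / 50 ≤ (2 - 2 / a - y).im ∧ (2 - 2 / a - y).im ≤ Z.im - y.im + t / 50 := by
  obtain ⟨k1, k2, k3, k4⟩ := near_re h.aZ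
  rw [sub_re _ y, sub_im _ y]
  refine ⟨?_, ?_, ?_, ?_⟩ <;> linarith

/-- lower bound for the size -/
theorem lower (h : GeoI K T n a Z t) {y : ℂ} {c x : ℝ} (hc : 0 ≤ c) (hx : c * Z.re ≤ x)
    (hy : t ≤ ‖2 - 2 / a - y‖) : 19 / 10 * c * t ≤ x * ‖rh a y‖ := by
  have h0 := h.n0
  have h1 := h.t0
  have h2 : 99 / 100 * n * t ≤ ‖rh a y‖ := by
    rw [h.norm_rh]
    exact mul_le_mul h.neg_a.2.1 hy h1.le (norm_nonneg _)
  have h3 := h.nZre.1
  have h4 : 0 ≤ c * Z.re := mul_nonneg hc (by linarith [h.Zt])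
  calc 19 / 10 * c * t ≤ 99 / 100 * (Z.re * n) * (c * t) := by
        nlinarith [mul_nonneg hc h1.le]
    _ = c * Z.re * (99 / 100 * n * t) := by ring
    _ ≤ x * ‖rh a y‖ := mul_le_mul hx h2 (by positivity) (h4.trans hx)

/-- upper bound for the size -/
theorem upper (h : GeoI K T n a Z t) {y : ℂ} {c : ℝ} (hc : 0 ≤ c)
    (hy : ‖2 - 2 / a - y‖ ≤ c * Z.re) : ‖rh a y‖ ≤ 21 / 10 * c := by
  have h0 := h.n0
  have h3 := h.nZre.2
  rw [h.norm_rh]
  refine (mul_le_mul h.neg_a.2.2 hy (norm_nonneg _) (by positivity)).trans ?_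
  nlinarith

theorem geoA (h : GeoI K T n a Z t) : GeoA K T a Z t := by
  have h1 := h.t0
  have h2 := h.Zt
  have h3 := h.Kt
  have hU : ∀ y ∈ closedBall (U0 Z t) (t / 100), Tn (-3) (1 / 4) (rh a y) := by
    intro y hy
    obtain ⟨u1, u2, u3, u4⟩ := near_U0 hy
    obtain ⟨k1, k2, k3, k4⟩ := h.near y
    have k5 : Tn (-21 / 10) 0 (2 - 2 / a - y) := by refine ⟨?_, ?_, ?_⟩ <;> linarith
    rw [h.rh_eq]
    exact h.neg_a.1.mul k5 (by norm_num [Cor])
  refine ⟨h.K0, h.KT, h1, h2, h.Zi, by linarith [h.ZT, h.K0, h.KT], h.aT, hU, ?_, ?_⟩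
  · rintro y (hy | hy)
    · exact tn_one_add_I.mul (hU y hy) (by norm_num [Cor])
    · obtain ⟨u1, u2, u3, u4⟩ := near_E0 hy
      obtain ⟨k1, k2, k3, k4⟩ := h.near y
      have k5 : Tn (-5 / 2) 0 ((1 + I) * (2 - 2 / a - y)) := by
        generalize 2 - 2 / a - y = v at *
        have r3 : ((1 + I) * v).re = v.re - v.im := by simp
        have r4 : ((1 + I) * v).im = v.re + v.im := by simp [add_comm]
        rw [Tn, r3, r4]
        refine ⟨?_, ?_, ?_⟩ <;> linarith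
      rw [h.rh_eq, mul_left_comm]
      exact h.neg_a.1.mul k5 (by norm_num [Cor])
  · intro y hy
    obtain ⟨k1, k2, k3, k4⟩ := h.near y
    have key : t ≤ ‖2 - 2 / a - y‖ ∧ ‖2 - 2 / a - y‖ ≤ 1 * Z.re := by
      have k5 := (abs_le.1 (abs_im_le_norm (2 - 2 / a - y))).1
      rcases hy with hy | hy
      · obtain ⟨u1, u2, u3, u4⟩ := near_U0 hy
        have := norm_le_of (z := 2 - 2 / a - y) (x := 3 * t) (y := 5 * t) (by linarith)
          (by linarith) (by linarith) (by linarith)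
        constructor <;> linarith
      · obtain ⟨u1, u2, u3, u4⟩ := near_E0 hy
        have := norm_le_of (z := 2 - 2 / a - y) (x := 3 * t) (y := 5 * t) (by linarith)
          (by linarith) (by linarith) (by linarith)
        constructor <;> linarith
    have k6 := h.lower (c := 1) (x := Z.re) (by norm_num) (by linarith) key.1
    have k7 := h.upper (c := 1) (by norm_num) key.2
    constructor <;> linarith

/-- the first vertex may be moved inside a diamond -/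
theorem diamond (h : GeoI K T n a Z t) {m : ℂ} (h1 : Tn (-1 / 20) (1 / 4) (m - T))
    (h2 : Tn (-1 / 20) (1 / 4) (U0 Z t - m)) (h3 : Z.re / 2 ≤ m.re) :
    SegOK (1 / 100) K a T m ∧ SegOK (1 / 100) K a m (U0 Z t) := by
  have t0 := h.t0
  have k0 := h.K0
  have kT := h.KT
  have kt := h.Kt
  have zt := h.Zt
  have zT := h.ZT
  obtain ⟨u1, u2, u3, u4⟩ := h.near (U0 Z t)
  rw [U0_re] at u1 u2
  rw [U0_im] at u3 u4
  have hU : Tn (-41 / 20) (1 / 4) (2 - 2 / a - U0 Z t) := by refine ⟨?_, ?_, ?_⟩ <;> linarith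
  have hm : Tn (-41 / 20) (1 / 4) (2 - 2 / a - m) := by
    have := hU.add (h2.mono (by norm_num) le_rfl)
    rwa [sub_add_sub_cancel] at this
  have hm1 : t ≤ ‖2 - 2 / a - m‖ := by
    have e : (2 - 2 / a - m).re = (2 - 2 / a - U0 Z t).re + (U0 Z t - m).re := by
      rw [← add_re, sub_add_sub_cancel]
    linarith [re_le_norm (2 - 2 / a - m), h2.1]
  have hm2 : ‖2 - 2 / a - m‖ ≤ 8 / 5 * Z.re := by
    have := (hm.mono (l' := -(41 / 20)) (h' := 41 / 20) (by norm_num) (by norm_num)).norm_le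
    linarith [(h.near m).2.1]
  have hU1 : t ≤ ‖2 - 2 / a - U0 Z t‖ := by linarith [re_le_norm (2 - 2 / a - U0 Z t)]
  have y1 : ∀ y ∈ ({m, U0 Z t} : Set ℂ), Tn (-11 / 5) (7 / 25) (rh a y) ∧
      t ≤ ‖2 - 2 / a - y‖ := by
    rintro y (rfl | rfl)
    · exact ⟨by rw [h.rh_eq]; exact h.neg_a.1.mul hm (by norm_num [Cor]), hm1⟩
    · exact ⟨by rw [h.rh_eq]; exact h.neg_a.1.mul hU (by norm_num [Cor]), hU1⟩
  have x1 : ∀ x ∈ ({m, U0 Z t} : Set ℂ), Tn (-1 / 20) (1 / 4) x ∧ 1 / 2 * Z.re ≤ ‖x‖ := by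
    rintro x (rfl | rfl)
    · exact ⟨by simpa using h1.add (Tn.real (x := T) (by linarith) (by norm_num) (by norm_num)),
        by linarith [re_le_norm x]⟩
    · obtain ⟨k1, -, k2, -⟩ := h.geoA.tn (x := U0 Z t)
        (Or.inl (mem_closedBall_self (by linarith)))
      exact ⟨k1.mono (by norm_num) le_rfl, by linarith [re_le_norm (U0 Z t)]⟩
  constructor
  · have k1 := h.upper (by norm_num) hm2
    have k2 := h.lower (c := 1 / 2) (x := m.re) (by norm_num) (by linarith) hm1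
    have k3 := mul_le_mul_of_nonneg_left k1 (show 0 ≤ T by linarith)
    have := (rad_seg k0 kT (h1.mono (by norm_num) (by norm_num)) (by linarith) h.aT
      ((y1 m (by simp)).1.mono (by norm_num) (by norm_num)) (by linarith) (by linarith)
      (σ := 1 / 10) (σ' := 1) le_rfl (by norm_num) le_rfl).1
    simpa using this
  · refine segOK_cone (L := 9) (h2.mono (by norm_num) (by norm_num)) (by norm_num) (by norm_num)
      (fun x hx y hy => ⟨?_, ?_⟩) (by linarith)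
    · exact (h2.conj.mul (L := -31 / 100) (H := 31 / 100) (x1 x hx).1 (by norm_num [Cor])).mul
        (y1 y hy).1 (by norm_num [Cor])
    · linarith [h.lower (by norm_num) (x1 x hx).2 (y1 y hy).2]

/-- the ray to the point `Z - 22 t` -/
theorem pre (h : GeoI K T n a Z t) (ht : 100 * t ≤ Z.re) {σ σ' : ℝ} (hσ : 1 / 10 ≤ σ)
    (hσ' : σ < σ') (hσ1 : σ' ≤ 1) : SegOK (1 / 100) K a T (T + σ' * (Z - 22 * t - T)) ∧
      SegOK (1 / 100) K a (T + σ * (Z - 22 * t - T)) (T + σ' * (Z - 22 * t - T)) := by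
  have t0 := h.t0
  have k0 := h.K0
  have kT := h.KT
  have kt := h.Kt
  have zT := h.ZT
  obtain ⟨z1, z2⟩ := abs_le.1 h.Zi
  have e1 : (Z - 22 * t).re = Z.re - 22 * t := by simp
  have e2 : (Z - 22 * t).im = Z.im := by simp
  obtain ⟨u1, u2, u3, u4⟩ := h.near (Z - 22 * t)
  rw [e1] at u1 u2
  rw [e2] at u3 u4
  have hv : Tn (-1) 1 (2 - 2 / a - (Z - 22 * t)) := by refine ⟨?_, ?_, ?_⟩ <;> linarith
  have k1 : ‖2 - 2 / a - (Z - 22 * t)‖ ≤ 1 * Z.re := by linarith [hv.norm_le]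
  have k2 := h.upper (by norm_num) k1
  have k3 := h.lower (c := 1 / 2) (x := (Z - 22 * t).re) (y := Z - 22 * t) (by norm_num)
    (by linarith) (by linarith [re_le_norm (2 - 2 / a - (Z - 22 * t))])
  have k4 := mul_le_mul_of_nonneg_left k2 (show 0 ≤ T by linarith)
  refine rad_seg k0 kT ?_ (by linarith) h.aT ?_ (by linarith) (by linarith) hσ hσ' hσ1
  · simp only [Tn, sub_re _ (T : ℂ), sub_im _ (T : ℂ), ofReal_re, ofReal_im, e1, e2]
    refine ⟨?_, ?_, ?_⟩ <;> linarith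
  · rw [h.rh_eq]
    exact h.neg_a.1.mul hv (by norm_num [Cor])

/-- on the two legs -/
theorem leg (h : GeoI K T n a Z t) (ht : 100 * t ≤ Z.re) {ζ : ℂ}
    (hζ : ζ ∈ segment ℝ (Z - 22 * t) (U0 Z t) ∪ segment ℝ (U0 Z t) (E0 Z t)) :
    t ≤ ‖Om a ζ‖ ∧ ‖Om a ζ‖ ≤ 100 * t ∧ -(Om a ζ).re ≤ ‖Om a ζ‖ / 2 ∧ ‖ζ - Z‖ ≤ 22 * t ∧
      t ≤ (ζ - Z).im - (ζ - Z).re ∧ ‖rh a ζ‖ ≤ 30 * n * t := by
  have t0 := h.t0
  have n0 := h.n0
  obtain ⟨z1, z2⟩ := abs_le.1 h.Zi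
  obtain ⟨u1, u2, u3, u4⟩ := h.near ζ
  have hc : (∃ x, 0 ≤ x ∧ x ≤ t ∧ ζ.re = Z.re - 22 * t + 20 * x ∧ ζ.im = Z.im + 4 * x) ∨
      ∃ x, 0 ≤ x ∧ x ≤ t ∧ ζ.re = Z.re - 2 * t + 5 / 2 * x ∧ ζ.im = Z.im + 4 * t - 5 / 2 * x := by
    rcases hζ with ⟨α, β, hα, hβ, hab, rfl⟩ | ⟨α, β, hα, hβ, hab, rfl⟩
    · obtain rfl : α = 1 - β := by linarith
      refine Or.inl ⟨β * t, by positivity, by nlinarith, ?_, ?_⟩
      · simp [U0_re]
        ring
      · simp [U0_im]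
        ring
    · obtain rfl : α = 1 - β := by linarith
      refine Or.inr ⟨β * t, by positivity, by nlinarith, ?_, ?_⟩
      · simp [U0_re, E0_re]
        ring
      · simp [U0_im, E0_im]
        ring
  have key : Tn (-1 / 50) (1 / 10) ζ ∧ 39 / 50 * Z.re ≤ ζ.re ∧ ‖ζ - Z‖ ≤ 22 * t ∧
      t ≤ (ζ - Z).im - (ζ - Z).re ∧ t ≤ ‖2 - 2 / a - ζ‖ := by
    have k1 := re_le_norm (2 - 2 / a - ζ)
    have k2 := (abs_le.1 (abs_im_le_norm (2 - 2 / a - ζ))).1
    rcases hc with ⟨x, x0, x1, e1, e2⟩ | ⟨x, x0, x1, e1, e2⟩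
    · have k3 := norm_le_of (z := ζ - Z) (x := 22 * t - 20 * x) (y := 4 * x)
        (by rw [sub_re]; linarith) (by rw [sub_re]; linarith) (by rw [sub_im]; linarith)
        (by rw [sub_im]; linarith)
      rw [sub_re ζ, sub_im ζ]
      refine ⟨⟨?_, ?_, ?_⟩, ?_, ?_, ?_, ?_⟩ <;> linarith
    · have k3 := norm_le_of (z := ζ - Z) (x := 2 * t) (y := 4 * t)
        (by rw [sub_re]; linarith) (by rw [sub_re]; linarith) (by rw [sub_im]; linarith)
        (by rw [sub_im]; linarith)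
      rw [sub_re ζ, sub_im ζ]
      refine ⟨⟨?_, ?_, ?_⟩, ?_, ?_, ?_, ?_⟩ <;> linarith
  obtain ⟨k1, k2, k3, k4, k5⟩ := key
  have hP : Tn (-1 / 25) (3 / 25) (ζ * -a) := k1.mul h.neg_a.1 (by norm_num [Cor])
  have hO : Om a ζ = ζ * -a * (2 - 2 / a - ζ) := by rw [Om, h.rh_eq, mul_assoc]
  have k6 : ‖2 - 2 / a - ζ‖ ≤ 23 * t := by
    have := norm_sub_le (2 - 2 / a - Z) (ζ - Z)
    rw [sub_sub_sub_cancel_right] at this
    linarith [h.aZ]
  have k7 : ‖rh a ζ‖ ≤ 101 / 100 * n * (23 * t) := by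
    rw [h.norm_rh]
    exact mul_le_mul h.neg_a.2.2 k6 (norm_nonneg _) (by positivity)
  have k8 : ‖ζ‖ ≤ 2 * Z.re := by
    have k := norm_add_le (ζ - Z) Z
    rw [sub_add_cancel] at k
    have := norm_le_of (z := Z) (x := Z.re) (y := Z.re / 100) (by linarith) le_rfl (by linarith)
      (by linarith)
    linarith
  have nt := mul_pos n0 t0
  refine ⟨?_, ?_, ?_, k3, k4, by linarith⟩
  · have := h.lower (c := 39 / 50) (x := ‖ζ‖) (by norm_num) (k2.trans (re_le_norm ζ)) k5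
    rw [Om, norm_mul]
    linarith
  · rw [Om, norm_mul]
    refine (mul_le_mul k8 k7 (norm_nonneg _) (by linarith)).trans ?_
    nlinarith [mul_le_mul_of_nonneg_right h.nZre.2 t0.le]
  · rcases hc with ⟨x, x0, x1, e1, e2⟩ | ⟨x, x0, x1, e1, e2⟩
    · have v1 : Tn (-21 / 10) (1 / 10) (2 - 2 / a - ζ) := by refine ⟨?_, ?_, ?_⟩ <;> linarith
      have := (hP.mul (L := -3) (H := 3) v1 (by norm_num [Cor])).1
      rw [← hO] at this
      linarith [norm_nonneg (Om a ζ)]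
    · have v1 : Tn (-9 / 25) 1 (I * (2 - 2 / a - ζ)) := by
        rw [Tn, I_mul_re, I_mul_im]
        refine ⟨?_, ?_, ?_⟩ <;> linarith
      have v2 := hP.mul (L := -1 / 2) (H := 2) v1 (by norm_num [Cor])
      rw [mul_left_comm, ← hO] at v2
      have v3 := re_le_norm (I * Om a ζ)
      have v4 := v2.2.1
      rw [norm_mul, norm_I, one_mul] at v3
      rw [I_mul_im] at v4
      linarith

end GeoI

end Vale.Agent.P218N.J
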