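import Vale.Agent.P218N.J.Trunc
import Vale.Agent.P218N.J.Geo

/-! The family of real truncations. -/

open Filter Topology Metric Set Complex
open scoped ComplexConjugate

noncomputable section

namespace Vale.Agent.P218N.J

open Vale.Agent.P218N.End

namespace GFP

/-- real segments and small slopes -/
theorem seg_small {K p q : ℝ} {a : ℂ} (hK : 1000 ≤ K) (hp : 1000 * K ≤ p) (hpq : p < q)
    (ha : ‖a‖ * (q + 2) ≤ 1 / 10) : SegOK (1 / 100) K a p q := by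
  have e : (q : ℂ) - p = ((q - p : ℝ) : ℂ) := by push_cast; rfl
  have h0 : 0 < q - p := sub_pos.2 hpq
  have h1 : ∀ x ∈ ({(p : ℂ), (q : ℂ)} : Set ℂ), ∃ u : ℝ, x = u ∧ p ≤ u ∧ u ≤ q := by
    rintro x (rfl | rfl)
    exacts [⟨p, rfl, le_rfl, hpq.le⟩, ⟨q, rfl, hpq.le, le_rfl⟩]
  refine segOK_cone (L := 1) (by rw [e]; exact Tn.real h0 (by norm_num) (by norm_num))
    zero_le_one (by norm_num) (fun x hx y hy => ?_) (by linarith)
  obtain ⟨u, rfl, u1, u2⟩ := h1 x hx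
  obtain ⟨v, rfl, v1, v2⟩ := h1 y hy
  have h2 : ‖(u : ℂ)‖ = u := by rw [norm_real, Real.norm_of_nonneg (by linarith)]
  have h3 : ‖(v : ℂ)‖ = v := by rw [norm_real, Real.norm_of_nonneg (by linarith)]
  obtain ⟨k1, k2, -⟩ := tn_small (a := a) (y := v) (by
    rw [h3]
    exact (mul_le_mul_of_nonneg_left (by linarith) (norm_nonneg a)).trans ha)
  refine ⟨?_, by rw [h2]; nlinarith⟩
  rw [e, conj_ofReal, ← ofReal_mul]
  exact (k1.mono (by norm_num) (by norm_num)).smul (mul_pos h0 (by linarith))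

theorem rng_sub {T p q : ℝ} (h1 : T < p) (h2 : p ≤ q) : rng (sg T p) ⊆ rng (sg T q) := by
  rw [rng_sg, rng_sg]
  have h3 : 0 < q - T := by linarith
  refine (convex_segment _ _).segment_subset (left_mem_segment _ _ _)
    (mem_seg_iff.2 ⟨(p - T) / (q - T), ⟨div_nonneg (by linarith) h3.le,
      (div_le_one h3).2 (by linarith)⟩, ?_⟩)
  have : (q - T : ℂ) ≠ 0 := by exact_mod_cast h3.ne'
  push_cast
  field_simp
  ring

variable {ι : Type} [Fintype ι] [DecidableEq ι] {c : Cx ι} {R R' E Rc : ℝ} {x : ℂ} {ξ : ι → ℂ}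

/-- the state with the disc of radius `1 / (50 R')` and the real segment up to `E` -/
def rst (T R' E : ℝ) : ES := ⟨0, 1 / (50 * R'), sg T E⟩

/-- the scale `1 / R` -/
structure Sc (c : Cx ι) (R : ℝ) : Prop where
  ok : c.Ok
  M : c.M = 2
  X : c.X = 1000
  ρ : c.ρ = 1 / R
  T : c.P.T < R
  L : 100 * c.L₀ ≤ R

theorem Sc.big (h : Sc c R) : 1000000 ≤ R := h.ok.T_ge.trans h.T.le

theorem Sc.rc (h : Sc c R) (hE : E ∈ Icc R (R + 1)) :
    1 / (c.M * c.ρ) ≤ E ∧ E ≤ c.M / c.ρ := by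
  have h0 := h.big
  rw [h.M, h.ρ, show 1 / (2 * (1 / R)) = R / 2 by field_simp, show 2 / (1 / R) = 2 * R by field_simp]
  constructor <;> linarith [hE.1, hE.2]

theorem Sc.endG (h : Sc c R) (h1 : R' ∈ Icc R (R + 1)) (hE : E ∈ Icc R (R + 1))
    (hx : ‖x‖ < 1 / 1000 / R') : EndG c x (rst c.P.T R' E) := by
  have h0 := h.big
  have h2 : 0 < R' := by linarith [h1.1]
  have h3 : 1 / R' ≤ 1 / R := one_div_le_one_div_of_le (by linarith) h1.1
  have h4 : 0 < 1 / R' := by positivity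
  have e1 : 1 / (50 * R') = 1 / 50 * (1 / R') := by field_simp
  have e2 : 1 / 1000 / R' = 1 / 1000 * (1 / R') := by field_simp
  have sm : ∀ a ∈ closedBall (0 : ℂ) (1 / (50 * R')), ‖a‖ * (E + 2) ≤ 1 / 10 := fun a ha => by
    have h5 := mem_closedBall_zero_iff.1 ha
    rw [le_div_iff₀ (by positivity)] at h5
    have h6 : ‖a‖ * (E + 2) ≤ ‖a‖ * (5 * R') :=
      mul_le_mul_of_nonneg_left (by linarith [hE.2, h1.1]) (norm_nonneg _)
    linarith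
  refine endG_sg h.ok ⟨?_, ?_, ?_, ?_, fun a ha => ?_⟩ (h.rc hE).1 (h.rc hE).2 fun a ha =>
    seg_small h.ok.spec.K0 h.ok.spec.KT (h.T.trans_le hE.1) (sm a ha)
  · rw [h.M, h.ρ]
    linarith
  · rw [h.ρ, div_pow, one_pow, mul_one_div, div_le_div_iff₀ (by positivity) (by positivity)]
    have h5 := h.L
    have h6 := h.ok.L0
    nlinarith [h1.2]
  · rw [h.M, h.ρ, norm_zero]
    linarith
  · rw [zero_pow two_ne_zero, zero_mul, add_zero, zero_sub, norm_neg]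
    linarith
  · have h5 : ‖(E : ℂ)‖ = E := by rw [norm_real, Real.norm_of_nonneg (by linarith [hE.1])]
    have h6 := (tn_small (a := a) (y := E) (by rw [h5]; exact sm a ha)).2.2
    rw [h.X, h.ρ, Om, norm_mul, h5, show 1000 * (1 / (50 * R') / (1 / R) ^ 2) = 20 * R ^ 2 / R' by
      field_simp; ring, le_div_iff₀ h2]
    have h7 : E * ‖rh a E‖ ≤ 2 * R * 3 :=
      mul_le_mul (by linarith [hE.2]) h6 (norm_nonneg _) (by linarith)
    have h8 := mul_le_mul h7 (show R' ≤ 2 * R by linarith [h1.2]) h2.le (by linarith)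
    nlinarith

theorem Sc.allG (h : Sc c R) (h1 : R' ∈ Icc R (R + 1)) (hE : E ∈ Icc R (R + 1))
    (hc : Rc ∈ Icc R (R + 1)) (hr : ‖ξ‖ < c.P.r) (hx : ∀ i ∈ c.P.I, ‖ξ i‖ < 1 / 1000 / R') :
    AllG c Rc ξ fun _ => rst c.P.T R' E :=
  ⟨hr, h.rc hc, fun i hi => h.endG h1 hE (hx i hi)⟩

/-- the constant of one step -/
def Cs (c : Cx ι) : ℝ :=
  (c.P.I.card + 1) * c.C₁ * (4 * c.P.I.card + 1) + (c.C + 10 * c.C * c.P.I.card)

theorem Sc.step (h : Sc c R) (h1 : R' ∈ Icc R (R + 1)) (hr : ‖ξ‖ < c.P.r)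
    (hx : ∀ i ∈ c.P.I, ‖ξ i‖ < 1 / 1000 / R') :
    ‖vl c.P c.Sol R' (fun _ => rst c.P.T R' R') ξ - vl c.P c.Sol R (fun _ => rst c.P.T R R) ξ‖ ≤
      Cs c * Real.exp (-(1 / 10 * R)) := by
  have H := h.ok
  have h0 := h.big
  have hR : R ∈ Icc R (R + 1) := ⟨le_rfl, by linarith⟩
  have hx' : ∀ i ∈ c.P.I, ‖ξ i‖ < 1 / 1000 / R := fun i hi =>
    (hx i hi).trans_le (div_le_div_of_nonneg_left (by norm_num) (by linarith) h1.1)
  have re1 : ∀ p q : ℝ, ((rst c.P.T p q).γ.ze 1).re = q := fun p q => by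
    rw [rst, sg_one, ofReal_re]
  have k1 := vl_cone H (h.allG h1 h1 h1 hr hx) (h.allG h1 h1 hR hr hx)
  have k2 := tele H H.C₁_nonneg (h.allG h1 h1 hR hr hx) (σ' := fun _ => rst c.P.T R R)
    (W := fun _ => (c.M + 2) * Real.exp (-(R / 4)))
    (fun i hi => (lnk_cut H (h.endG h1 h1 (hx i hi)) (h.endG h1 hR (hx i hi))
      (rng_sub h.T h1.1) (re1 R' R).ge).eqv_right
      (eqv_disc H (h.endG h1 hR (hx i hi)) (h.endG hR hR (hx' i hi)) (by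
        have h2 : 1 / (50 * R') ≤ 1 / (50 * R) :=
          one_div_le_one_div_of_le (by linarith) (by linarith [h1.1])
        have h3 : 0 < 1 / (50 * R) := by positivity
        rw [sub_zero, norm_zero]
        linarith)))
    fun i hi => ⟨(h.endG h1 h1 (hx i hi)).wt H (h1.1.trans (re1 R' R').ge),
      (h.endG hR hR (hx' i hi)).wt H (re1 R R).ge⟩
  simp only [re1, Finset.sum_const, nsmul_eq_mul, min_eq_right h1.1] at k1 k2
  rw [h.M] at k2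
  rw [h.ρ] at k1
  have e1 : Real.exp (-(R / 4)) ≤ Real.exp (-(1 / 10 * R)) := Real.exp_le_exp.2 (by linarith)
  have e2 : Real.exp (-(R / 5)) ≤ Real.exp (-(1 / 10 * R)) := Real.exp_le_exp.2 (by linarith)
  have e3 : R * Real.exp (-(R' / 4)) ≤ 10 * Real.exp (-(1 / 10 * R)) :=
    calc _ ≤ 10 * Real.exp (R / 10) * Real.exp (-(R' / 4)) :=
        mul_le_mul_of_nonneg_right (by linarith [Real.add_one_le_exp (R / 10)]) (Real.exp_pos _).le
      _ = 10 * Real.exp (R / 10 + -(R' / 4)) := by rw [Real.exp_add, mul_assoc]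
      _ ≤ _ := mul_le_mul_of_nonneg_left (Real.exp_le_exp.2 (by linarith [h1.1])) (by norm_num)
  have hC := H.C0
  have hC₁ := H.C₁_nonneg
  refine (norm_sub_le_norm_sub_add_norm_sub _ _ _).trans ((add_le_add k1 k2).trans ?_)
  calc _ = c.C * Real.exp (-(R / 5)) + c.C * c.P.I.card * (R * Real.exp (-(R' / 4))) +
        (c.P.I.card + 1) * c.C₁ * (4 * c.P.I.card * Real.exp (-(R / 4)) + Real.exp (-(R / 5))) := by
        field_simp
        ring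
    _ ≤ c.C * Real.exp (-(1 / 10 * R)) + c.C * c.P.I.card * (10 * Real.exp (-(1 / 10 * R))) +
        (c.P.I.card + 1) * c.C₁ *
          (4 * c.P.I.card * Real.exp (-(1 / 10 * R)) + Real.exp (-(1 / 10 * R))) := by gcongr
    _ = _ := by rw [Cs]; ring

omit [DecidableEq ι] in
theorem isOpen_dom (I : Finset ι) (d r : ℝ) (n : ℕ) : IsOpen (P218F.Dom I d r n) := by
  have : P218F.Dom I d r n = {ξ | ‖ξ‖ < r} ∩ ⋂ i ∈ I, {ξ : ι → ℂ | ‖ξ i‖ < d / n} := by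
    ext ξ
    simp [P218F.Dom]
  rw [this]
  exact (isOpen_lt continuous_norm continuous_const).inter
    (isOpen_biInter_finset fun i _ => isOpen_lt (by fun_prop) continuous_const)

theorem Sc.half (h : Sc c R) {o : Out ι} (ho : ∀ i ∈ c.P.I, ‖o.a i‖ ≤ 1 / (100 * R)) :
    Half c.P (ahs fun _ => rst c.P.T R R) (rds fun _ => rst c.P.T R R) o := fun i hi => by
  have h0 := h.big
  change ‖o.a i - 0‖ ≤ 1 / (50 * R) / 2
  rw [sub_zero]
  exact (ho i hi).trans (le_of_eq (by field_simp; ring))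

theorem Sc.ex {n : ℕ} (h : Sc c n) : ∃ o : (ι → ℂ) → Out ι,
    HolOut c.P (P218F.Dom c.P.I (1 / 1000) c.P.r n) o ∧
      ∀ ξ ∈ P218F.Dom c.P.I (1 / 1000) c.P.r n, c.Sol (realCfg ι c.P.T n) ξ (o ξ) ∧
        ∀ i ∈ c.P.I, ‖(o ξ).a i‖ ≤ 1 / (100 * n) := by
  have h0 := h.big
  have hR : (n : ℝ) ∈ Icc (n : ℝ) (n + 1) := ⟨le_rfl, by linarith⟩
  obtain ⟨o, h1, h2⟩ := exists_hol h.ok (isOpen_dom c.P.I (1 / 1000) c.P.r n)
    fun ξ hξ => h.allG hR hR hR hξ.1 hξ.2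
  refine ⟨o, h1, fun ξ hξ => ⟨(h2 ξ hξ).1, fun i hi => ?_⟩⟩
  have h3 : ‖(o ξ).a i - 0‖ ≤ 1 / (50 * n) / 4 := (h2 ξ hξ).2 i hi
  rw [sub_zero, div_div] at h3
  exact h3.trans (one_div_le_one_div_of_le (by linarith) (by linarith))

end GFP

open GFP

/-- `exists_cx` with `M = 2`, `X = 1000`; at the scale `ρ = 1 / R` the states
`⟨0, 1 / (50 R), sg T R⟩`, `⟨0, 1 / (50 (R + 1)), sg T R⟩`, `⟨0, 1 / (50 (R + 1)), sg T (R + 1)⟩`
are good. -/
theorem gfStmt : GFStmt := by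
  intro ι _ _ P Sol h
  obtain ⟨c₀, rfl, rfl, hM, hX, h1⟩ := exists_cx h (M := 2) (X := 1000) (by norm_num) (by norm_num)
  obtain ⟨ε, h2⟩ := h1.exists
  have h3 : Tendsto (fun n : ℕ => 1 / (n : ℝ)) atTop (𝓝[>] 0) := by
    simp only [one_div]
    exact tendsto_inv_atTop_nhdsGT_zero.comp tendsto_natCast_atTop_atTop
  have h4 : ∀ᶠ n : ℕ in atTop, Sc ((c₀.tol ε).sc (1 / n)) n := by
    filter_upwards [h3.eventually h2,
      tendsto_natCast_atTop_atTop (R := ℝ).eventually_gt_atTop c₀.P.T,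
      tendsto_natCast_atTop_atTop (R := ℝ).eventually_ge_atTop (100 * c₀.L₀)] with n k1 k2 k3
    exact ⟨k1, hM, hX, rfl, k2, k3⟩
  obtain ⟨R0, h5⟩ := eventually_atTop.1 h4
  have : Nonempty (Out ι) := ⟨⟨0, 0, 0⟩⟩
  choose! o o1 o2 using fun n hn => (h5 n hn).ex
  have hR : ∀ n : ℕ, (n : ℝ) ∈ Icc (n : ℝ) (n + 1) := fun n => ⟨le_rfl, by linarith⟩
  have hG : ∀ n, R0 ≤ n → ∀ ξ ∈ P218F.Dom c₀.P.I (1 / 1000) c₀.P.r n,
      AllG ((c₀.tol ε).sc (1 / n)) n ξ fun _ => rst c₀.P.T n n := fun n hn ξ hξ =>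
    (h5 n hn).allG (hR n) (hR n) (hR n) hξ.1 hξ.2
  have hv : ∀ n, R0 ≤ n → ∀ ξ ∈ P218F.Dom c₀.P.I (1 / 1000) c₀.P.r n,
      vl c₀.P c₀.Sol n (fun _ => rst c₀.P.T n n) ξ = (o n ξ).v := fun n hn ξ hξ =>
    vl_eq (h5 n hn).ok (hG n hn ξ hξ) (o2 n hn ξ hξ).1 ((h5 n hn).half (o2 n hn ξ hξ).2)
  have h6 := (h5 R0 le_rfl).big
  refine ⟨R0, o, ⟨h, by norm_num, (h5 R0 le_rfl).T, fun n hn ξ hξ =>
    ⟨o n ξ, (o2 n hn ξ hξ).1, rfl, (o2 n hn ξ hξ).2⟩⟩, ⟨by norm_num, h.r0, by norm_num,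
      by exact_mod_cast (show (1 : ℝ) ≤ R0 by linarith), fun n hn => (o1 n hn).v,
      ⟨c₀.C, fun ξ hξ => ?_⟩, ⟨Cs c₀, fun n hn ξ hξ => ?_⟩⟩,
    fun n hn => ⟨o1 n hn, fun ξ hξ => ⟨(o2 n hn ξ hξ).1, (o2 n hn ξ hξ).2, fun o' k1 k2 => ?_⟩⟩⟩
  · exact (h5 R0 le_rfl).ok.loc.bdd _ _ _ _ _ ((hG R0 le_rfl ξ hξ).good (h5 R0 le_rfl).ok)
      (o2 R0 le_rfl ξ hξ).1 ((h5 R0 le_rfl).half (o2 R0 le_rfl ξ hξ).2)
  · have k0 := (h5 n hn).big
    have k1 : ((n + 1 : ℕ) : ℝ) ∈ Icc (n : ℝ) (n + 1) := by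
      push_cast
      exact ⟨by linarith, le_rfl⟩
    have k2 : ξ ∈ P218F.Dom c₀.P.I (1 / 1000) c₀.P.r n := ⟨hξ.1, fun i hi =>
      (hξ.2 i hi).trans_le (div_le_div_of_nonneg_left (by norm_num) (by linarith) k1.1)⟩
    rw [← hv n hn ξ k2, ← hv (n + 1) (by omega) ξ hξ]
    exact (h5 n hn).step k1 hξ.1 hξ.2
  · exact (h5 n hn).ok.loc.uq _ _ _ _ _ _ ((hG n hn ξ hξ).good (h5 n hn).ok) k1 (o2 n hn ξ hξ).1
      ((h5 n hn).half k2) ((h5 n hn).half (o2 n hn ξ hξ).2)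

end Vale.Agent.P218N.J
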