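import Vale.Agent.P218N.J.Defs

/-! Admissibility of the segments of the contours: reflections, the calculus of slopes, rays. -/

open Filter Topology Metric Set Complex
open scoped ComplexConjugate

noncomputable section

namespace Vale.Agent.P218N.J

open Vale.Agent.P218N.End

variable {K T t n s : ℝ} {a Z : ℂ}

theorem cs_one (z : ℂ) : cs 1 z = z := by
  apply Complex.ext <;> simp [cs]

theorem cs_neg_one (z : ℂ) : cs (-1) z = conj z := by
  apply Complex.ext <;> simp [cs]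

theorem cs_add (s : ℝ) (z w : ℂ) : cs s (z + w) = cs s z + cs s w := by
  apply Complex.ext <;> simp [cs, mul_add]

theorem cs_sub (s : ℝ) (z w : ℂ) : cs s (z - w) = cs s z - cs s w := by
  apply Complex.ext <;> simp [cs, mul_sub]

theorem cs_ofReal (s x : ℝ) : cs s (x : ℂ) = x := by
  apply Complex.ext <;> simp [cs]

theorem cs_real_mul (s x : ℝ) (z : ℂ) : cs s (x * z) = x * cs s z := by
  apply Complex.ext <;> simp [cs]
  ring

theorem cs_re (s : ℝ) (z : ℂ) : (cs s z).re = z.re := rfl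

theorem cs_mul (hs : s = 1 ∨ s = -1) (z w : ℂ) : cs s (z * w) = cs s z * cs s w := by
  rcases hs with rfl | rfl
  · simp only [cs_one]
  · simp only [cs_neg_one, map_mul]

theorem cs_div (hs : s = 1 ∨ s = -1) (z w : ℂ) : cs s (z / w) = cs s z / cs s w := by
  rcases hs with rfl | rfl
  · simp only [cs_one]
  · simp only [cs_neg_one, map_div₀]

theorem cs_cs (hs : s = 1 ∨ s = -1) (z : ℂ) : cs s (cs s z) = z := by
  rcases hs with rfl | rfl
  · simp only [cs_one]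
  · simp only [cs_neg_one, conj_conj]

theorem norm_cs (hs : s = 1 ∨ s = -1) (z : ℂ) : ‖cs s z‖ = ‖z‖ := by
  rcases hs with rfl | rfl
  · simp only [cs_one]
  · simp only [cs_neg_one, norm_conj]

theorem conj_rh (a z : ℂ) : conj (rh a z) = rh (conj a) (conj z) := by
  simp only [rh, map_add, map_mul, map_sub, map_ofNat]

theorem conj_Om (a z : ℂ) : conj (Om a z) = Om (conj a) (conj z) := by
  simp only [Om, map_mul, conj_rh]

theorem conj_Bq (a p q : ℂ) : conj (Bq a p q) = Bq (conj a) (conj p) (conj q) := by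
  simp only [Bq, map_div₀, map_add, map_mul, conj_rh, map_ofNat]

theorem cs_rh (hs : s = 1 ∨ s = -1) (a z : ℂ) : cs s (rh a z) = rh (cs s a) (cs s z) := by
  rcases hs with rfl | rfl
  · simp only [cs_one]
  · simp only [cs_neg_one, conj_rh]

theorem cs_Om (hs : s = 1 ∨ s = -1) (a z : ℂ) : cs s (Om a z) = Om (cs s a) (cs s z) := by
  rcases hs with rfl | rfl
  · simp only [cs_one]
  · simp only [cs_neg_one, conj_Om]

theorem cs_pol (hs : s = 1 ∨ s = -1) (ρ φ : ℝ) :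
    cs s (P218F.pol ρ (s * φ)) = P218F.pol ρ φ := by
  rcases hs with rfl | rfl
  · rw [cs_one, one_mul]
  · rw [cs_neg_one, P218F.pol, P218F.pol, map_mul, conj_ofReal, ← exp_conj, map_mul, conj_ofReal,
      conj_I]
    congr 2
    push_cast
    ring

theorem continuous_cs (s : ℝ) : Continuous (cs s) := by
  have : cs s = fun z : ℂ => (z.re : ℂ) + (s * z.im : ℝ) * I := by
    funext z
    apply Complex.ext <;> simp [cs]
  rw [this]
  fun_prop

theorem convex_cs (s : ℝ) {W : Set ℂ} (h : Convex ℝ W) : Convex ℝ (cs s ⁻¹' W) := by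
  intro x hx y hy α β hα hβ hab
  have e : cs s (α • x + β • y) = α • cs s x + β • cs s y := by
    rw [cs_add, real_smul, real_smul, cs_real_mul, cs_real_mul, real_smul, real_smul]
  rw [mem_preimage, e]
  exact h hx hy hα hβ hab

theorem SegOK.of_cs (hs : s = 1 ∨ s = -1) {c : ℝ} {p q : ℂ}
    (h : SegOK c K (cs s a) (cs s p) (cs s q)) : SegOK c K a p q := by
  rcases hs with rfl | rfl
  · simpa only [cs_one] using h
  simp only [cs_neg_one] at h
  obtain ⟨h1, h2, h3⟩ := h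
  rw [← map_sub, norm_conj] at h2 h3
  have key : ∀ X : ℂ, (conj (conj (q - p)) * conj X).re = (conj (q - p) * X).re := fun X => by
    rw [← map_mul, conj_re]
  refine ⟨fun e => h1 (by rw [e]), by simpa using h2, fun X hX => ?_⟩
  have h4 := h3 (conj X) (by
    simp only [mem_insert_iff, mem_singleton_iff] at hX ⊢
    rcases hX with rfl | rfl | rfl
    · exact Or.inl (conj_Om _ _)
    · exact Or.inr (Or.inl (conj_Bq _ _ _))
    · exact Or.inr (Or.inr (conj_Om _ _)))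
  rwa [key, norm_conj] at h4

/-- the open version of `Tn` -/
def To (l h : ℝ) (z : ℂ) : Prop := 0 < z.re ∧ l * z.re < z.im ∧ z.im < h * z.re

theorem To.tn {l h : ℝ} {z : ℂ} (hz : To l h z) : Tn l h z := ⟨hz.1, hz.2.1.le, hz.2.2.le⟩

theorem isOpen_to (l h : ℝ) : IsOpen {z | To l h z} :=
  (isOpen_lt continuous_const continuous_re).inter
    ((isOpen_lt (continuous_const.mul continuous_re) continuous_im).inter
      (isOpen_lt continuous_im (continuous_const.mul continuous_re)))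

theorem convex_to (l h : ℝ) : Convex ℝ {z | To l h z} := by
  have key : ∀ u v α β : ℝ, 0 < u → 0 < v → 0 ≤ α → 0 ≤ β → α + β = 1 → 0 < α * u + β * v := by
    intro u v α β hu hv hα hβ hab
    rcases hα.eq_or_lt with rfl | h0
    · rw [zero_add] at hab
      simpa [hab] using hv
    · positivity
  rintro x ⟨x1, x2, x3⟩ y ⟨y1, y2, y3⟩ α β hα hβ hab
  have k1 := key _ _ α β x1 y1 hα hβ hab
  have k2 := key _ _ α β (sub_pos.2 x2) (sub_pos.2 y2) hα hβ hab
  have k3 := key _ _ α β (sub_pos.2 x3) (sub_pos.2 y3) hα hβ hab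
  simp only [To, mem_ofPred_eq, add_re, add_im, smul_re, smul_im, smul_eq_mul]
  refine ⟨k1, ?_, ?_⟩ <;> linarith

/-! ### slopes -/

section Tn

variable {l h l' h' : ℝ} {z w : ℂ}

theorem Tn.mono (hz : Tn l h z) (hl : l' ≤ l) (hh : h ≤ h') : Tn l' h' z :=
  ⟨hz.1, (mul_le_mul_of_nonneg_right hl hz.1.le).trans hz.2.1,
    hz.2.2.trans (mul_le_mul_of_nonneg_right hh hz.1.le)⟩

theorem Tn.add (hz : Tn l h z) (hw : Tn l h w) : Tn l h (z + w) := by
  obtain ⟨z1, z2, z3⟩ := hz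
  obtain ⟨w1, w2, w3⟩ := hw
  simp only [Tn, add_re, add_im]
  refine ⟨?_, ?_, ?_⟩ <;> linarith

theorem Tn.real {x : ℝ} (hx : 0 < x) (hl : l ≤ 0) (hh : 0 ≤ h) : Tn l h (x : ℂ) := by
  simp only [Tn, ofReal_re, ofReal_im]
  exact ⟨hx, mul_nonpos_of_nonpos_of_nonneg hl hx.le, mul_nonneg hh hx.le⟩

theorem Tn.smul (hz : Tn l h z) {x : ℝ} (hx : 0 < x) : Tn l h (x * z) := by
  obtain ⟨z1, z2, z3⟩ := hz
  simp only [Tn, re_ofReal_mul, im_ofReal_mul]
  refine ⟨mul_pos hx z1, ?_, ?_⟩ <;> nlinarith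

theorem Tn.add_smul (hz : Tn l h z) (hw : Tn l h w) {x : ℝ} (hx : 0 ≤ x) : Tn l h (z + x * w) := by
  rcases hx.eq_or_lt with rfl | h0
  · simpa using hz
  · exact hz.add (hw.smul h0)

theorem Tn.conj (hz : Tn l h z) : Tn (-h) (-l) (conj z) := by
  obtain ⟨z1, z2, z3⟩ := hz
  simp only [Tn, conj_re, conj_im]
  refine ⟨z1, ?_, ?_⟩ <;> linarith

theorem aff_nonneg {l h x A B : ℝ} (h1 : l ≤ x) (h2 : x ≤ h) (h3 : 0 ≤ A + B * l)
    (h4 : 0 ≤ A + B * h) : 0 ≤ A + B * x := by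
  rcases le_total 0 B with hB | hB <;> nlinarith

theorem bil_nonneg {l h l' h' x y A B C D : ℝ} (h1 : l ≤ x) (h2 : x ≤ h) (h3 : l' ≤ y)
    (h4 : y ≤ h') (c1 : 0 ≤ A + B * l + C * l' + D * (l * l'))
    (c2 : 0 ≤ A + B * l + C * h' + D * (l * h')) (c3 : 0 ≤ A + B * h + C * l' + D * (h * l'))
    (c4 : 0 ≤ A + B * h + C * h' + D * (h * h')) : 0 ≤ A + B * x + C * y + D * (x * y) := by
  have k1 : 0 ≤ A + B * l + (C + D * l) * y := aff_nonneg h3 h4 (by linarith) (by linarith)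
  have k2 : 0 ≤ A + B * h + (C + D * h) * y := aff_nonneg h3 h4 (by linarith) (by linarith)
  have k3 : 0 ≤ A + C * y + (B + D * y) * x := aff_nonneg h1 h2 (by linarith) (by linarith)
  linarith

/-- the condition at a corner -/
def Cor (L H u v : ℝ) : Prop := u * v ≤ 99 / 100 ∧ L * (1 - u * v) ≤ u + v ∧ u + v ≤ H * (1 - u * v)

theorem Tn.mul {L H : ℝ} (hz : Tn l h z) (hw : Tn l' h' w)
    (hc : Cor L H l l' ∧ Cor L H l h' ∧ Cor L H h l' ∧ Cor L H h h') : Tn L H (z * w) := by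
  obtain ⟨z1, z2, z3⟩ := hz
  obtain ⟨w1, w2, w3⟩ := hw
  obtain ⟨⟨a1, a2, a3⟩, ⟨b1, b2, b3⟩, ⟨c1, c2, c3⟩, d1, d2, d3⟩ := hc
  obtain ⟨x, hx⟩ : ∃ x, z.im = x * z.re := ⟨z.im / z.re, by field_simp⟩
  obtain ⟨y, hy⟩ : ∃ y, w.im = y * w.re := ⟨w.im / w.re, by field_simp⟩
  rw [hx] at z2 z3
  rw [hy] at w2 w3
  have x1 := le_of_mul_le_mul_right z2 z1
  have x2 := le_of_mul_le_mul_right z3 z1
  have y1 := le_of_mul_le_mul_right w2 w1
  have y2 := le_of_mul_le_mul_right w3 w1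
  have k1 := bil_nonneg (A := 99 / 100) (B := 0) (C := 0) (D := -1) x1 x2 y1 y2 (by linarith)
    (by linarith) (by linarith) (by linarith)
  have k2 := bil_nonneg (A := -L) (B := 1) (C := 1) (D := L) x1 x2 y1 y2 (by linarith)
    (by linarith) (by linarith) (by linarith)
  have k3 := bil_nonneg (A := H) (B := -1) (C := -1) (D := -H) x1 x2 y1 y2 (by linarith)
    (by linarith) (by linarith) (by linarith)
  have hp := mul_pos z1 w1
  have e1 : (z * w).re = z.re * w.re * (1 - x * y) := by rw [mul_re, hx, hy]; ring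
  have e2 : (z * w).im = z.re * w.re * (x + y) := by rw [mul_im, hx, hy]; ring
  rw [Tn, e1, e2]
  refine ⟨mul_pos hp (by linarith), ?_, ?_⟩
  · have := mul_nonneg hp.le k2
    linarith
  · have := mul_nonneg hp.le k3
    linarith

theorem Tn.norm_le {L : ℝ} (hz : Tn (-L) L z) : ‖z‖ ≤ (L + 1) * z.re := by
  have h1 := norm_le_abs_re_add_abs_im z
  have h2 : |z.im| ≤ L * z.re := abs_le.2 ⟨by linarith [hz.2.1], hz.2.2⟩
  rw [abs_of_pos hz.1] at h1
  linarith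

theorem near_re {z c : ℂ} {r : ℝ} (h : ‖z - c‖ ≤ r) : c.re - r ≤ z.re ∧ z.re ≤ c.re + r ∧
    c.im - r ≤ z.im ∧ z.im ≤ c.im + r := by
  have h1 := abs_le.1 ((abs_re_le_norm (z - c)).trans h)
  have h2 := abs_le.1 ((abs_im_le_norm (z - c)).trans h)
  simp only [sub_re, sub_im] at h1 h2
  refine ⟨?_, ?_, ?_, ?_⟩ <;> linarith [h1.1, h1.2, h2.1, h2.2]

end Tn

/-! ### the conditions along a segment -/

/-- the condition for the direction `d` and the value `X` -/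
def Ok (K : ℝ) (d X : ℂ) : Prop :=
  1 / 100 * (‖d‖ * ‖X‖) ≤ (conj d * X).re ∧ K * ‖d‖ ≤ (conj d * X).re

theorem ok_of_tn {L : ℝ} {d X : ℂ} (h : Tn (-L) L (conj d * X)) (hL0 : 0 ≤ L) (hL : L ≤ 99)
    (hK : (L + 1) * K ≤ ‖X‖) : Ok K d X := by
  have h1 := h.norm_le
  rw [norm_mul, norm_conj] at h1
  have h2 := h.1
  refine ⟨by nlinarith, le_of_mul_le_mul_left ?_ (show 0 < L + 1 by linarith)⟩
  nlinarith [norm_nonneg d]

theorem ok_add {L : ℝ} {d X Y : ℂ} (hX : Tn (-L) L (conj d * X)) (hY : Tn (-L) L (conj d * Y))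
    (hL0 : 0 ≤ L) (hL : L ≤ 99) (hK : 2 * (L + 1) * K ≤ ‖Y‖) : Ok K d ((X + Y) / 2) := by
  have e : conj d * ((X + Y) / 2) = ((1 / 2 : ℝ) : ℂ) * (conj d * X + conj d * Y) := by
    push_cast
    ring
  have h0 : Tn (-L) L (conj d * ((X + Y) / 2)) := by
    rw [e]
    exact (hX.add hY).smul (by norm_num)
  have h1 := h0.norm_le
  have h2 := hY.norm_le
  rw [norm_mul, norm_conj] at h1 h2
  have h3 := h0.1
  have h4 := hX.1
  refine ⟨by nlinarith, le_of_mul_le_mul_left ?_ (show 0 < L + 1 by linarith)⟩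
  rw [e, re_ofReal_mul, add_re]
  nlinarith [norm_nonneg d]

theorem ok_dom {d X Y : ℂ} (hY : Tn (-1) 1 (conj d * Y)) (hX : ‖X‖ ≤ ‖Y‖ / 4)
    (hK : 8 * K ≤ ‖Y‖) : Ok K d ((X + Y) / 2) := by
  have e : (conj d * ((X + Y) / 2)).re = ((conj d * X).re + (conj d * Y).re) / 2 := by
    rw [← mul_div_assoc, mul_add, div_ofNat_re, add_re]
  have h1 := hY.norm_le
  have h2 := (abs_le.1 (abs_re_le_norm (conj d * X))).1
  rw [norm_mul, norm_conj] at h1 h2
  have h3 : ‖(X + Y) / 2‖ ≤ ‖Y‖ := by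
    rw [norm_div, Complex.norm_ofNat]
    linarith [norm_add_le X Y, norm_nonneg Y]
  have h4 := mul_le_mul_of_nonneg_left hX (norm_nonneg d)
  have h5 := mul_le_mul_of_nonneg_left h3 (norm_nonneg d)
  have h6 := mul_le_mul_of_nonneg_left hK (norm_nonneg d)
  have h7 := mul_nonneg (norm_nonneg d) (norm_nonneg Y)
  rw [Ok, e]
  constructor <;> linarith

theorem Ok.smul {d X : ℂ} (h : Ok K d X) {x : ℝ} (hx : 0 ≤ x) : Ok K (x * d) X := by
  obtain ⟨h1, h2⟩ := h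
  rw [Ok, map_mul, conj_ofReal, mul_assoc, re_ofReal_mul, norm_mul, norm_real, Real.norm_eq_abs,
    abs_of_nonneg hx]
  constructor <;> nlinarith

theorem segOK_of {p q d : ℂ} (e : q - p = d) (hd : Tn (-99) 99 d) (h1 : Ok K d (Om a p))
    (h2 : Ok K d (Bq a p q)) (h3 : Ok K d (Om a q)) : SegOK (1 / 100) K a p q := by
  subst e
  refine ⟨fun e => ?_, by linarith [hd.norm_le], fun X hX => ?_⟩
  · have := hd.1
    simp [e] at this
  · simp only [mem_insert_iff, mem_singleton_iff] at hX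
    rcases hX with rfl | rfl | rfl
    exacts [h1, h2, h3]

/-- all four products lie in one cone -/
theorem segOK_cone {L : ℝ} {p q : ℂ} (hd : Tn (-99) 99 (q - p)) (hL0 : 0 ≤ L) (hL : L ≤ 99)
    (h : ∀ x ∈ ({p, q} : Set ℂ), ∀ y ∈ ({p, q} : Set ℂ),
      Tn (-L) L (conj (q - p) * x * rh a y) ∧ 2 * (L + 1) * K ≤ ‖x‖ * ‖rh a y‖) (hK : 0 ≤ K) :
    SegOK (1 / 100) K a p q := by
  have hp : p ∈ ({p, q} : Set ℂ) := by simp
  have hq : q ∈ ({p, q} : Set ℂ) := by simp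
  simp only [mul_assoc (conj (q - p)), ← norm_mul] at h
  have h0 : (L + 1) * K ≤ 2 * (L + 1) * K := by nlinarith
  exact segOK_of rfl hd (ok_of_tn (h p hp p hp).1 hL0 hL (h0.trans (h p hp p hp).2))
    (ok_add (h p hp q hq).1 (h q hq p hp).1 hL0 hL (h q hq p hp).2)
    (ok_of_tn (h q hq q hq).1 hL0 hL (h0.trans (h q hq q hq).2))

theorem rh_near (hT : 0 ≤ T) (haT : ‖a‖ * (T + 2) ≤ 1 / 100) : ‖rh a T - 2‖ ≤ 1 / 100 := by
  rw [rh, add_sub_cancel_left, norm_mul]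
  refine le_trans (mul_le_mul_of_nonneg_left ?_ (norm_nonneg a)) haT
  refine (norm_sub_le _ _).trans ?_
  rw [norm_real, Real.norm_eq_abs, abs_of_nonneg hT, Complex.norm_ofNat]

theorem rh_tn (hT : 0 ≤ T) (haT : ‖a‖ * (T + 2) ≤ 1 / 100) :
    Tn (-1 / 100) (1 / 100) (rh a T) ∧ 199 / 100 ≤ (rh a T).re ∧ ‖rh a T‖ ≤ 201 / 100 := by
  have h := rh_near hT haT
  obtain ⟨h1, h2, h3, h4⟩ := near_re h
  simp only [re_ofNat, im_ofNat] at h1 h2 h3 h4
  refine ⟨⟨?_, ?_, ?_⟩, ?_, ?_⟩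
  any_goals linarith
  have := norm_add_le (rh a T - 2) 2
  rw [sub_add_cancel, Complex.norm_ofNat] at this
  linarith

theorem conj_mul_ray (D : ℂ) (T σ : ℝ) :
    conj D * (T + σ * D) = T * conj D + ((σ * normSq D : ℝ) : ℂ) := by
  push_cast
  rw [normSq_eq_conj_mul_self]
  ring

/-- pieces of a ray starting at `T` -/
theorem rad_seg (hK : 1000 ≤ K) (hT : 1000 * K ≤ T) {E : ℂ} (hE : Tn (-1 / 3) (1 / 3) (E - T))
    (hET : 100 * T ≤ E.re) (haT : ‖a‖ * (T + 2) ≤ 1 / 100) (hρ : Tn (-4) 4 (rh a E))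
    (h1 : T * ‖rh a E‖ ≤ E.re / 100) (h2 : 100 * K ≤ E.re * ‖rh a E‖) {σ σ' : ℝ}
    (hσ : 1 / 10 ≤ σ) (hσ' : σ < σ') (hσ1 : σ' ≤ 1) :
    SegOK (1 / 100) K a T (T + σ' * (E - T)) ∧
      SegOK (1 / 100) K a (T + σ * (E - T)) (T + σ' * (E - T)) := by
  have hT0 : 0 < T := by linarith
  obtain ⟨r1, r2, r3⟩ := rh_tn hT0.le haT
  obtain ⟨D, hD⟩ : ∃ D, D = E - T := ⟨_, rfl⟩
  rw [← hD] at hE ⊢
  have hDre : D.re = E.re - T := by rw [hD, sub_re, ofReal_re]
  have haff : ∀ τ : ℝ, rh a (T + τ * D) = τ * rh a E + ((1 - τ : ℝ) : ℂ) * rh a T := by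
    intro τ
    simp only [rh, hD]
    push_cast
    ring
  have hxre : ∀ τ : ℝ, ((T : ℂ) + τ * D).re = T + τ * D.re := fun τ => by simp
  have hr : ∀ τ : ℝ, 1 / 10 ≤ τ → τ ≤ 1 → Tn (-4) 4 (rh a (T + τ * D)) := fun τ h0 h1 => by
    rw [haff]
    exact (hρ.smul (by linarith)).add_smul (r1.mono (by norm_num) (by norm_num)) (by linarith)
  have hx : ∀ τ : ℝ, 1 / 10 ≤ τ → Tn (-1 / 30) (1 / 30) (conj D * (T + τ * D)) := fun τ h0 => by
    obtain ⟨e1, e2, e3⟩ := hE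
    have k1 : 99 * T * D.re ≤ normSq D := by
      rw [normSq_apply]
      nlinarith [mul_self_nonneg D.im]
    have k2 : 1 / 10 * normSq D ≤ τ * normSq D := mul_le_mul_of_nonneg_right h0 (normSq_nonneg D)
    have k3 := mul_pos hT0 e1
    have k4 := mul_le_mul_of_nonneg_left e2 hT0.le
    have k5 := mul_le_mul_of_nonneg_left e3 hT0.le
    rw [conj_mul_ray]
    simp only [Tn, add_re, add_im, re_ofReal_mul, im_ofReal_mul, conj_re, conj_im, ofReal_re,
      ofReal_im]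
    refine ⟨?_, ?_, ?_⟩ <;> linarith
  have hp : ∀ τ τ' : ℝ, 1 / 10 ≤ τ → 1 / 10 ≤ τ' → τ' ≤ 1 →
      Tn (-5) 5 (conj D * ((T + τ * D) * rh a (T + τ' * D))) := fun τ τ' h0 h0' h1' => by
    rw [← mul_assoc]
    exact (hx τ h0).mul (hr τ' h0' h1') (by norm_num [Cor])
  have hn : ∀ τ τ' : ℝ, 1 / 10 ≤ τ → τ ≤ τ' → τ' ≤ 1 →
      12 * K ≤ ‖(T + τ' * D) * rh a (T + τ * D)‖ := fun τ τ' h0 h0' h1' => by
    have k1 : τ * E.re ≤ ‖(T : ℂ) + τ' * D‖ := by
      refine le_trans ?_ (re_le_norm _)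
      rw [hxre, hDre]
      nlinarith
    have k2 := re_le_norm (rh a (T + τ * D))
    have k3 : (rh a (T + τ * D)).re = τ * (rh a E).re + (1 - τ) * (rh a T).re := by
      rw [haff, add_re, re_ofReal_mul, re_ofReal_mul]
    have k4 := hρ.norm_le
    have k5 : 20 * K ≤ E.re * (rh a E).re := by nlinarith
    have k6 : 1000 * K ≤ E.re * (rh a T).re := by nlinarith
    have k7 : τ * (20 * K) + (1 - τ) * (1000 * K) ≤ E.re * (rh a (T + τ * D)).re := by
      rw [k3]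
      nlinarith [mul_le_mul_of_nonneg_left k5 (show 0 ≤ τ by linarith),
        mul_le_mul_of_nonneg_left k6 (show 0 ≤ 1 - τ by linarith)]
    have k8 : 12 ≤ τ * (τ * 20 + (1 - τ) * 1000) := by nlinarith
    have k9 := (hr τ h0 (by linarith)).1
    rw [norm_mul]
    calc 12 * K ≤ τ * (τ * 20 + (1 - τ) * 1000) * K :=
          mul_le_mul_of_nonneg_right k8 (by linarith)
      _ = τ * (τ * (20 * K) + (1 - τ) * (1000 * K)) := by ring
      _ ≤ τ * (E.re * (rh a (T + τ * D)).re) := mul_le_mul_of_nonneg_left k7 (by linarith)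
      _ = τ * E.re * (rh a (T + τ * D)).re := by ring
      _ ≤ _ := mul_le_mul k1 k2 k9.le (norm_nonneg _)
  have hom : ∀ τ : ℝ, 1 / 10 ≤ τ → τ ≤ 1 → Ok K D (Om a (T + τ * D)) := fun τ h0 h1 =>
    ok_of_tn (hp τ τ h0 h0 h1) (by norm_num) (by norm_num)
      (le_trans (by linarith) (hn τ τ h0 le_rfl h1))
  have hD99 : Tn (-99) 99 D := hE.mono (by norm_num) (by norm_num)
  constructor
  · refine segOK_of (d := σ' * D) (by ring) (hD99.smul (by linarith)) (Ok.smul ?_ (by linarith))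
      (Ok.smul ?_ (by linarith)) ((hom σ' (by linarith) hσ1).smul (by linarith))
    · refine ok_of_tn (L := 1) ?_ (by norm_num) (by norm_num) ?_
      · rw [Om, mul_left_comm]
        exact (hE.conj.mul r1 (by norm_num [Cor])).smul hT0
      · rw [Om, norm_mul, norm_real, Real.norm_eq_abs, abs_of_pos hT0]
        nlinarith [re_le_norm (rh a T)]
    · have k1 : T + σ' * D.re ≤ ‖(T : ℂ) + σ' * D‖ := (hxre σ').ge.trans (re_le_norm _)
      have k2 : 199 / 100 * ‖(T : ℂ) + σ' * D‖ ≤ ‖(T + σ' * D) * rh a T‖ := by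
        rw [norm_mul]
        nlinarith [re_le_norm (rh a T), norm_nonneg ((T : ℂ) + σ' * D)]
      have k3 : 1 / 10 * (99 * T) ≤ σ' * D.re := mul_le_mul (by linarith) (by linarith)
        (by linarith) (by linarith)
      refine ok_dom ?_ ?_ (by linarith)
      · rw [← mul_assoc]
        exact (hx σ' (by linarith)).mul r1 (by norm_num [Cor])
      · have k4 : ‖rh a (T + σ' * D)‖ ≤ σ' * ‖rh a E‖ + 201 / 100 := by
          rw [haff]
          refine (norm_add_le _ _).trans ?_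
          rw [norm_mul, norm_mul, norm_real, norm_real, Real.norm_eq_abs, Real.norm_eq_abs,
            abs_of_nonneg (by linarith), abs_of_nonneg (by linarith)]
          nlinarith [norm_nonneg (rh a T)]
        rw [norm_mul, norm_real, Real.norm_eq_abs, abs_of_pos hT0]
        have k5 := mul_le_mul_of_nonneg_left k4 hT0.le
        have k6 := mul_le_mul_of_nonneg_left h1 (show 0 ≤ σ' by linarith)
        have k7 : σ' * E.re ≤ T + σ' * D.re := by rw [hDre]; nlinarith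
        nlinarith
  · refine segOK_of (d := ((σ' - σ : ℝ) : ℂ) * D) (by push_cast; ring) (hD99.smul (by linarith))
      ((hom σ hσ (by linarith)).smul (by linarith)) (Ok.smul ?_ (by linarith))
      ((hom σ' (by linarith) hσ1).smul (by linarith))
    exact ok_add (hp σ σ' hσ (by linarith) hσ1) (hp σ' σ (by linarith) hσ (by linarith))
      (by norm_num) (by norm_num) (le_trans (by linarith) (hn σ σ' hσ hσ'.le hσ1))

/-- rotation of a ray to the real axis -/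
theorem rot_seg (hK : 1000 ≤ K) (hT : 1000 * K ≤ T) {E : ℂ} (hE : Tn (-1 / 3) 0 (E - T))
    (hET : 1000 * T ≤ E.re) (haT : ‖a‖ * (T + 2) ≤ 1 / 100) {B : ℝ} (hB : T * B ≤ E.re / 10000)
    (hρ : ∀ y, Tn (-3 / 5) (1 / 10) (y - T) → y.re ≤ E.re →
      Tn (-7 / 10) (7 / 10) (rh a y) ∧ 1 ≤ ‖rh a y‖ ∧ ‖rh a y‖ ≤ B)
    {m : ℂ} (h1 : Tn (-3 / 5) (1 / 10) (m - T)) (h2 : Tn (-3 / 5) (1 / 10) ((T + 2 * E) / 3 - m))
    (h3 : (E - T).re / 10 ≤ (m - T).re) :
    SegOK (1 / 100) K a T m ∧ SegOK (1 / 100) K a m ((T + 2 * E) / 3) := by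
  have _ := hB
  have _ := h3
  have hT0 : 0 < T := by linarith
  obtain ⟨r1, r2, -⟩ := rh_tn hT0.le haT
  obtain ⟨F, hF⟩ : ∃ F, F = ((T : ℂ) + 2 * E) / 3 := ⟨_, rfl⟩
  rw [← hF] at h2 ⊢
  have f1 : Tn (-3 / 5) (1 / 10) (F - T) := by
    have : F - T = ((2 / 3 : ℝ) : ℂ) * (E - T) := by rw [hF]; push_cast; ring
    rw [this]
    exact (hE.mono (by norm_num) (by norm_num)).smul (by norm_num)
  have f2 : F.re ≤ E.re := by
    rw [hF, div_ofNat_re]
    simp only [add_re, ofReal_re, mul_re, re_ofNat, im_ofNat]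
    linarith
  have m2 : m.re ≤ E.re := by
    have := h2.1
    rw [sub_re] at this
    linarith
  have tn : ∀ y : ℂ, Tn (-3 / 5) (1 / 10) (y - T) → Tn (-3 / 5) (1 / 10) y ∧ T ≤ ‖y‖ := by
    intro y hy
    refine ⟨by simpa using hy.add (Tn.real hT0 (by norm_num) (by norm_num)), ?_⟩
    have := hy.1
    rw [sub_re, ofReal_re] at this
    linarith [re_le_norm y]
  have hm := hρ m h1 m2
  have hF' := hρ F f1 f2
  have nm : ∀ x y : ℝ, T ≤ x → 1 ≤ y → 2 * (4 + 1) * K ≤ x * y := fun x y hx hy => by nlinarith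
  constructor
  · have c1 : Tn (-1 / 10) (3 / 5) (conj (m - T)) := h1.conj.mono (by norm_num) (by norm_num)
    have x1 : ∀ x ∈ ({(T : ℂ), m} : Set ℂ), Tn (-1 / 10) (3 / 5) (conj (m - T) * x) ∧ T ≤ ‖x‖ := by
      rintro x (rfl | rfl)
      · rw [mul_comm]
        exact ⟨c1.smul hT0, by simp [abs_of_pos hT0]⟩
      · refine ⟨?_, (tn _ h1).2⟩
        have e := conj_mul_ray (x - T) T 1
        rw [show (T : ℂ) + (1 : ℝ) * (x - T) = x by push_cast; ring] at e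
        rw [e]
        refine (c1.smul hT0).add (Tn.real ?_ (by norm_num) (by norm_num))
        rw [one_mul, normSq_pos]
        intro h0
        have := h1.1
        simp [h0] at this
    have y1 : ∀ y ∈ ({(T : ℂ), m} : Set ℂ), Tn (-7 / 10) (7 / 10) (rh a y) ∧ 1 ≤ ‖rh a y‖ := by
      rintro y (rfl | rfl)
      · exact ⟨r1.mono (by norm_num) (by norm_num), by linarith [re_le_norm (rh a T)]⟩
      · exact ⟨hm.1, hm.2.1⟩
    exact segOK_cone (L := 4) (h1.mono (by norm_num) (by norm_num)) (by norm_num) (by norm_num)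
      (fun x hx y hy => ⟨(x1 x hx).1.mul (y1 y hy).1 (by norm_num [Cor]),
        nm _ _ (x1 x hx).2 (y1 y hy).2⟩) (by linarith)
  · have x1 : ∀ x ∈ ({m, F} : Set ℂ), Tn (-3 / 4) (3 / 4) (conj (F - m) * x) ∧ T ≤ ‖x‖ := by
      rintro x (rfl | rfl)
      · exact ⟨h2.conj.mul (tn _ h1).1 (by norm_num [Cor]), (tn _ h1).2⟩
      · exact ⟨h2.conj.mul (tn _ f1).1 (by norm_num [Cor]), (tn _ f1).2⟩
    have y1 : ∀ y ∈ ({m, F} : Set ℂ), Tn (-7 / 10) (7 / 10) (rh a y) ∧ 1 ≤ ‖rh a y‖ := by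
      rintro y (rfl | rfl)
      · exact ⟨hm.1, hm.2.1⟩
      · exact ⟨hF'.1, hF'.2.1⟩
    exact segOK_cone (L := 4) (h2.mono (by norm_num) (by norm_num)) (by norm_num) (by norm_num)
      (fun x hx y hy => ⟨(x1 x hx).1.mul (y1 y hy).1 (by norm_num [Cor]),
        nm _ _ (x1 x hx).2 (y1 y hy).2⟩) (by linarith)

/-- small slopes -/
theorem tn_small {y : ℂ} (h : ‖a‖ * (‖y‖ + 2) ≤ 1 / 10) :
    Tn (-1 / 10) (1 / 10) (rh a y) ∧ 1 ≤ ‖rh a y‖ ∧ ‖rh a y‖ ≤ 3 := by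
  have h0 : ‖rh a y - 2‖ ≤ 1 / 10 := by
    rw [rh, add_sub_cancel_left, norm_mul]
    refine le_trans (mul_le_mul_of_nonneg_left ?_ (norm_nonneg a)) h
    refine (norm_sub_le _ _).trans ?_
    rw [Complex.norm_ofNat]
  obtain ⟨h1, h2, h3, h4⟩ := near_re h0
  simp only [re_ofNat, im_ofNat] at h1 h2 h3 h4
  have h5 := norm_add_le (rh a y - 2) 2
  rw [sub_add_cancel, Complex.norm_ofNat] at h5
  have h6 := re_le_norm (rh a y)
  refine ⟨⟨?_, ?_, ?_⟩, ?_, ?_⟩ <;> linarith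

theorem trig_bounds {φ : ℝ} (h0 : -(1 / 1000) ≤ φ) (h1 : φ ≤ Real.pi / 2) :
    0 ≤ Real.cos φ ∧ -(1 / 1000) ≤ Real.sin φ ∧ 0 ≤ Real.cos φ + Real.sin φ := by
  have hp := Real.pi_gt_three
  have c0 : 0 ≤ Real.cos φ := Real.cos_nonneg_of_neg_pi_div_two_le_of_le (by linarith) h1
  have s0 : -(1 / 1000) ≤ Real.sin φ := by
    rcases le_total 0 φ with h | h
    · linarith [Real.sin_nonneg_of_nonneg_of_le_pi h (by linarith)]
    · have := Real.sin_le (show 0 ≤ -φ by linarith)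
      rw [Real.sin_neg] at this
      linarith
  refine ⟨c0, s0, ?_⟩
  by_contra hc
  nlinarith [Real.sin_sq_add_cos_sq φ]

theorem pol_eq (ρ φ : ℝ) : P218F.pol ρ φ = ρ * (Real.cos φ + Real.sin φ * I) := by
  rw [P218F.pol, exp_mul_I, ofReal_cos, ofReal_sin]

/-- passive ends along the tilted ray -/
theorem tn_passive {x φ l : ℝ} (hx : 0 ≤ x) (h0 : -(1 / 1000) ≤ φ) (h1 : φ ≤ Real.pi / 2)
    (hl : 0 ≤ l) (hT : 0 ≤ T) (haT : ‖a‖ * (T + 2) ≤ 1 / 100)
    (ha : ‖a - P218F.pol x φ‖ * l ≤ 1 / 100) :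
    Tn (-4) 4 (rh a (T + l * (3 - I))) ∧ 1 ≤ ‖rh a (T + l * (3 - I))‖ := by
  obtain ⟨c0, -, cs0⟩ := trig_bounds h0 h1
  have k0 : ‖rh a (T + l * (3 - I)) - (2 + P218F.pol x φ * (l * (3 - I)))‖ ≤ 1 / 20 := by
    have e : rh a (T + l * (3 - I)) - (2 + P218F.pol x φ * (l * (3 - I))) =
        (rh a T - 2) + (a - P218F.pol x φ) * l * (3 - I) := by
      simp only [rh]
      ring
    have k1 : ‖(3 : ℂ) - I‖ ≤ 4 := (norm_sub_le _ _).trans (by norm_num)
    rw [e]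
    refine (norm_add_le _ _).trans ?_
    rw [norm_mul, norm_mul, norm_real, Real.norm_eq_abs, abs_of_nonneg hl]
    nlinarith [rh_near hT haT, norm_nonneg ((3 : ℂ) - I), mul_nonneg (norm_nonneg
      (a - P218F.pol x φ)) hl]
  obtain ⟨k1, k2, k3, k4⟩ := near_re k0
  have e1 : (2 + P218F.pol x φ * (l * (3 - I))).re =
      2 + x * l * (3 * Real.cos φ + Real.sin φ) := by
    rw [pol_eq]
    simp [-ofReal_cos, -ofReal_sin]
    ring
  have e2 : (2 + P218F.pol x φ * (l * (3 - I))).im = x * l * (3 * Real.sin φ - Real.cos φ) := by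
    rw [pol_eq]
    simp [-ofReal_cos, -ofReal_sin]
    ring
  rw [e1] at k1 k2
  rw [e2] at k3 k4
  have k5 := mul_nonneg (mul_nonneg hx hl) c0
  have k6 := mul_nonneg (mul_nonneg hx hl) cs0
  have k7 := re_le_norm (rh a (T + l * (3 - I)))
  refine ⟨⟨?_, ?_, ?_⟩, ?_⟩ <;> linarith

/-- passive ends in the direction zero -/
theorem tn_passive0 {x B : ℝ} (hx : 0 ≤ x) (hT : 0 ≤ T) (haT : ‖a‖ * (T + 2) ≤ 1 / 100)
    (ha : ‖a - x‖ * B ≤ 1 / 100) {y : ℂ} (h1 : Tn (-3 / 5) (1 / 10) (y - T)) (h2 : y.re ≤ B) :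
    Tn (-7 / 10) (7 / 10) (rh a y) ∧ 1 ≤ ‖rh a y‖ := by
  have k0 : ‖rh a y - (2 + x * (y - T))‖ ≤ 1 / 20 := by
    have e : rh a y - (2 + x * (y - T)) = (rh a T - 2) + (a - x) * (y - T) := by
      simp only [rh]
      ring
    have k1 := (h1.mono (l' := -1) (h' := 1) (by norm_num) (by norm_num)).norm_le
    rw [sub_re, ofReal_re] at k1
    rw [e]
    refine (norm_add_le _ _).trans ?_
    rw [norm_mul]
    have k2 : ‖y - T‖ ≤ 2 * B := by linarith
    nlinarith [rh_near hT haT, mul_le_mul_of_nonneg_left k2 (norm_nonneg (a - x))]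
  obtain ⟨k1, k2, k3, k4⟩ := near_re k0
  simp only [add_re, add_im, re_ofNat, im_ofNat, re_ofReal_mul, im_ofReal_mul] at k1 k2 k3 k4
  have k5 := mul_nonneg hx h1.1.le
  have k6 := mul_le_mul_of_nonneg_left h1.2.1 hx
  have k7 := mul_le_mul_of_nonneg_left h1.2.2 hx
  have k8 := re_le_norm (rh a y)
  refine ⟨⟨?_, ?_, ?_⟩, ?_⟩ <;> linarith

end Vale.Agent.P218N.J
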