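import Vale.Agent.P218N.J.Geo0

/-! Admissibility of the segments of the contours around a turning point. -/

open Filter Topology Metric Set Complex
open scoped ComplexConjugate

noncomputable section

namespace Vale.Agent.P218N.J

open Vale.Agent.P218N.End

variable {K T t n s : ℝ} {a Z : ℂ}

theorem U0_re (Z : ℂ) (t : ℝ) : (U0 Z t).re = Z.re - 2 * t := by
  simp [U0]
  ring

theorem U0_im (Z : ℂ) (t : ℝ) : (U0 Z t).im = Z.im + 4 * t := by simp [U0]

theorem E0_re (Z : ℂ) (t : ℝ) : (E0 Z t).re = Z.re + 1 / 2 * t := by simp [E0]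

theorem E0_im (Z : ℂ) (t : ℝ) : (E0 Z t).im = Z.im + 3 / 2 * t := by simp [E0]

theorem near_U0 {x : ℂ} {r : ℝ} (hx : x ∈ closedBall (U0 Z t) r) :
    Z.re - 2 * t - r ≤ x.re ∧ x.re ≤ Z.re - 2 * t + r ∧ Z.im + 4 * t - r ≤ x.im ∧
      x.im ≤ Z.im + 4 * t + r := by
  have := near_re (mem_closedBall_iff_norm.1 hx)
  rwa [U0_re, U0_im] at this

theorem near_E0 {x : ℂ} {r : ℝ} (hx : x ∈ closedBall (E0 Z t) r) :
    Z.re + 1 / 2 * t - r ≤ x.re ∧ x.re ≤ Z.re + 1 / 2 * t + r ∧ Z.im + 3 / 2 * t - r ≤ x.im ∧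
      x.im ≤ Z.im + 3 / 2 * t + r := by
  have := near_re (mem_closedBall_iff_norm.1 hx)
  rwa [E0_re, E0_im] at this

theorem norm_le_of {z : ℂ} {x y : ℝ} (h1 : -x ≤ z.re) (h2 : z.re ≤ x) (h3 : -y ≤ z.im)
    (h4 : z.im ≤ y) : ‖z‖ ≤ x + y :=
  (norm_le_abs_re_add_abs_im z).trans (add_le_add (abs_le.2 ⟨h1, h2⟩) (abs_le.2 ⟨h3, h4⟩))

theorem tn_one_add_I : Tn 1 1 (1 + I) := by simp [Tn]

namespace GeoA

theorem tn (h : GeoA K T a Z t) {x : ℂ}
    (hx : x ∈ closedBall (U0 Z t) (t / 100) ∪ closedBall (E0 Z t) (t / 100)) :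
    Tn (-1 / 50) (1 / 4) x ∧ Tn (-1 / 50) (1 / 4) (x - T) ∧ 9 / 10 * Z.re ≤ x.re ∧
      ‖x‖ ≤ 2 * Z.re := by
  have h1 := h.K0
  have h2 := h.KT
  have h3 := h.t0
  have h4 := h.Zt
  obtain ⟨h5, h6⟩ := abs_le.1 h.Zi
  have h7 := h.ZT
  have key : Z.re - 201 / 100 * t ≤ x.re ∧ x.re ≤ Z.re + t ∧ Z.im ≤ x.im ∧
      x.im ≤ Z.im + 401 / 100 * t := by
    rcases hx with hx | hx
    · obtain ⟨k1, k2, k3, k4⟩ := near_U0 hx
      refine ⟨?_, ?_, ?_, ?_⟩ <;> linarith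
    · obtain ⟨k1, k2, k3, k4⟩ := near_E0 hx
      refine ⟨?_, ?_, ?_, ?_⟩ <;> linarith
  obtain ⟨k1, k2, k3, k4⟩ := key
  have k5 := norm_le_of (z := x) (x := 3 / 2 * Z.re) (y := 1 / 2 * Z.re) (by linarith)
    (by linarith) (by linarith) (by linarith)
  simp only [Tn, sub_re, sub_im, ofReal_re, ofReal_im]
  refine ⟨⟨?_, ?_, ?_⟩, ⟨?_, ?_, ?_⟩, ?_, ?_⟩ <;> linarith

theorem size (h : GeoA K T a Z t) {x y : ℂ}
    (hx : x ∈ closedBall (U0 Z t) (t / 100) ∪ closedBall (E0 Z t) (t / 100))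
    (hy : y ∈ closedBall (U0 Z t) (t / 100) ∪ closedBall (E0 Z t) (t / 100)) :
    180 * K ≤ x.re * ‖rh a y‖ := by
  have h1 := (h.g3 y hy).1
  have h2 := mul_le_mul_of_nonneg_right (h.tn hx).2.2.1 (norm_nonneg (rh a y))
  linarith

theorem size' (h : GeoA K T a Z t) {x y : ℂ}
    (hx : x ∈ closedBall (U0 Z t) (t / 100) ∪ closedBall (E0 Z t) (t / 100))
    (hy : y ∈ closedBall (U0 Z t) (t / 100) ∪ closedBall (E0 Z t) (t / 100)) :
    180 * K ≤ ‖x‖ * ‖rh a y‖ :=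
  (h.size hx hy).trans (mul_le_mul_of_nonneg_right (re_le_norm x) (norm_nonneg _))

theorem rad (h : GeoA K T a Z t) {m : ℂ} (hm : m ∈ closedBall (U0 Z t) (t / 100)) {σ σ' : ℝ}
    (hσ : 1 / 10 ≤ σ) (hσ' : σ < σ') (hσ1 : σ' ≤ 1) :
    SegOK (1 / 100) K a T (T + σ' * (m - T)) ∧
      SegOK (1 / 100) K a (T + σ * (m - T)) (T + σ' * (m - T)) := by
  obtain ⟨-, k1, k2, -⟩ := h.tn (Or.inl hm)
  have h1 := h.K0
  have h2 := h.KT
  have h7 := h.ZT
  have h8 := mul_le_mul_of_nonneg_left (h.g3 m (Or.inl hm)).2 (show 0 ≤ T by linarith)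
  have h9 := h.size (Or.inl hm) (Or.inl hm)
  exact rad_seg h1 h2 (k1.mono (by norm_num) (by norm_num)) (by linarith) h.aT
    ((h.g1 m hm).mono (by norm_num) (by norm_num)) (by linarith) (by linarith) hσ hσ' hσ1

theorem short (h : GeoA K T a Z t) {m : ℂ} (hm : m ∈ closedBall (U0 Z t) (t / 100))
    (hd : Tn (-6 / 5) (1 / 4) (U0 Z t - m)) : SegOK (1 / 100) K a m (U0 Z t) := by
  have h1 := h.K0
  have hb : ∀ x ∈ ({m, U0 Z t} : Set ℂ), x ∈ closedBall (U0 Z t) (t / 100) := by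
    rintro x (rfl | rfl)
    · exact hm
    · exact mem_closedBall_self (by linarith [h.t0])
  refine segOK_cone (L := 21) (hd.mono (by norm_num) (by norm_num)) (by norm_num) (by norm_num)
    (fun x hx y hy => ⟨?_, ?_⟩) (by linarith)
  · exact (hd.conj.mul (L := -7 / 25) (H := 21 / 10) (h.tn (Or.inl (hb x hx))).1
      (by norm_num [Cor])).mul (h.g1 y (hb y hy)) (by norm_num [Cor])
  · linarith [h.size' (Or.inl (hb x hx)) (Or.inl (hb y hy))]

theorem last (h : GeoA K T a Z t) {U E : ℂ} (hU : U ∈ closedBall (U0 Z t) (t / 100))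
    (hE : E ∈ closedBall (E0 Z t) (t / 100)) : SegOK (1 / 100) K a U E := by
  have h1 := h.K0
  have h3 := h.t0
  obtain ⟨u1, u2, u3, u4⟩ := near_U0 hU
  obtain ⟨e1, e2, e3, e4⟩ := near_E0 hE
  have hb : ∀ x ∈ ({U, E} : Set ℂ),
      x ∈ closedBall (U0 Z t) (t / 100) ∪ closedBall (E0 Z t) (t / 100) := by
    rintro x (rfl | rfl)
    · exact Or.inl hU
    · exact Or.inr hE
  have hd : Tn (-99) 99 (E - U) := by
    simp only [Tn, sub_re, sub_im]
    refine ⟨?_, ?_, ?_⟩ <;> linarith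
  have hd' : Tn (-1 / 50) (1 / 50) (conj (E - U) * ((1 - I) / 2)) := by
    have k1 : (conj (E - U) * ((1 - I) / 2)).re = ((E.re - U.re) - (E.im - U.im)) / 2 := by
      simp
      ring
    have k2 : (conj (E - U) * ((1 - I) / 2)).im = (-(E.re - U.re) - (E.im - U.im)) / 2 := by
      simp
      ring
    rw [Tn, k1, k2]
    refine ⟨?_, ?_, ?_⟩ <;> linarith
  refine segOK_cone (L := 6) hd (by norm_num) (by norm_num) (fun x hx y hy => ⟨?_, ?_⟩)
    (by linarith)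
  · have e : conj (E - U) * x * rh a y =
        conj (E - U) * ((1 - I) / 2) * x * ((1 + I) * rh a y) := by
      linear_combination (conj (E - U) * x * rh a y / 2) * I_mul_I
    rw [e]
    exact (hd'.mul (L := -1 / 20) (H := 7 / 25) (h.tn (hb x hx)).1 (by norm_num [Cor])).mul
      (h.g2 y (hb y hy)) (by norm_num [Cor])
  · linarith [h.size' (hb x hx) (hb y hy)]

end GeoA

/-- the macroscopic contours are admissible in all directions `φ` -/
theorem geoA_macro (hK : 1000 ≤ K) (hT : 1000 * K ≤ T) (hn : 0 < n) (hnT : n * (T + 2) ≤ 1 / 1000)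
    {φ : ℝ} (h0 : -(1 / 1000) ≤ φ) (h1 : φ ≤ Real.pi / 2) (ha : ‖a + P218F.pol n φ‖ ≤ n / 1000) :
    GeoA K T a (2 / n : ℝ) (1 / (12 * n)) := by
  obtain ⟨c0, s0, -⟩ := trig_bounds h0 h1
  have c1 := Real.cos_le_one φ
  have s1 := Real.sin_le_one φ
  have hsc := Real.sin_sq_add_cos_sq φ
  obtain ⟨N, hN⟩ : ∃ N : ℝ, N = 1 / n := ⟨_, rfl⟩
  have hnN : n * N = 1 := by rw [hN]; field_simp
  have hN0 : 0 < N := by rw [hN]; positivity
  have e1 : 2 / n = 2 * N := by rw [hN]; ring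
  have e2 : 1 / (12 * n) = N / 12 := by rw [hN]; field_simp
  have hNT : 1000 * (T + 2) ≤ N := by nlinarith
  have hn1 : n ≤ 1 / 1000000 := by nlinarith
  have hu : ‖P218F.pol n φ‖ = n := by
    rw [P218F.pol, norm_mul, norm_exp_ofReal_mul_I, mul_one, norm_real, Real.norm_eq_abs,
      abs_of_pos hn]
  have ha1 : ‖a‖ ≤ 1001 / 1000 * n := by
    have := norm_sub_le (a + P218F.pol n φ) (P218F.pol n φ)
    rw [add_sub_cancel_right, hu] at this
    linarith
  rw [e1, e2]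
  have key : ∀ y w : ℂ, ‖w‖ ≤ 13 / 6 → ‖y - N * w‖ ≤ N / 12 / 100 →
      ‖rh a y - (2 - (Real.cos φ + Real.sin φ * I) * w)‖ ≤ 1 / 250 := by
    intro y w hw hy
    have hc : (n : ℂ) * N = 1 := by exact_mod_cast hnN
    have e : rh a y - (2 - (Real.cos φ + Real.sin φ * I) * w) =
        (a + P218F.pol n φ) * y - P218F.pol n φ * (y - N * w) - 2 * a := by
      rw [rh, pol_eq]
      linear_combination (-((Real.cos φ + Real.sin φ * I) * w)) * hc
    have k1 : ‖y‖ ≤ 11 / 5 * N := by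
      have k := norm_add_le (y - N * w) (N * w)
      rw [sub_add_cancel, norm_mul, norm_real, Real.norm_eq_abs, abs_of_pos hN0] at k
      nlinarith
    have k2 : ‖(a + P218F.pol n φ) * y‖ ≤ n / 1000 * (11 / 5 * N) := by
      rw [norm_mul]
      exact mul_le_mul ha k1 (norm_nonneg _) (by positivity)
    have k3 : ‖P218F.pol n φ * (y - N * w)‖ ≤ n * (N / 12 / 100) := by
      rw [norm_mul, hu]
      exact mul_le_mul_of_nonneg_left hy hn.le
    have k4 : ‖2 * a‖ ≤ 2 * ‖a‖ := by rw [norm_mul, Complex.norm_ofNat]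
    rw [e]
    refine (norm_sub_le _ _).trans ((add_le_add (norm_sub_le _ _) le_rfl).trans ?_)
    linarith
  have hU : ∀ y ∈ closedBall (U0 ((2 * N : ℝ) : ℂ) (N / 12)) (N / 12 / 100),
      Tn (-3) (1 / 4) (rh a y) ∧ 1 / 10 ≤ (rh a y).re ∧ ‖rh a y‖ ≤ 5 := by
    intro y hy
    have e : U0 ((2 * N : ℝ) : ℂ) (N / 12) = N * (11 / 6 + 1 / 3 * I) := by
      rw [U0]
      push_cast
      ring
    rw [mem_closedBall_iff_norm, e] at hy
    obtain ⟨k1, k2, k3, k4⟩ := near_re (key y _ (le_trans (norm_le_of (x := 11 / 6) (y := 1 / 3)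
      (by norm_num) (by norm_num) (by norm_num) (by norm_num)) (by norm_num)) hy)
    have r1 : (2 - (Real.cos φ + Real.sin φ * I) * (11 / 6 + 1 / 3 * I) : ℂ).re =
        2 - 11 / 6 * Real.cos φ + 1 / 3 * Real.sin φ := by
      simp [-ofReal_cos, -ofReal_sin]
      ring
    have r2 : (2 - (Real.cos φ + Real.sin φ * I) * (11 / 6 + 1 / 3 * I) : ℂ).im =
        -(1 / 3 * Real.cos φ) - 11 / 6 * Real.sin φ := by
      simp [-ofReal_cos, -ofReal_sin]
      ring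
    rw [r1] at k1 k2
    rw [r2] at k3 k4
    have k5 : Real.cos φ + Real.sin φ / 7 ≤ 1011 / 1000 := by
      nlinarith [sq_nonneg (Real.cos φ - 99 / 100), sq_nonneg (Real.sin φ - 99 / 700)]
    have k6 := norm_le_of (z := rh a y) (x := 5 / 2) (y := 5 / 2) (by linarith) (by linarith)
      (by linarith) (by linarith)
    refine ⟨⟨?_, ?_, ?_⟩, ?_, ?_⟩ <;> linarith
  have hE : ∀ y ∈ closedBall (E0 ((2 * N : ℝ) : ℂ) (N / 12)) (N / 12 / 100),
      Tn (-3) 2 ((1 + I) * rh a y) ∧ 1 / 100 ≤ ‖rh a y‖ ∧ ‖rh a y‖ ≤ 5 := by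
    intro y hy
    have e : E0 ((2 * N : ℝ) : ℂ) (N / 12) = N * (49 / 24 + 1 / 8 * I) := by
      rw [E0]
      push_cast
      ring
    rw [mem_closedBall_iff_norm, e] at hy
    obtain ⟨k1, k2, k3, k4⟩ := near_re (key y _ (le_trans (norm_le_of (x := 49 / 24) (y := 1 / 8)
      (by norm_num) (by norm_num) (by norm_num) (by norm_num)) (by norm_num)) hy)
    have r1 : (2 - (Real.cos φ + Real.sin φ * I) * (49 / 24 + 1 / 8 * I) : ℂ).re =
        2 - 49 / 24 * Real.cos φ + 1 / 8 * Real.sin φ := by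
      simp [-ofReal_cos, -ofReal_sin]
      ring
    have r2 : (2 - (Real.cos φ + Real.sin φ * I) * (49 / 24 + 1 / 8 * I) : ℂ).im =
        -(1 / 8 * Real.cos φ) - 49 / 24 * Real.sin φ := by
      simp [-ofReal_cos, -ofReal_sin]
      ring
    rw [r1] at k1 k2
    rw [r2] at k3 k4
    have k6 := norm_le_of (z := rh a y) (x := 5 / 2) (y := 5 / 2) (by linarith) (by linarith)
      (by linarith) (by linarith)
    have k7 := re_le_norm (rh a y)
    have k8 := (abs_le.1 (abs_im_le_norm (rh a y))).1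
    have r3 : ((1 + I) * rh a y).re = (rh a y).re - (rh a y).im := by simp
    have r4 : ((1 + I) * rh a y).im = (rh a y).re + (rh a y).im := by simp [add_comm]
    rw [Tn, r3, r4]
    refine ⟨⟨?_, ?_, ?_⟩, ?_, ?_⟩ <;> linarith
  refine ⟨hK, hT, by positivity, ?_, ?_, ?_, ?_, fun y hy => (hU y hy).1, ?_, ?_⟩
  · rw [ofReal_re]
    linarith
  · rw [ofReal_re, ofReal_im, abs_zero]
    positivity
  · rw [ofReal_re]
    linarith
  · nlinarith [mul_le_mul_of_nonneg_right ha1 (show 0 ≤ T + 2 by linarith)]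
  · rintro y (hy | hy)
    · exact tn_one_add_I.mul (hU y hy).1 (by norm_num [Cor])
    · exact (hE y hy).1
  · have k : ∀ y, 1 / 100 ≤ ‖rh a y‖ → 200 * K ≤ ((2 * N : ℝ) : ℂ).re * ‖rh a y‖ := by
      intro y hy
      rw [ofReal_re]
      nlinarith
    rintro y (hy | hy)
    · exact ⟨k y (by linarith [(hU y hy).2.1, re_le_norm (rh a y)]), (hU y hy).2.2⟩
    · exact ⟨k y (hE y hy).2.1, (hE y hy).2.2⟩

end Vale.Agent.P218N.J
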