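import Vale.Agent.P218N.J.Geo1

/-! Real segments. -/

open Filter Topology Metric Set Complex
open scoped ComplexConjugate

noncomputable section

namespace Vale.Agent.P218N.J

open Vale.Agent.P218N.End

variable {K : ℝ} {a : ℂ}

theorem real_seg (hK : 1000 ≤ K) {p q : ℝ} (hp : 1000 * K ≤ p) (hpq : p < q)
    (h1 : Tn (-2) 2 (rh a p)) (h1' : 1 ≤ ‖rh a p‖) (h2 : Tn (-2) 2 (rh a q))
    (h2' : 1 ≤ ‖rh a q‖) : SegOK (1 / 100) K a p q := by
  have k : ∀ x y : ℝ, p ≤ x → Tn (-2) 2 (rh a y) → 1 ≤ ‖rh a y‖ →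
      Tn (-2) 2 (conj ((q : ℂ) - p) * x * rh a y) ∧ 2 * (2 + 1) * K ≤ ‖(x : ℂ)‖ * ‖rh a y‖ := by
    intro x y hx hy hy'
    rw [← ofReal_sub, conj_ofReal, ← ofReal_mul, norm_real, Real.norm_eq_abs,
      abs_of_pos (by linarith)]
    exact ⟨hy.smul (mul_pos (by linarith) (by linarith)), by nlinarith⟩
  refine segOK_cone (L := 2) ?_ (by norm_num) (by norm_num) ?_ (by linarith)
  · rw [← ofReal_sub]
    exact Tn.real (by linarith) (by norm_num) (by norm_num)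
  · rintro x (rfl | rfl) y (rfl | rfl)
    exacts [k p p le_rfl h1 h1', k p q le_rfl h2 h2', k q p hpq.le h1 h1', k q q hpq.le h2 h2']

/-- passive ends along the real axis -/
theorem tn_passive' {x φ y : ℝ} (hx : 0 ≤ x) (h0 : -(1 / 1000) ≤ φ) (h1 : φ ≤ Real.pi / 2)
    (hy : 0 ≤ y) (hxy : x * y ≤ 3) (ha1 : ‖a‖ ≤ 1 / 1000)
    (ha : ‖a - P218F.pol x φ‖ * y ≤ 1 / 100) : Tn (-2) 2 (rh a y) ∧ 1 ≤ ‖rh a y‖ := by
  obtain ⟨c0, s0, -⟩ := trig_bounds h0 h1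
  have k0 : ‖rh a y - (2 + y * P218F.pol x φ)‖ ≤ 1 / 50 := by
    have e : rh a y - (2 + y * P218F.pol x φ) = (a - P218F.pol x φ) * y - 2 * a := by
      simp only [rh]
      ring
    rw [e]
    refine (norm_sub_le _ _).trans ?_
    rw [norm_mul, norm_mul, norm_real, Real.norm_eq_abs, abs_of_nonneg hy, Complex.norm_ofNat]
    linarith
  obtain ⟨k1, k2, k3, k4⟩ := near_re k0
  have e1 : (2 + y * P218F.pol x φ).re = 2 + x * y * Real.cos φ := by
    rw [pol_eq]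
    simp [-ofReal_cos, -ofReal_sin]
    ring
  have e2 : (2 + y * P218F.pol x φ).im = x * y * Real.sin φ := by
    rw [pol_eq]
    simp [-ofReal_cos, -ofReal_sin]
    ring
  rw [e1] at k1 k2
  rw [e2] at k3 k4
  have k5 := mul_nonneg (mul_nonneg hx hy) c0
  have k6 := mul_le_mul_of_nonneg_left (Real.sin_le_one φ) (mul_nonneg hx hy)
  have k7 := mul_le_mul_of_nonneg_left s0 (mul_nonneg hx hy)
  have k8 := re_le_norm (rh a y)
  refine ⟨⟨?_, ?_, ?_⟩, ?_⟩ <;> linarith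

end Vale.Agent.P218N.J
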