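import Vale.Agent.P218N.J.Cat
import Vale.Agent.P218N.J.Geo

/-! The inner states: numerical facts. -/

open Filter Topology Metric Set Complex
open scoped ComplexConjugate

noncomputable section

namespace Vale.Agent.P218N.J

open Vale.Agent.P218N.End

variable {ι : Type} [Fintype ι] [DecidableEq ι] {e A κ : ℝ}

theorem exp_Zi (x : ℂ) {n t : ℝ} (hn : 0 < n) (ht : 0 < t) :
    (n : ℂ) * Complex.exp (-Zi x n t / 4) =
      Real.exp (-1 / 2) / Real.sqrt (11 * t) * Complex.exp (1 / 2 / x) := by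
  have h1 : 0 < Real.sqrt (11 * t) := Real.sqrt_pos.2 (by positivity)
  have h2 : Real.exp (-(ell n t / 2)) = (n * Real.sqrt (11 * t))⁻¹ := by
    rw [Real.exp_neg, ell, ← Real.log_sqrt (by positivity), Real.exp_log (by positivity),
      show 11 * n ^ 2 * t = n ^ 2 * (11 * t) by ring, Real.sqrt_mul (by positivity),
      Real.sqrt_sq hn.le]
  have h3 : -Zi x n t / 4 = ((-1 / 2 : ℝ) : ℂ) + ((-(ell n t / 2) : ℝ) : ℂ) + 1 / 2 / x := by
    rw [Zi]
    push_cast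
    ring
  have h4 : (n : ℂ) ≠ 0 := ofReal_ne_zero.2 hn.ne'
  have h5 : ((Real.sqrt (11 * t) : ℝ) : ℂ) ≠ 0 := ofReal_ne_zero.2 h1.ne'
  rw [h3, Complex.exp_add, Complex.exp_add, ← ofReal_exp, ← ofReal_exp, h2, ofReal_inv, ofReal_mul]
  field_simp

namespace InP0

theorem ahi_Zi (x : ℂ) (n t : ℝ) : 2 - 2 / ahi x n t = Zi x n t := by
  rw [ahi, Zi, div_inv_eq_mul]
  ring

theorem norm_near {x : ℂ} {n δ : ℝ} (hn : 0 < n) (hx : ‖x + n‖ ≤ δ * n) :
    (1 - δ) * n ≤ ‖x‖ ∧ ‖x‖ ≤ (1 + δ) * n := by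
  have h1 := norm_sub_le (x + n) n
  have h2 := norm_sub_le (x + n) x
  rw [add_sub_cancel_right] at h1
  rw [add_sub_cancel_left] at h2
  rw [norm_real, Real.norm_eq_abs, abs_of_pos hn] at h1 h2
  constructor <;> linarith

theorem abs_le_sq (l : ℝ) : |l| ≤ 1 + l ^ 2 := by nlinarith [sq_abs l, sq_nonneg (|l| - 1)]

/-- the pointwise form of the facts -/
theorem facts {x : ℂ} {n t δ : ℝ} (hn : 0 < n) (hδ : δ ≤ 1 / 100) (hx : ‖x + n‖ ≤ δ * n)
    (hl : n * (1 + ell n t ^ 2) ≤ δ) : ‖Zi x n t * n - 2‖ ≤ 10 * δ ∧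
      ‖ahi x n t + n‖ ≤ 10 * δ * n ∧ ahi x n t - x = ell n t * ahi x n t * x := by
  obtain ⟨x1, x2⟩ := norm_near hn hx
  have x0 : 0 < ‖x‖ := by nlinarith
  have x3 : x ≠ 0 := norm_pos_iff.1 x0
  have l1 : n * |ell n t| ≤ δ := (mul_le_mul_of_nonneg_left (abs_le_sq _) hn.le).trans hl
  have n1 : n ≤ δ := by nlinarith [sq_nonneg (ell n t)]
  have d0 : 0 < δ := hn.trans_le n1
  have l2 : ‖x * ell n t‖ ≤ 2 * δ := by
    rw [norm_mul, norm_real, Real.norm_eq_abs]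
    nlinarith [abs_nonneg (ell n t)]
  have l3 : 1 / 2 ≤ ‖1 - x * ell n t‖ := by
    have := norm_sub_norm_le (1 : ℂ) (x * ell n t)
    rw [norm_one] at this
    linarith
  have l4 : 1 - x * ell n t ≠ 0 := norm_pos_iff.1 (by linarith)
  have e1 : ahi x n t = x / (1 - x * ell n t) := by
    rw [ahi, show 1 / x - ell n t = (1 - x * ell n t) / x by field_simp, inv_div]
  have e2 : Zi x n t * n - 2 = 2 * (n - (x + n) / x + n * ell n t) := by
    rw [Zi]
    field_simp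
    ring
  have e3 : ahi x n t + n = x * (x * ell n t) / (1 - x * ell n t) + (x + n) := by
    rw [e1]
    field_simp
    ring
  refine ⟨?_, ?_, ?_⟩
  · have k1 : ‖(x + n) / x‖ ≤ 2 * δ := by
      rw [norm_div, div_le_iff₀ x0]
      nlinarith
    have k2 : ‖(n : ℂ) * ell n t‖ ≤ δ := by
      rwa [norm_mul, norm_real, norm_real, Real.norm_eq_abs, Real.norm_eq_abs, abs_of_pos hn]
    have k3 := (norm_add_le ((n : ℂ) - (x + n) / x) (n * ell n t)).trans
      (add_le_add (norm_sub_le _ _) le_rfl)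
    rw [norm_real, Real.norm_eq_abs, abs_of_pos hn] at k3
    rw [e2, norm_mul, Complex.norm_ofNat]
    linarith
  · have k1 : ‖x * (x * ell n t) / (1 - x * ell n t)‖ ≤ 9 * δ * n := by
      rw [norm_div, div_le_iff₀ (by linarith), norm_mul]
      have := mul_le_mul x2 l2 (norm_nonneg _) (by positivity)
      have := mul_le_mul_of_nonneg_left l3 (show 0 ≤ 9 * δ * n by positivity)
      nlinarith [mul_pos (hn.trans_le n1) hn]
    rw [e3]
    linarith [norm_add_le (x * (x * ell n t) / (1 - x * ell n t)) (x + n)]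
  · rw [e1]
    field_simp
    ring

theorem ell_sq {n t : ℝ} (hn : 0 < n) (ht : 1 ≤ t) (h : 12 * n * t ≤ 1) :
    n * (1 + ell n t ^ 2) ≤ n + 4 * (n * Real.log n ^ 2) := by
  have n1 : n ≤ 1 := by nlinarith
  have h1 : ell n t ≤ 0 := Real.log_nonpos (by positivity) (by nlinarith)
  have h2 : 2 * Real.log n ≤ ell n t := by
    rw [← Nat.cast_ofNat, ← Real.log_pow]
    exact Real.log_le_log (by positivity) (by nlinarith [sq_pos_of_pos hn])
  nlinarith [mul_le_mul_of_nonneg_left (show ell n t ^ 2 ≤ (2 * Real.log n) ^ 2 by nlinarith) hn.le]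

theorem log_small {δ : ℝ} (hδ : 0 < δ) :
    ∃ ν > 0, ∀ n : ℝ, 0 < n → n < ν → n + 4 * (n * Real.log n ^ 2) ≤ δ := by
  have h1 := tendsto_log_mul_rpow_nhdsGT_zero (r := 1 / 2) (by norm_num)
  have h2 : Tendsto (fun n : ℝ => n + 4 * (Real.log n * n ^ (1 / 2 : ℝ)) ^ 2) (𝓝[>] 0)
      (𝓝 (0 + 4 * 0 ^ 2)) :=
    (tendsto_id.mono_left nhdsWithin_le_nhds).add ((h1.pow 2).const_mul 4)
  obtain ⟨ν, hν, h⟩ := (mem_nhdsGT_iff_exists_Ioo_subset.1
    (h2.eventually_le_const (show 0 + 4 * 0 ^ 2 < δ by simpa using hδ)))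
  refine ⟨ν, hν, fun n h0 h1 => ?_⟩
  have := h ⟨h0, h1⟩
  simp only [mem_ofPred_eq] at this
  rwa [mul_pow, ← Real.sqrt_eq_rpow, Real.sq_sqrt h0.le, mul_comm (Real.log n ^ 2)] at this

end InP0

open InP0

theorem inner_facts (he : 0 < e) (hA : 0 < A) {ϑ : ℝ} (hϑ : 0 < ϑ) : ∀ᶠ η in 𝓝[>] (0 : ℝ),
    ∀ (ρ a : ℝ) (x : ℂ) (n t : ℝ), Act e A η ρ a x → n = |a| * ρ → 1 ≤ t → 12 * n * t ≤ 1 →
      0 < n ∧ n ≤ ϑ ∧ ρ ≤ ϑ ∧ ‖x + n‖ ≤ ϑ * n ∧ ‖Zi x n t * n - 2‖ ≤ ϑ ∧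
        ‖ahi x n t + n‖ ≤ ϑ * n ∧ n * (1 + ell n t ^ 2) ≤ ϑ ∧ 2 - 2 / ahi x n t = Zi x n t := by
  obtain ⟨δ, d0, d1, d2⟩ : ∃ δ : ℝ, 0 < δ ∧ δ ≤ 1 / 100 ∧ 10 * δ ≤ ϑ :=
    ⟨min (1 / 100) (ϑ / 10), by positivity, min_le_left _ _, by
      linarith [min_le_right (1 / 100) (ϑ / 10)]⟩
  obtain ⟨ν, hν, hl⟩ := log_small d0
  filter_upwards [Ioo_mem_nhdsGT (show (0 : ℝ) < min (min ϑ (δ * A)) (e * ν) by positivity)]
    with η hη ρ a x n t h hn ht h12
  have η1 : η < ϑ := hη.2.trans_le ((min_le_left _ _).trans (min_le_left _ _))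
  have η2 : η < δ * A := hη.2.trans_le ((min_le_left _ _).trans (min_le_right _ _))
  have η3 : η < e * ν := hη.2.trans_le (min_le_right _ _)
  have r0 := h.ρ0
  have n0 : 0 < n := hn ▸ mul_pos (hA.trans_le h.lo) r0
  have n1 : n < ν := by
    refine lt_of_mul_lt_mul_left ?_ he.le
    rw [hn, ← mul_assoc]
    nlinarith [h.up, h.ρ1]
  have l := (ell_sq n0 ht h12).trans (hl n n0 n1)
  have hx : ‖x + n‖ ≤ δ * n := by
    have e1 : x + n = x - a * ρ := by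
      rw [hn, abs_of_neg h.neg]
      push_cast
      ring
    rw [e1, hn, ← mul_assoc]
    exact h.xa.le.trans (mul_le_mul_of_nonneg_right
      (η2.le.trans (mul_le_mul_of_nonneg_left h.lo d0.le)) r0.le)
  obtain ⟨k1, k2, -⟩ := facts n0 d1 hx l
  refine ⟨n0, by nlinarith [sq_nonneg (ell n t)], (h.ρ1.trans η1).le, hx.trans ?_, k1.trans d2,
    k2.trans ?_, by linarith, ahi_Zi x n t⟩ <;> gcongr
  linarith

/-- The reference slope solves the slope equation up to `O(n²)`, at every point `E` with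
`1 ≤ n ‖E‖ ≤ 5` and `t ≤ ‖Ω‖ ≤ 100 t`. -/
theorem ahi_ref {x E : ℂ} {n t : ℝ} (hn : 0 < n) (ht : 10 ^ 7 ≤ t) (hx : ‖x + n‖ ≤ n / 1000)
    (hl : n * (1 + ell n t ^ 2) ≤ 1 / 1000) (h1 : 1 ≤ n * ‖E‖) (h2 : n * ‖E‖ ≤ 5)
    (h3 : t ≤ ‖Om (ahi x n t) E‖) (h4 : ‖Om (ahi x n t) E‖ ≤ 100 * t) :
    ‖ahi x n t + ahi x n t ^ 2 * sE (ahi x n t) E - x‖ ≤ n ^ 2 * t / 200 / 8 := by
  have hx' : ‖x + n‖ ≤ 1 / 1000 * n := by linarith
  obtain ⟨-, k2, k3⟩ := facts hn (by norm_num) hx' hl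
  have t0 : 0 < t := by linarith
  have x2 := (norm_near hn hx').2
  have a2 := (norm_near hn k2).2
  generalize ahi x n t = α at *
  have E0 : E ≠ 0 := by
    rintro rfl
    norm_num at h1
  have O0 : Om α E ≠ 0 := norm_pos_iff.1 (by linarith)
  have e1 : sE α E + ell n t =
      2 * log (n * E) - log ((t⁻¹ : ℝ) * Om α E) + (Real.log 11 : ℝ) := by
    rw [log_ofReal_mul hn E0, log_ofReal_mul (inv_pos.2 t0) O0, sE, ell, Real.log_inv,
      Real.log_mul (by positivity) t0.ne', Real.log_mul (by norm_num) (by positivity),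
      Real.log_pow]
    push_cast
    ring
  have b1 := CatP.norm_log_le (z := n * E) (B := 5)
    (by rwa [norm_mul, norm_real, Real.norm_eq_abs, abs_of_pos hn])
    (by rwa [norm_mul, norm_real, Real.norm_eq_abs, abs_of_pos hn])
  have b2 := CatP.norm_log_le (z := (t⁻¹ : ℝ) * Om α E) (B := 100)
    (by rwa [norm_mul, norm_real, Real.norm_eq_abs, abs_of_pos (inv_pos.2 t0),
      le_inv_mul_iff₀ t0, mul_one])
    (by rwa [norm_mul, norm_real, Real.norm_eq_abs, abs_of_pos (inv_pos.2 t0),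
      inv_mul_le_iff₀ t0, mul_comm])
  have b3 : ‖sE α E + ell n t‖ ≤ 200 := by
    have c1 := Real.log_le_sub_one_of_pos (x := 5) (by norm_num)
    have c2 := Real.log_le_sub_one_of_pos (x := 100) (by norm_num)
    have c3 := Real.log_le_sub_one_of_pos (x := 11) (by norm_num)
    have c4 := (norm_add_le (2 * log (n * E) - log ((t⁻¹ : ℝ) * Om α E)) (Real.log 11 : ℝ)).trans
      (add_le_add (norm_sub_le _ _) le_rfl)
    rw [norm_mul, Complex.norm_ofNat, norm_real, Real.norm_eq_abs,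
      abs_of_pos (Real.log_pos (by norm_num))] at c4
    rw [e1]
    linarith [Real.pi_le_four]
  have b4 : ‖(ell n t : ℂ) ^ 2 * x‖ ≤ 1 := by
    rw [norm_mul, norm_pow, norm_real, Real.norm_eq_abs, sq_abs]
    nlinarith [sq_nonneg (ell n t)]
  have e2 : α + α ^ 2 * sE α E - x = α ^ 2 * (sE α E + ell n t - (ell n t : ℂ) ^ 2 * x) := by
    linear_combination (1 - ell n t * α) * k3
  rw [e2, norm_mul, norm_pow]
  have b5 := (norm_sub_le _ _).trans (add_le_add b3 b4)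
  refine (mul_le_mul (pow_le_pow_left₀ (norm_nonneg _) a2 2) b5 (norm_nonneg _)
    (by positivity)).trans ?_
  nlinarith [sq_nonneg n]

end Vale.Agent.P218N.J
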