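import Vale.Agent.P218N.J.Outer
import Vale.Agent.P218N.J.InnerA

/-! The inner states. -/

open Filter Topology Metric Set Complex
open scoped ComplexConjugate

noncomputable section

namespace Vale.Agent.P218N.J

open Vale.Agent.P218N.End

variable {ι : Type} [Fintype ι] [DecidableEq ι] {e A κ : ℝ}

namespace InP0

section geo

variable {K T n t : ℝ} {a Z y : ℂ}

theorem rh_bd (h : GeoI K T n a Z t)
    (hy : y ∈ closedBall (U0 Z t) (t / 100) ∪ closedBall (E0 Z t) (t / 100)) :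
    t ≤ ‖2 - 2 / a - y‖ ∧ ‖rh a y‖ ≤ 7 * n * t := by
  have h1 := h.t0
  have h0 := h.n0
  obtain ⟨k1, k2, k3, k4⟩ := h.near y
  have key : t ≤ ‖2 - 2 / a - y‖ ∧ ‖2 - 2 / a - y‖ ≤ 61 / 10 * t := by
    have k5 := (abs_le.1 (abs_im_le_norm (2 - 2 / a - y))).1
    rcases hy with hy | hy
    · obtain ⟨u1, u2, u3, u4⟩ := near_U0 hy
      have := norm_le_of (z := 2 - 2 / a - y) (x := 41 / 20 * t) (y := 81 / 20 * t) (by linarith)
        (by linarith) (by linarith) (by linarith)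
      constructor <;> linarith
    · obtain ⟨u1, u2, u3, u4⟩ := near_E0 hy
      have := norm_le_of (z := 2 - 2 / a - y) (x := 41 / 20 * t) (y := 81 / 20 * t) (by linarith)
        (by linarith) (by linarith) (by linarith)
      constructor <;> linarith
  refine ⟨key.1, ?_⟩
  rw [h.norm_rh]
  refine (mul_le_mul h.neg_a.2.2 key.2 (norm_nonneg _) (by positivity)).trans ?_
  nlinarith [mul_pos h0 h1]

theorem om_bd (h : GeoI K T n a Z t) (hy : y ∈ closedBall (E0 Z t) (t / 100)) :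
    (1 ≤ n * ‖y‖ ∧ n * ‖y‖ ≤ 5) ∧ t ≤ ‖Om a y‖ ∧ ‖Om a y‖ ≤ 100 * t := by
  have h1 := h.t0
  have h0 := h.n0
  obtain ⟨k1, k2⟩ := rh_bd h (Or.inr hy)
  obtain ⟨-, -, k3, k4⟩ := h.geoA.tn (Or.inr hy)
  obtain ⟨k5, k6⟩ := h.nZre
  have k7 := k3.trans (re_le_norm y)
  have k8 := h.lower (by norm_num) k7 k1
  have k9 : n * ‖y‖ ≤ 5 := by nlinarith
  rw [Om, norm_mul]
  refine ⟨⟨by nlinarith, k9⟩, by linarith, ?_⟩
  nlinarith [mul_le_mul_of_nonneg_left k2 (norm_nonneg y)]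

theorem cs_add_n {s : ℝ} (hs : s = 1 ∨ s = -1) (a : ℂ) (n : ℝ) : ‖cs s a + n‖ = ‖a + n‖ := by
  rw [← norm_cs hs (a + n), cs_add, cs_ofReal]

theorem cs_two (s : ℝ) : cs s 2 = 2 := by simpa using cs_ofReal s 2

/-- the weight at the turning point -/
theorem wt_le (x : ℂ) {u k : ℝ} (hn : 0 < n) (ht : 0 < t) (hk : 0 ≤ k)
    (hu : u ≤ k ^ 2 * (11 * n ^ 2 * t)) :
    Real.sqrt u * Real.exp (-((Zi x n t).re / 4)) ≤ k * ‖Complex.exp (1 / 2 / x)‖ := by
  have h1 : 0 < Real.sqrt (11 * t) := Real.sqrt_pos.2 (by positivity)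
  have h2 := congrArg norm (exp_Zi x hn ht)
  rw [norm_mul, norm_mul, norm_div, norm_real, norm_real, norm_real, Real.norm_eq_abs,
    Real.norm_eq_abs, Real.norm_eq_abs, abs_of_pos hn, abs_of_pos h1, abs_of_pos (Real.exp_pos _),
    Complex.norm_exp, div_ofNat_re, neg_re, neg_div, div_mul_eq_mul_div, eq_div_iff h1.ne'] at h2
  have h3 : Real.sqrt u ≤ k * (n * Real.sqrt (11 * t)) := Real.sqrt_le_iff.2 ⟨by positivity, by
    rw [mul_pow, mul_pow, Real.sq_sqrt (by positivity)]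
    linarith⟩
  have h4 : Real.exp (-1 / 2) ≤ 1 := Real.exp_le_one_iff.2 (by norm_num)
  calc _ ≤ k * (n * Real.sqrt (11 * t)) * Real.exp (-((Zi x n t).re / 4)) := by gcongr
    _ = k * (Real.exp (-1 / 2) * ‖Complex.exp (1 / 2 / x)‖) := by rw [← h2]; ring
    _ ≤ k * (1 * ‖Complex.exp (1 / 2 / x)‖) := by gcongr
    _ = _ := by ring

theorem hw_le {s : ℝ} {x : ℂ} (h : GeoI K T n a (cs s (Zi x n t)) t) :
    Real.sqrt (7 * n * t / (9 / 10 * (cs s (Zi x n t)).re)) *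
      Real.exp (-(((cs s (Zi x n t)).re + 49 / 100 * t) / 4)) ≤
        ‖Complex.exp (1 / 2 / x)‖ * Real.exp (-(t / 10)) := by
  have h1 := h.t0
  have h0 := h.n0
  have h2 := h.nZre.1
  have h3 := h.Zt
  rw [cs_re] at h2 h3 ⊢
  have h4 := wt_le x (u := 7 * n * t / (9 / 10 * (Zi x n t).re)) (k := 1) h0 h1 zero_le_one (by
    rw [div_le_iff₀ (by linarith)]
    nlinarith [mul_pos h0 h1])
  rw [add_div, neg_add, Real.exp_add, ← mul_assoc]
  exact mul_le_mul (by linarith) (Real.exp_le_exp.2 (by linarith)) (Real.exp_pos _).le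
    (norm_nonneg _)

theorem norm_U0 {Z Z' : ℂ} {t t' : ℝ} : ‖U0 Z' t' - U0 Z t‖ ≤ ‖Z' - Z‖ + 6 * |t' - t| := by
  rw [show U0 Z' t' - U0 Z t = Z' - Z + (-2 + 4 * I) * ((t' - t : ℝ) : ℂ) by
    simp only [U0]; push_cast; ring]
  refine (norm_add_le _ _).trans (add_le_add le_rfl ?_)
  rw [norm_mul, norm_real, Real.norm_eq_abs]
  gcongr
  linarith [norm_le_of (z := -2 + 4 * I) (x := 2) (y := 4) (by simp) (by norm_num) (by norm_num)
    (by simp)]

theorem norm_E0 {Z Z' : ℂ} {t t' : ℝ} : ‖E0 Z' t' - E0 Z t‖ ≤ ‖Z' - Z‖ + 6 * |t' - t| := by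
  rw [show E0 Z' t' - E0 Z t = Z' - Z + (1 / 2 + 3 / 2 * I) * ((t' - t : ℝ) : ℂ) by
    simp only [E0]; push_cast; ring]
  refine (norm_add_le _ _).trans (add_le_add le_rfl ?_)
  rw [norm_mul, norm_real, Real.norm_eq_abs]
  gcongr
  linarith [norm_le_of (z := 1 / 2 + 3 / 2 * I) (x := 2) (y := 4) (by norm_num) (by norm_num)
    (by norm_num) (by norm_num)]

end geo

variable {c₀ : Cx ι} {η ρ a n s t : ℝ} {x W : ℂ}

theorem lmin (H : (c₀.sc ρ).Ok) (ht : Lmin c₀ A ≤ t) :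
    10 ^ 7 ≤ t ∧ 200 * c₀.P.K ≤ t ∧ 200 * c₀.L₀ / A ^ 2 ≤ t := by
  have h1 : 1000 ≤ c₀.P.K := H.spec.K0
  have h2 : 0 < c₀.L₀ := H.L0
  have h3 : 0 ≤ 200 * c₀.L₀ / A ^ 2 := by positivity
  rw [Lmin] at ht
  refine ⟨?_, ?_, ?_⟩ <;> linarith

theorem Me (hF : Fit c₀.M c₀.X e A κ) (H : (c₀.sc ρ).Ok) : 8000 ≤ c₀.M * e := by
  have h1 : 1 ≤ c₀.M := H.M1
  nlinarith [hF.κe, hF.Mκ]

theorem n_le {B : ℝ} (h : Act e A η ρ a x) (hn : n = |a| * ρ) (hB : 0 < B) (hη : η < 2 * e / B) :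
    n * B ≤ 1 := by
  have h1 := (lt_div_iff₀ hB).1 (h.ρ1.trans hη)
  rw [hn, mul_assoc]
  nlinarith [mul_le_mul_of_nonneg_left h1.le (abs_nonneg a), h.up]

theorem ball_self {z : ℂ} {u : ℝ} (hu : 0 < u) : z ∈ closedBall z (u / 100) :=
  mem_closedBall_self (by positivity)

theorem side_of (hF : Fit c₀.M c₀.X e A κ) (h : Act e A η ρ a x) (hn : n = |a| * ρ)
    (H : (c₀.sc ρ).Ok) (hs : s = 1 ∨ s = -1) (ht : Lmin c₀ A ≤ t) (h12 : 12 * n * t ≤ 1)
    (hx : ‖x + n‖ ≤ n / 1000) (hl : n * (1 + ell n t ^ 2) ≤ 1 / 1000)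
    (h1 : 1 ≤ n * ‖W‖ ∧ n * ‖W‖ ≤ 5) (h2 : ∀ a' ∈ closedBall (ahi x n t) (n ^ 2 * t / 200),
      t ≤ ‖Om (cs s a') W‖ ∧ ‖Om (cs s a') W‖ ≤ 100 * t) :
    Side (c₀.sc ρ) x (ahi x n t) (n ^ 2 * t / 200) (cs s W) := by
  obtain ⟨t1, -, t3⟩ := lmin H ht
  have r0 := h.ρ0
  have A0 := hF.A0
  have n0 : 0 < n := hn ▸ mul_pos (A0.trans_le h.lo) r0
  have hx' : ‖x + n‖ ≤ 1 / 1000 * n := by linarith
  have x2 := (norm_near n0 hx').2
  have a2 := (norm_near n0 (facts n0 (by norm_num) hx' hl).2.1).2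
  have m1 : 2 * n ≤ c₀.M * ρ := by
    refine le_of_mul_le_mul_left ?_ hF.e0
    rw [hn]
    nlinarith [Me hF H, mul_le_mul_of_nonneg_right h.up r0.le]
  have m2 : A ^ 2 * ρ ^ 2 ≤ n ^ 2 := by
    rw [← mul_pow, hn]
    gcongr
    exact h.lo
  have e1 : ∀ a', ‖Om a' (cs s W)‖ = ‖Om (cs s a') W‖ := fun a' => by
    rw [← norm_cs hs, cs_Om hs, cs_cs hs]
  have c0 := h2 _ (mem_closedBall_self (by positivity))
  refine ⟨x2.trans (le_trans (by linarith) m1), ?_, le_trans (by nlinarith) m1,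
    ahi_ref n0 t1 hx hl (by rw [norm_cs hs]; exact h1.1) (by rw [norm_cs hs]; exact h1.2)
      (by rw [e1]; exact c0.1) (by rw [e1]; exact c0.2), fun a' ha => ?_⟩
  · show c₀.L₀ * ρ ^ 2 ≤ _
    rw [div_le_iff₀ (by positivity)] at t3
    nlinarith [mul_le_mul_of_nonneg_right t3 (sq_nonneg ρ),
      mul_le_mul_of_nonneg_left m2 (show 0 ≤ t by linarith)]
  · show _ ≤ c₀.X * (n ^ 2 * t / 200 / ρ ^ 2)
    have X1 : 1 ≤ c₀.X := H.X1
    rw [e1, ← mul_div_assoc, le_div_iff₀ (by positivity)]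
    have b1 := mul_le_mul_of_nonneg_right (h2 a' ha).2 (sq_nonneg ρ)
    have b2 := mul_le_mul_of_nonneg_left m2 (show 0 ≤ c₀.X * t by positivity)
    have b3 := mul_le_mul_of_nonneg_right hF.XA (show 0 ≤ t * ρ ^ 2 by positivity)
    nlinarith [mul_pos (show 0 < t by linarith) (sq_pos_of_pos r0)]

end InP0

open InP0

theorem ist_reg (c₀ : Cx ι) (hF : Fit c₀.M c₀.X e A κ) : ∀ᶠ η in 𝓝[>] (0 : ℝ),
    ∀ (ρ a : ℝ) (x : ℂ) (n s t : ℝ), Act e A η ρ a x → n = |a| * ρ → (c₀.sc ρ).Ok →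
      (s = 1 ∨ s = -1) → Lmin c₀ A ≤ t → 12 * n * t ≤ 1 →
      (∀ a' ∈ closedBall (ahi x n t) (n ^ 2 * t / 200),
        GeoI c₀.P.K (e / (2000 * ρ)) n (cs s a') (cs s (Zi x n t)) t) ∧
      Reg (c₀.sc ρ) x (ahi x n t) (n ^ 2 * t / 200) s (e / (2000 * ρ)) (cs s (Zi x n t)) t := by
  have e0 := hF.e0
  have A0 := hF.A0
  filter_upwards [inner_facts e0 A0 (ϑ := 1 / 10000) (by norm_num),
    inner_facts e0 A0 (ϑ := e / (4000 * (|c₀.P.T| + 1))) (by positivity)]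
    with η f1 f2 ρ a x n s t h hn H hs ht h12
  obtain ⟨t1, t2, -⟩ := lmin H ht
  obtain ⟨n0, n1, -, x1, z1, a1, l1, -⟩ := f1 ρ a x n t h hn (by linarith) h12
  obtain ⟨-, -, r1, -⟩ := f2 ρ a x n t h hn (by linarith) h12
  have r0 := h.ρ0
  have TP : c₀.P.T < e / (2000 * ρ) := by
    rw [le_div_iff₀ (by positivity)] at r1
    rw [lt_div_iff₀ (by positivity)]
    nlinarith [mul_le_mul_of_nonneg_left (le_abs_self c₀.P.T) r0.le,
      mul_nonneg r0.le (abs_nonneg c₀.P.T)]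
  have KT : 1000 * c₀.P.K ≤ c₀.P.T := H.spec.KT
  obtain ⟨z2, z3, z4, z5⟩ := near_re z1
  rw [re_mul_ofReal, re_ofNat] at z2 z3
  rw [im_mul_ofReal, im_ofNat] at z4 z5
  have hI : ∀ a' ∈ closedBall (ahi x n t) (n ^ 2 * t / 200),
      GeoI c₀.P.K (e / (2000 * ρ)) n (cs s a') (cs s (Zi x n t)) t := fun a' ha => by
    rw [mem_closedBall, dist_eq_norm] at ha
    have b1 : ‖a' + n‖ ≤ 1 / 100 * n := by
      have := norm_add_le (a' - ahi x n t) (ahi x n t + n)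
      rw [show a' - ahi x n t + (ahi x n t + n) = a' + n by ring] at this
      nlinarith
    have b2 := (norm_near n0 b1).1
    have b3 := (norm_near n0 a1).1
    refine ⟨H.spec.K0, by linarith, n0, t2, ?_, ?_, ?_, by rw [cs_add_n hs]; linarith, ?_⟩
    · rw [cs_re]
      exact le_of_mul_le_mul_right (by linarith) n0
    · have : |(cs s (Zi x n t)).im| = |(Zi x n t).im| := by
        rcases hs with rfl | rfl <;> simp [cs]
      rw [this, cs_re]
      refine le_of_mul_le_mul_right ?_ n0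
      rw [← abs_of_pos n0, ← abs_mul, abs_of_pos n0, abs_le]
      constructor <;> linarith
    · have : n * (e / (2000 * ρ)) = e * |a| / 2000 := by
        rw [hn]
        field_simp
      linarith [h.up]
    · have p1 : a' ≠ 0 := norm_pos_iff.1 (by linarith)
      have p2 : ahi x n t ≠ 0 := norm_pos_iff.1 (by linarith)
      rw [← cs_two s, ← cs_div hs, ← cs_sub, ← cs_sub, norm_cs hs, ← ahi_Zi,
        show 2 - 2 / a' - (2 - 2 / ahi x n t) = 2 * (a' - ahi x n t) / (a' * ahi x n t) by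
          field_simp; ring, norm_div, norm_mul, norm_mul, Complex.norm_ofNat,
        div_le_iff₀ (by positivity)]
      have := mul_le_mul b2 b3 (by positivity) (norm_nonneg _)
      nlinarith [mul_le_mul_of_nonneg_left this (show 0 ≤ t by linarith),
        mul_pos (sq_pos_of_pos n0) (show 0 < t by linarith)]
  refine ⟨hI, hs, fun a' ha => (hI a' ha).geoA, TP, ?_, ?_, fun E hE => side_of hF h hn H hs ht h12
    (by linarith) (by linarith) (om_bd (hI _ (mem_closedBall_self (by positivity))) hE).1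
    fun a' ha => (om_bd (hI a' ha) hE).2⟩
  · show 1 / (c₀.M * ρ) ≤ _
    have M1 : 1 ≤ c₀.M := H.M1
    rw [div_le_div_iff₀ (by positivity) (by positivity)]
    nlinarith [Me hF H]
  · show _ ≤ c₀.M / ρ
    have M1 : 1 ≤ c₀.M := H.M1
    rw [le_div_iff₀ r0, cs_re]
    refine le_of_mul_le_mul_left ?_ (A0.trans_le h.lo)
    nlinarith [hF.MA, mul_le_mul_of_nonneg_left h.lo (show 0 ≤ c₀.M by linarith)]

/-- One step: `Reg.move` and `eqv_disc`. -/
theorem ist_step (c₀ : Cx ι) (hF : Fit c₀.M c₀.X e A κ) : ∀ᶠ η in 𝓝[>] (0 : ℝ),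
    ∀ (ρ a : ℝ) (x : ℂ) (n s t t' : ℝ), Act e A η ρ a x → n = |a| * ρ → (c₀.sc ρ).Ok →
      (s = 1 ∨ s = -1) → Lmin c₀ A ≤ t → t ≤ t' → t' ≤ t + 1 → 12 * n * t' ≤ 1 →
      Lnk (c₀.sc ρ) x (2 * c₀.C₁) (‖Complex.exp (1 / 2 / x)‖ * Real.exp (-(t / 10)))
          (ist c₀.P.T (e / (2000 * ρ)) s x n t) (ist c₀.P.T (e / (2000 * ρ)) s x n t') ∧
        Wt (ist c₀.P.T (e / (2000 * ρ)) s x n t)
          (‖Complex.exp (1 / 2 / x)‖ * Real.exp (-(t / 10))) ∧
        Wt (ist c₀.P.T (e / (2000 * ρ)) s x n t')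
          (‖Complex.exp (1 / 2 / x)‖ * Real.exp (-(t / 10))) := by
  filter_upwards [ist_reg c₀ hF] with η f ρ a x n s t t' h hn H hs ht h1 h2 h12
  have n0 : 0 < n := hn ▸ mul_pos (hF.A0.trans_le h.lo) h.ρ0
  have t1 := (lmin H ht).1
  have t0 : 0 < t := by linarith
  obtain ⟨g, r⟩ := f ρ a x n s t h hn H hs ht (by nlinarith)
  obtain ⟨g', r'⟩ := f ρ a x n s t' h hn H hs (ht.trans h1) h12
  have g0 := g _ (mem_closedBall_self (by positivity))
  have g0' := g' _ (mem_closedBall_self (by have := g0.t0.trans_le h1; positivity))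
  have l1 : |ell n t' - ell n t| ≤ 1 := by
    rw [ell, ell, ← Real.log_div (by have := t0.trans_le h1; positivity) (by positivity),
      mul_div_mul_left _ _ (by positivity), abs_of_nonneg (Real.log_nonneg ((one_le_div t0).2 h1))]
    refine (Real.log_le_sub_one_of_pos (div_pos (by linarith) t0)).trans ?_
    rw [sub_le_iff_le_add, div_le_iff₀ t0]
    linarith
  have e1 : Zi x n t' - Zi x n t = 2 * ((ell n t' - ell n t : ℝ) : ℂ) := by
    simp only [Zi]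
    push_cast
    ring
  have z1 : ‖cs s (Zi x n t') - cs s (Zi x n t)‖ + 6 * |t' - t| ≤ 8 := by
    rw [← cs_sub, norm_cs hs, e1, norm_mul, Complex.norm_ofNat, norm_real, Real.norm_eq_abs,
      abs_of_nonneg (sub_nonneg.2 h1)]
    linarith
  have hb := fun a' ha y hy => (rh_bd (g a' ha) (y := y) hy).2
  have m := r.move H hb (hw_le g0) (U := U0 (cs s (Zi x n t')) t') (E := E0 (cs s (Zi x n t')) t')
    (mem_ball_iff_norm.2 ((norm_U0.trans z1).trans_lt (by linarith)))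
    (mem_closedBall_iff_norm.2 ((norm_E0.trans z1).trans (by linarith)))
  refine ⟨m.eqv_right (eqv_disc H m.2.1 (r'.endG H (ball_self g0'.t0) (ball_self g0'.t0)) ?_),
    r.wt H hb (hw_le g0) (ball_self t0) ctr_one, (r'.wt H (fun a' ha y hy => (rh_bd (g' a' ha) hy).2)
      (hw_le g0') (ball_self g0'.t0) ctr_one).mono (by gcongr)⟩
  have p1 := g0.a_ne
  have p2 := g0'.a_ne
  have q1 := g0.neg_a.2.2
  have q2 := g0'.neg_a.2.2
  rw [← norm_ne_zero_iff, norm_cs hs, norm_ne_zero_iff] at p1 p2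
  rw [norm_cs hs] at q1 q2
  have e2 : ahi x n t - ahi x n t' =
      -(ahi x n t * ahi x n t' * ((ell n t' - ell n t : ℝ) : ℂ)) := by
    rw [← ahi_Zi, ← ahi_Zi] at e1
    field_simp at e1
    linear_combination -e1
  rw [e2, norm_neg, norm_mul, norm_mul, norm_real, Real.norm_eq_abs]
  have := mul_le_mul (mul_le_mul q1 q2 (norm_nonneg _) (by positivity)) l1 (abs_nonneg _)
    (by positivity)
  nlinarith [sq_pos_of_pos n0]

/-- The largest inner state, `t = 1 / (12 n)`, and the outer state. -/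
theorem ist_top (c₀ : Cx ι) (hF : Fit c₀.M c₀.X e A κ) : ∀ᶠ η in 𝓝[>] (0 : ℝ),
    ∀ (ρ a : ℝ) (x : ℂ) (n s t : ℝ), Act e A η ρ a x → n = |a| * ρ → (c₀.sc ρ).Ok →
      (s = 1 ∨ s = -1) → t = 1 / (12 * n) →
      Lnk (c₀.sc ρ) x (2 * c₀.C₁) (‖Complex.exp (1 / 2 / x)‖ * Real.exp (-(t / 10)))
          (mst c₀.P.T e a s ρ 0) (ist c₀.P.T (e / (2000 * ρ)) s x n t) ∧
        Wt (ist c₀.P.T (e / (2000 * ρ)) s x n t)
          (‖Complex.exp (1 / 2 / x)‖ * Real.exp (-(t / 10))) ∧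
        Wt (mst c₀.P.T e a s ρ 0) (‖Complex.exp (1 / 2 / x)‖ * Real.exp (-(t / 10))) := by
  have e0 := hF.e0
  have A0 := hF.A0
  filter_upwards [ist_reg c₀ hF, mst_reg c₀ hF, inner_facts e0 A0 (ϑ := 1 / 10 ^ 7) (by norm_num),
    Ioo_mem_nhdsGT (show 0 < 2 * e / (12 * (|Lmin c₀ A| + 1)) by positivity)]
    with η f fo f1 hη ρ a x n s t h hn H hs ht
  have r0 := h.ρ0
  have η0 := hη.1
  have n0 : 0 < n := hn ▸ mul_pos (A0.trans_le h.lo) r0
  have h12 : 12 * n * t = 1 := by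
    rw [ht]
    field_simp
  have hL : Lmin c₀ A ≤ t := by
    have := n_le h hn (by positivity) hη.2
    rw [ht, le_div_iff₀ (by positivity)]
    nlinarith [le_abs_self (Lmin c₀ A)]
  have t1 := (lmin H hL).1
  have t0 : 0 < t := by linarith
  obtain ⟨-, n1, -, x1, z1, a1, -⟩ := f1 ρ a x n t h hn (by linarith) h12.le
  obtain ⟨g, r⟩ := f ρ a x n s t h hn H hs hL h12.le
  have g0 := g _ (mem_closedBall_self (by positivity))
  have e1 : a * P218F.pol ρ (s * 0) = a * ρ := by simp [P218F.pol]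
  have ro := fo ρ ⟨r0, h.ρ1⟩ H a s 0 ρ ρ x h.neg h.lo h.up hs ⟨by norm_num, by positivity⟩
    (by rw [sub_self, abs_zero]; positivity) (by rw [sub_self, abs_zero]; positivity)
    (by rw [e1]; linarith [h.xa, mul_pos η0 r0])
  rw [mst, if_pos h.neg]
  rw [← hn, ← ht] at ro ⊢
  have n2 : (n : ℂ) ≠ 0 := ofReal_ne_zero.2 n0.ne'
  have z2 : ‖((2 / n : ℝ) : ℂ) - cs s (Zi x n t)‖ + 6 * |t - t| ≤ t / 100000 := by
    rw [← cs_ofReal s, ← cs_sub, norm_cs hs, sub_self, abs_zero, mul_zero, add_zero,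
      show ((2 / n : ℝ) : ℂ) - Zi x n t = -((Zi x n t * n - 2) / n) by push_cast; field_simp; ring,
      norm_neg, norm_div, norm_real, Real.norm_eq_abs, abs_of_pos n0, div_le_iff₀ n0]
    linarith
  have hb := fun a' ha y hy => (rh_bd (g a' ha) (y := y) hy).2
  have m := r.move H hb (hw_le g0) (U := U0 (2 / n : ℝ) t) (E := E0 (2 / n : ℝ) t)
    (mem_ball_iff_norm.2 ((norm_U0.trans z2).trans_lt (by linarith)))
    (mem_closedBall_iff_norm.2 (norm_E0.trans z2))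
  refine ⟨Lnk.eqv_left (eqv_disc H (ro.endG H (ball_self t0) (ball_self t0)) m.2.1 ?_) m.symm,
    r.wt H hb (hw_le g0) (ball_self t0) ctr_one,
    ro.wt H (fun a' ha y hy => ((ro.geo a' ha).g3 y hy).2) ?_ (ball_self t0) ctr_one⟩
  · rw [e1, show (a : ℂ) * ρ - ahi x n t = -(ahi x n t + n) by
      rw [hn, abs_of_neg h.neg]; push_cast; ring, norm_neg]
    nlinarith
  · have x2 := (norm_near n0 x1).1
    have x3 : x ≠ 0 := norm_pos_iff.1 (by nlinarith)
    have k1 : ‖1 / 2 / x - ((-(1 / (2 * n)) : ℝ) : ℂ)‖ ≤ t / 50 := by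
      rw [show 1 / 2 / x - ((-(1 / (2 * n)) : ℝ) : ℂ) = (x + n) / (2 * n * x) by
        push_cast; field_simp; ring, norm_div, norm_mul, norm_mul, Complex.norm_ofNat, norm_real,
        Real.norm_eq_abs, abs_of_pos n0, div_le_iff₀ (by positivity)]
      nlinarith
    have k2 := (near_re k1).1
    have k3 : Real.sqrt (5 / (9 / 10 * (2 / n))) ≤ 1 := Real.sqrt_le_one.2 (by
      rw [div_le_one (by positivity), ← mul_div_assoc, le_div_iff₀ n0]
      linarith)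
    rw [ofReal_re] at k2 ⊢
    rw [Complex.norm_exp, ← Real.exp_add]
    refine (mul_le_of_le_one_left (Real.exp_pos _).le k3).trans (Real.exp_le_exp.2 ?_)
    rw [show 2 / n = 4 * (1 / (2 * n)) by field_simp; ring]
    linarith

/-- the final states -/
theorem ist_fin (c₀ : Cx ι) (hF : Fit c₀.M c₀.X e A κ) {L : ℝ} (hL : Lmin c₀ A ≤ L) :
    ∀ᶠ η in 𝓝[>] (0 : ℝ), ∀ (ρ a : ℝ) (x : ℂ) (n s : ℝ), Act e A η ρ a x → n = |a| * ρ →
      (c₀.sc ρ).Ok → (s = 1 ∨ s = -1) → 12 * n * L ≤ 1 ∧ 100 * L ≤ (Zi x n L).re ∧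
      Eqv (c₀.sc ρ) x (fin c₀.P.T (e / (2000 * ρ)) s x n L) (ist c₀.P.T (e / (2000 * ρ)) s x n L) ∧
        Wt (fin c₀.P.T (e / (2000 * ρ)) s x n L)
          (‖Complex.exp (1 / 2 / x)‖ * Real.exp (-(L / 10))) ∧
        EndG (c₀.sc ρ) x (pfx c₀.P.T (e / (2000 * ρ)) x n L) ∧
        Wt (pfx c₀.P.T (e / (2000 * ρ)) x n L) (‖Complex.exp (1 / 2 / x)‖ * Real.exp (6 * L)) ∧
        rng (pfx c₀.P.T (e / (2000 * ρ)) x n L).γ ⊆
          rng (fin c₀.P.T (e / (2000 * ρ)) s x n L).γ := by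
  have e0 := hF.e0
  have A0 := hF.A0
  filter_upwards [ist_reg c₀ hF, inner_facts e0 A0 (ϑ := 1 / 1000) (by norm_num),
    Ioo_mem_nhdsGT (show 0 < 2 * e / (100 * (|L| + 1)) by positivity)]
    with η f f1 hη ρ a x n s h hn H hs
  have r0 := h.ρ0
  have n0 : 0 < n := hn ▸ mul_pos (A0.trans_le h.lo) r0
  have t1 := (lmin H hL).1
  have t0 : 0 < L := by linarith
  have n1 : 100 * n * L ≤ 1 := by
    have := n_le h hn (by positivity) hη.2
    rw [abs_of_pos t0] at this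
    linarith
  have h12 : 12 * n * L ≤ 1 := by linarith [mul_pos n0 t0]
  obtain ⟨-, -, -, x1, -, -, l1, -⟩ := f1 ρ a x n L h hn (by linarith) h12
  obtain ⟨g, r⟩ := f ρ a x n s L h hn H hs hL h12
  obtain ⟨g', r'⟩ := f ρ a x n 1 L h hn H (.inl rfl) hL h12
  have s0 := r'.seg0 H
  have sd := fun W => side_of (W := W) hF h hn H (.inl rfl) hL h12 (by linarith) l1
  have up : 2 * (cs 1 (Zi x n L)).re ≤ c₀.M / ρ := r'.up
  simp only [cs_one] at g' sd up
  have g0 := g _ (mem_closedBall_self (by positivity))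
  have g1 := g' _ (mem_closedBall_self (by positivity))
  obtain ⟨z1, z2⟩ := g1.nZre
  have z3 : 100 * L ≤ (Zi x n L).re := le_of_mul_le_mul_right (by linarith) n0
  have d := r.diamond H g (by rwa [cs_re]) g1.t0.le
  have e1 : cs s (cs s (Zi x n L) - 22 * L) = Zi x n L - 22 * L := by
    rw [cs_sub, cs_cs hs, show (22 * L : ℂ) = ((22 * L : ℝ) : ℂ) by push_cast; rfl, cs_ofReal]
  rw [e1] at d
  have lg := fun a' ha => (g' a' ha).leg z3 (Or.inl (left_mem_segment ℝ _ _))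
  obtain ⟨i1, i2⟩ := abs_le.1 g1.Zi
  have zT := g1.ZT
  have P0 : 0 < e / (2000 * ρ) := by positivity
  generalize e / (2000 * ρ) = P at *
  have w1 : (Zi x n L - 22 * L).re = (Zi x n L).re - 22 * L := by simp
  have w2 : ‖Zi x n L - 22 * L‖ ≤ 2 * (Zi x n L).re := by
    have w3 : (Zi x n L - 22 * L).im = (Zi x n L).im := by simp
    linarith [norm_le_of (z := Zi x n L - 22 * L) (x := (Zi x n L).re) (y := (Zi x n L).re / 100)
      (by linarith) (by linarith) (by linarith) (by linarith)]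
  have w4 := w1 ▸ re_le_norm (Zi x n L - 22 * L)
  have nP : ‖(P : ℂ)‖ = P := by rw [norm_real, Real.norm_eq_abs, abs_of_pos P0]
  refine ⟨h12, z3, d, r.wt H (fun a' ha y hy => (rh_bd (g a' ha) (y := y) hy).2) (hw_le g0)
    (ball_self t0) pq_one, endG_pq H (sd _ ⟨by nlinarith, by nlinarith⟩ fun a' ha =>
      ⟨(lg a' ha).1, (lg a' ha).2.1⟩) r'.lo (le_trans (by linarith) up) (le_trans ?_ up)
      (le_trans ?_ up) (w2.trans up) fun a' ha => ⟨s0 a' ha, ?_⟩, fun a' ha => ?_, ?_⟩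
  · rw [norm_div, Complex.norm_ofNat]
    have := norm_add_le (2 * (P : ℂ)) (Zi x n L - 22 * L)
    rw [norm_mul, Complex.norm_ofNat, nP] at this
    linarith
  · rw [norm_div, Complex.norm_ofNat]
    have := norm_add_le (P : ℂ) (2 * (Zi x n L - 22 * L))
    rw [norm_mul, Complex.norm_ofNat, nP] at this
    linarith
  · have := ((g' a' ha).pre z3 (σ := 1 / 10) (σ' := 1) le_rfl (by norm_num) le_rfl).1
    rw [ofReal_one, one_mul, add_sub_cancel] at this
    exact this.thirds (by norm_num)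
  · simp only [pfx, pq_one]
    have k1 := wt_le x (u := ‖rh a' (Zi x n L - 22 * L)‖ / ‖Zi x n L - 22 * L‖) (k := 2) n0 t0
      zero_le_two (by
        rw [div_le_iff₀ (by linarith)]
        refine (lg a' ha).2.2.2.2.2.trans ?_
        have : 1 ≤ n * ‖Zi x n L - 22 * L‖ := by nlinarith
        nlinarith [mul_pos n0 t0])
    have k2 : 2 ≤ Real.exp (L / 2) := by linarith [Real.add_one_le_exp (L / 2)]
    rw [w1, show -(((Zi x n L).re - 22 * L) / 4) = -((Zi x n L).re / 4) + 11 / 2 * L by ring,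
      Real.exp_add, ← mul_assoc, show 6 * L = L / 2 + 11 / 2 * L by ring, Real.exp_add,
      ← mul_assoc]
    refine mul_le_mul_of_nonneg_right (k1.trans ?_) (Real.exp_pos _).le
    nlinarith [norm_nonneg (Complex.exp (1 / 2 / x))]
  · simp only [pfx, fin, rng_pq]
    rw [union_assoc, union_assoc, ← union_assoc (segment ℝ (P : ℂ) _), ← img, CatP.img_sg]
    exact subset_union_left.trans subset_union_left

end Vale.Agent.P218N.J
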