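import Vale.Agent.P218N.J.Cat
import Vale.Agent.P218N.J.Geo
import Vale.Agent.P218N.J.Apx

/-! The zero modes of a solution in the inner region. -/

open Filter Topology Metric Set Complex
open scoped ComplexConjugate

noncomputable section

namespace Vale.Agent.P218N.J

open Vale.Agent.P218N.End

namespace LegP

open ApxP

theorem ns_le (m : ℤ) : ‖(if m = 0 then 0 else 1 : ℂ)‖ ≤ 1 := by split_ifs <;> simp

theorem norm_ev_tr (f : WB) (t θ : ℝ) : ‖ev f t θ‖ ≤ ‖tr t f‖ := by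
  rw [← sumL_tr]; exact W.norm_sumL_le θ _

theorem ev_sub_le (f : WB) (t θ : ℝ) : ‖ev f t θ - f.c 0 t‖ ≤ ‖nsD (tr t f)‖ := by
  have e : nsD (tr t f) = tr t f - W.one1 0 (f.c 0 t) := by
    ext m
    rw [nsD, c_mult ns_le, W.c_sub, W.c_one1]
    split_ifs with h <;> simp [h]
  refine le_of_eq_of_le ?_ (W.norm_sumL_le θ _)
  rw [e, map_sub, sumL_tr, W.sumL_one1]
  simp

theorem ev_mult_le {σ : ℤ → ℂ} (h : ∀ m, ‖σ m‖ ≤ 1) (f : WB) (t θ : ℝ) :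
    ‖ev (mult σ f) t θ - σ 0 * f.c 0 t‖ ≤ ‖nsD (tr t f)‖ := by
  have h1 := ev_sub_le (mult σ f) t θ
  rw [c_mult h, tr_mult h] at h1
  refine h1.trans ((W.norm_le_of_le (C := 1) fun m => ?_).trans_eq (one_mul _))
  rw [nsD, c_mult ns_le, c_mult ns_le, c_mult h, smul_comm, norm_smul]
  exact mul_le_mul_of_nonneg_right (h m) (norm_nonneg _)

theorem nsN_le {j : EJ} {t ε : ℝ} (h : nsN j t ≤ ε) (θ : ℝ) :
    ‖ev j.y t θ - j.y2.c 0 t‖ ≤ ε ∧ ‖ev j.yt t θ‖ ≤ ε ∧ ‖ev j.ytt t θ‖ ≤ ε ∧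
      ‖ev j.op t θ - j.op.c 0 t‖ ≤ ε ∧ ‖ev j.oq t θ - j.oq.c 0 t‖ ≤ ε ∧ ‖ev j.pt t θ‖ ≤ ε := by
  unfold nsN at h
  have h1 := norm_nonneg (nsD (tr t j.y2))
  have h2 := norm_nonneg (nsD (tr t j.op))
  have h3 := norm_nonneg (nsD (tr t j.oq))
  have h4 := norm_nonneg (tr t j.pt)
  have k1 := ev_mult_le symb_y j.y2 t θ
  have k2 := ev_mult_le symb_yt j.y2 t θ
  have k3 := ev_mult_le symb_ytt j.y2 t θ
  simp only [br, Int.cast_zero, zero_mul, sub_zero, ne_eq, OfNat.ofNat_ne_zero, not_false_eq_true,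
    zero_pow, add_zero, ofReal_one, inv_one, one_mul, neg_zero] at k1 k2 k3
  exact ⟨le_trans k1 (by linarith), le_trans k2 (by linarith), le_trans k3 (by linarith),
    (ev_sub_le _ t θ).trans (by linarith), (ev_sub_le _ t θ).trans (by linarith),
    (norm_ev_tr _ t θ).trans (by linarith)⟩

theorem norm_c_le (f : WB) (t : ℝ) : ‖f.c 0 t‖ ≤ ‖f‖ :=
  ((f.c 0).norm_coe_le_norm t).trans (f.norm_c_le 0)

theorem InP_mono {W ε ε' n : ℝ} {a ζ : ℂ} (h : InP W ε n a ζ) (hε : ε ≤ ε') : InP W ε' n a ζ :=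
  ⟨h.n0, h.n1.trans hε, h.an.trans (mul_le_mul_of_nonneg_right hε h.n0.le), h.zn.trans hε, h.lo,
    h.hi, h.arg⟩

theorem InP_a {W ε n : ℝ} {a ζ : ℂ} (h : InP W ε n a ζ) (hε : ε ≤ 1 / 1000000) :
    ‖a‖ ≤ 1 / 1000 := by
  have h1 := norm_sub_le (a + n) n
  rw [add_sub_cancel_right, norm_real, Real.norm_of_nonneg h.n0.le] at h1
  nlinarith [h.an, h.n0, h.n1]

theorem slit_or {z : ℂ} (h : z ∈ slitPlane) : 0 ≤ z.re ∨ z.im ≠ 0 := h.imp_left le_of_lt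

theorem cont_Dc {X : Type} [TopologicalSpace X] {a : ℂ} {z y yt op : X → ℂ} (hz : Continuous z)
    (hy : Continuous y) (hyt : Continuous yt) (hop : Continuous op) (ha : ‖a‖ ≤ 1 / 1000)
    (h : ∀ x, 1000 ≤ ‖Om a (z x)‖ ∧ ‖y x‖ ≤ 1 / 100000 ∧ ‖yt x‖ ≤ 1 / 100000 ∧
      ‖op x‖ ≤ 1 / 100000) :
    Continuous fun x => Complex.sqrt (Dc a (z x) (y x) (yt x) (op x)) := by
  refine continuous_iff_continuousAt.2 fun x => cat_sqrt ?_
    (re_near (Dc_near ha (h x).1 (h x).2.1 (h x).2.2.1 (h x).2.2.2))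
  obtain ⟨h1, h2⟩ := ne_of_Om (h x).1
  unfold Dc
  unfold rh at *
  fun_prop (disch := simp [h1, h2])

/-- an estimate of the mean over the circle -/
theorem circ_le {F : ℝ → ℂ} (hF : Continuous F) {z : ℂ} {M : ℝ} (h : ∀ θ, ‖F θ - z‖ ≤ M) :
    ‖(∫ θ in (0 : ℝ)..2 * Real.pi, F θ) - 2 * Real.pi * z‖ ≤ 7 * M := by
  have h1 := intervalIntegral.norm_integral_le_of_norm_le_const (a := 0) (b := 2 * Real.pi)
    fun θ _ => h θ
  rw [intervalIntegral.integral_sub (hF.intervalIntegrable _ _) intervalIntegrable_const,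
    intervalIntegral.integral_const, sub_zero, abs_of_pos Real.two_pi_pos, real_smul, ofReal_mul,
    ofReal_ofNat] at h1
  nlinarith [(norm_nonneg _).trans (h 0), Real.pi_le_four, Real.pi_lt_d2]

theorem slit_lI {Y h : ℂ} (h1 : ‖h - 1‖ ≤ 1 / 10000) (h2 : 128000 ≤ ‖Y‖)
    (h3 : Y.re ≤ 3 / 4 * ‖Y‖) : 0 ≤ (2 * h ^ 2 - Y).re ∨ (2 * h ^ 2 - Y).im ≠ 0 := by
  by_contra hn
  rw [not_or, not_le, not_not] at hn
  have k1 : ‖h‖ ≤ 2 := by
    have := norm_add_le (h - 1) 1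
    rw [sub_add_cancel, norm_one] at this
    linarith
  have k2 : ‖2 * h ^ 2‖ ≤ 8 := by
    rw [norm_mul, norm_pow, Complex.norm_two]
    nlinarith [norm_nonneg h]
  have k3 := abs_le.1 ((abs_re_le_norm _).trans k2)
  have k4 := abs_le.1 ((abs_im_le_norm _).trans k2)
  rw [sub_re] at hn
  rw [sub_im] at hn
  have k5 := norm_le_of (z := Y) (x := 3 / 4 * ‖Y‖) (y := 8) (by linarith) h3 (by linarith)
    (by linarith)
  linarith

end LegP

open LegP ApxP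

/-- `Y, h, q` are built from the zero modes; the equation is evaluated at one angle
(`Path.ev_Ecyl`, `apx_res`), the area by `apx_lag`. -/
theorem leg_of_jet (W ε : ℝ) (hε : 0 < ε) : ∃ ε₁ > 0, ∀ (c K T n len t₀ : ℝ) (a Z : ℂ) (γ : Path)
    (j : EJ), 0 < c → 1000 ≤ K → 0 < T → AdmP c K T a γ → γ.IsCyl a j → ‖j‖ ≤ 1 / 100000 →
    t₀ ≤ 1 → (∀ t ∈ Icc t₀ 1, ‖γ.g t‖ / 100 ≤ (γ.g t).re ∧ InP W ε₁ n a (γ.ze t) ∧
      300000 ≤ ‖Om a (γ.ze t)‖ ∧ nsN j t ≤ ε₁) → ∫ t in t₀..1, ‖γ.g t‖ ≤ len →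
    Leg t₀ 1 len ε γ.g (fun t => γ.ze t - Z) (fun t => YI n a (γ.ze t) (j.y2.c 0 t))
        (fun t => hI n a (γ.ze t) (j.y2.c 0 t) (j.op.c 0 t))
        (fun t => qI n a (γ.ze t) (j.y2.c 0 t) (j.op.c 0 t) (j.oq.c 0 t)) ∧
      ‖tailF a γ j t₀ - 2 * Real.pi * (Real.sqrt 2 / 4) * (n * Complex.exp (-Z / 4)) *
        ∫ t in t₀..1, γ.g t * (Complex.exp (-(γ.ze t - Z) / 4) *
          lI (YI n a (γ.ze t) (j.y2.c 0 t)) (hI n a (γ.ze t) (j.y2.c 0 t) (j.op.c 0 t)))‖ ≤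
        ε * len * n * Real.exp (-((γ.ze t₀).re / 4)) := by
  obtain ⟨εr, hr0, hr⟩ := apx_res W ε hε
  obtain ⟨εl, hl0, hl⟩ := apx_lag W (ε / 7) (by positivity)
  refine ⟨min (min εr εl) (1 / 1000000), by positivity, ?_⟩
  intro c K T n len t₀ a Z γ j hc hK hT h hj hn ht hP hlen
  have m1 : min (min εr εl) (1 / 1000000) ≤ εr := (min_le_left _ _).trans (min_le_left _ _)
  have m2 : min (min εr εl) (1 / 1000000) ≤ εl := (min_le_left _ _).trans (min_le_right _ _)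
  have m3 : min (min εr εl) (1 / 1000000) ≤ 1 / 1000000 := min_le_right _ _
  have hK0 : 0 < K := by linarith
  have hO : ∀ t, 1000 ≤ ‖Om a (γ.ze t)‖ := fun t => hK.trans (h.big t)
  have hz : ∀ t, γ.ze t ≠ 0 := fun t => (ne_of_Om (hO t)).1
  have hρ : ∀ t, rh a (γ.ze t) ≠ 0 := fun t => (ne_of_Om (hO t)).2
  have y0 : ∀ t, ‖j.y2.c 0 t‖ ≤ 1 / 100000 := fun t =>
    (norm_c_le _ t).trans (j.norm_y2_le.trans hn)
  have o0 : ∀ t, ‖j.op.c 0 t‖ ≤ 1 / 100000 := fun t =>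
    (norm_c_le _ t).trans (j.norm_op_le.trans hn)
  have q0 : ∀ t, ‖j.oq.c 0 t‖ ≤ 1 / 100000 := fun t =>
    (norm_c_le _ t).trans (j.norm_oq_le.trans hn)
  have io := h.io_apply hc hK0 hT
  have ey : j.y.c 0 = j.y2.c 0 := by rw [j.c_y]; simp [br]
  have dy : ∀ t, HasDerivAt (j.y2.c 0) (γ.g t * ((Om a (γ.ze t))⁻¹ * j.op.c 0 t)) t := fun t => by
    rw [← ey, ← io]
    exact (hj.1 0).1 t
  have dP : ∀ t, HasDerivAt (fun t => (Om a (γ.ze t))⁻¹ * j.op.c 0 t)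
      (γ.g t * ((Om a (γ.ze t))⁻¹ * j.oq.c 0 t)) t := fun t => by
    simp only [← io]
    exact (hj.1 0).2.1 t
  have dρ : ∀ t, HasDerivAt (fun t => rh a (γ.ze t)) (a * γ.g t) t := fun t =>
    (((h.ok.der t).sub_const 2).const_mul a).const_add 2
  have dY : ∀ t, HasDerivAt (fun t => YI n a (γ.ze t) (j.y2.c 0 t))
      (γ.g t * hI n a (γ.ze t) (j.y2.c 0 t) (j.op.c 0 t)) t := fun t => by
    refine (((dρ t).fun_mul (((dy t).const_add 1).fun_pow 2)).fun_neg.div_const (n : ℂ)).congr_deriv ?_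
    have := hz t
    have := hρ t
    rw [hI, ← mul_div_assoc, Om]
    congr 1
    push_cast
    field_simp
  have dh : ∀ t, HasDerivAt (fun t => hI n a (γ.ze t) (j.y2.c 0 t) (j.op.c 0 t))
      (γ.g t * qI n a (γ.ze t) (j.y2.c 0 t) (j.op.c 0 t) (j.oq.c 0 t)) t := fun t => by
    have e : (fun t => hI n a (γ.ze t) (j.y2.c 0 t) (j.op.c 0 t)) = fun t =>
        -(a * (1 + j.y2.c 0 t) ^ 2 + 2 * (1 + j.y2.c 0 t) *
          (rh a (γ.ze t) * ((Om a (γ.ze t))⁻¹ * j.op.c 0 t))) / n := funext fun t => by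
      have := hz t
      have := hρ t
      rw [hI, Om]
      congr 3
      field_simp
    have h1 := (dy t).const_add 1
    rw [e]
    refine ((((h1.fun_pow 2).const_mul a).fun_add ((h1.const_mul 2).fun_mul
      ((dρ t).fun_mul (dP t)))).fun_neg.div_const (n : ℂ)).congr_deriv ?_
    have := hz t
    have := hρ t
    rw [qI, ← mul_div_assoc, Om]
    congr 1
    push_cast
    field_simp
    ring
  have hs := fun t (ht : t ∈ Icc t₀ 1) => (hP t ht).2.1.sizes m3 (y0 t) (o0 t)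
  have hfar : ∀ t ∈ Icc t₀ 1, 128000 ≤ ‖YI n a (γ.ze t) (j.y2.c 0 t)‖ := fun t ht => by
    have e5 := norm_sub_le (YI n a (γ.ze t) (j.y2.c 0 t) + Om a (γ.ze t) / 2)
      (YI n a (γ.ze t) (j.y2.c 0 t))
    rw [add_sub_cancel_left, norm_div, Complex.norm_two] at e5
    linarith [(hs t ht).2.1, (hP t ht).2.2.1]
  have cz := γ.ze.continuous
  have cg := γ.g.continuous
  have cy := (j.y2.c 0).continuous
  have co := (j.op.c 0).continuous
  have cq := (j.oq.c 0).continuous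
  refine ⟨⟨ht, cg, Continuous.continuousOn ?_, fun t => (h.ok.der t).sub_const Z, dY, dh,
    fun t ht => (hP t ht).1, hlen, fun t ht => (hs t ht).1, fun t ht => ⟨hfar t ht, (hs t ht).2.2⟩,
    fun t ht => ?_⟩, ?_⟩
  · unfold qI Om
    unfold rh at *
    fun_prop (disch := intro t; simp [hz t, hρ t])
  · obtain ⟨k1, k2, k3, k4, k5, k6⟩ := nsN_le ((hP t ht).2.2.2.trans m1) 0
    refine hr n a _ _ _ _ _ _ _ _ _ _ (InP_mono (hP t ht).2.1 m1) (y0 t) (o0 t) (q0 t) k1 k2 k3 k4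
      k5 k6 ?_
    have E := γ.ev_Ecyl a j t 0
    rw [hj.2, ev_zero, h.binv_ze hc hT, io] at E
    rw [← h.binv_rho hK0]
    exact E.symm
  have P1 := (hP 1 (right_mem_Icc.2 ht)).2.1
  have n0 := P1.n0
  have cF : Continuous fun p : ℝ × ℝ =>
      lagCyl a (γ.ze p.1) (ev j.y p.1 p.2) (ev j.yt p.1 p.2) (ev j.op p.1 p.2) := by
    have c1 := cont_Dc (cz.comp continuous_fst) (continuous_ev j.y) (continuous_ev j.yt)
      (continuous_ev j.op) (InP_a P1 m3) fun p => ⟨hO _,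
        (norm_ev_le _ _ _).trans (j.norm_y_le.trans hn),
        (norm_ev_le _ _ _).trans (j.norm_yt_le.trans hn),
        (norm_ev_le _ _ _).trans (j.norm_op_le.trans hn)⟩
    have c2 : Continuous fun p : ℝ × ℝ => Complex.sqrt (γ.ze p.1 * rh a (γ.ze p.1)) :=
      continuous_iff_continuousAt.2 fun p => cat_sqrt (by unfold rh; fun_prop)
        (slit_or (h.slit hc hK0 p.1))
    refine ((c2.div (by fun_prop) fun p => mul_ne_zero two_ne_zero (hz _)).mul c1).mul ?_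
    unfold rh
    fun_prop
  have c3 := intervalIntegral.continuous_parametric_intervalIntegral_of_continuous'
    (μ := MeasureTheory.volume) (f := fun t θ =>
      lagCyl a (γ.ze t) (ev j.y t θ) (ev j.yt t θ) (ev j.op t θ)) cF 0 (2 * Real.pi)
  have c4 : ContinuousOn (fun t => lI (YI n a (γ.ze t) (j.y2.c 0 t))
      (hI n a (γ.ze t) (j.y2.c 0 t) (j.op.c 0 t))) (uIcc t₀ 1) := fun t h1 => by
    rw [uIcc_of_le ht] at h1
    exact (cat_sqrt ((((dh t).continuousAt.pow 2).const_mul 2).sub (dY t).continuousAt)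
      (slit_lI (hs t h1).1 (hfar t h1) (hs t h1).2.2)).continuousWithinAt
  have c5 : Continuous fun t => Complex.exp (-(γ.ze t - Z) / 4) := by fun_prop
  rw [tailF, ← intervalIntegral.integral_const_mul, ← intervalIntegral.integral_sub
    ((cg.fun_mul c3).intervalIntegrable _ _) (ContinuousOn.intervalIntegrable
      (continuousOn_const.fun_mul (cg.continuousOn.fun_mul (c5.continuousOn.fun_mul c4))))]
  refine (intervalIntegral.norm_integral_le_of_norm_le (g := fun t =>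
    ε * n * Real.exp (-((γ.ze t₀).re / 4)) * ‖γ.g t‖) ht (Eventually.of_forall fun t h1 => ?_)
    (Continuous.intervalIntegrable (by fun_prop) _ _)).trans ?_
  · have h2 := Ioc_subset_Icc_self h1
    have h3 := circ_le (cF.comp (Continuous.prodMk_right t)) fun θ =>
      have k := nsN_le ((hP t h2).2.2.2.trans m2) θ
      hl n a _ _ _ _ _ _ (InP_mono (hP t h2).2.1 m2) (y0 t) (o0 t) k.1 k.2.1 k.2.2.2.1
    have h4 : Real.exp (-((γ.ze t).re / 4)) ≤ Real.exp (-((γ.ze t₀).re / 4)) :=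
      Real.exp_le_exp.2 (by linarith [h.mono_re hc h2.1])
    have h5 : Complex.exp (-γ.ze t / 4) =
        Complex.exp (-Z / 4) * Complex.exp (-(γ.ze t - Z) / 4) := by
      rw [← Complex.exp_add]
      congr 1
      ring
    rw [h5] at h3
    refine le_of_eq_of_le ?_ ((mul_le_mul_of_nonneg_right (h3.trans ?_) (norm_nonneg (γ.g t))))
    · rw [← norm_mul]
      congr 1
      simp only [Function.comp_apply]
      ring
    · nlinarith [mul_le_mul_of_nonneg_left h4 (mul_pos hε n0).le]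
  · rw [intervalIntegral.integral_const_mul]
    refine (mul_le_mul_of_nonneg_left hlen (by positivity)).trans_eq (by ring)

theorem flux_apx (W ε : ℝ) (hε : 0 < ε) : ∃ ε₁ > 0, ∀ (n d : ℝ) (a da : ℂ) (γ : Path)
    (j dj : EJ), InP W ε₁ n a (γ.ze 1) → ‖j‖ ≤ 1 / 100000 → j.y2.c 0 1 = 0 → nsN j 1 ≤ ε₁ →
    ‖tr 1 dj.y2‖ ≤ d →
    ‖γ.FluxCyl a j 1 da dj.y - 2 * Real.pi * (Real.sqrt 2 / 4) * (n * Complex.exp (-γ.ze 1 / 4)) *
      (2 * hI n a (γ.ze 1) 0 (j.op.c 0 1) / lI (YI n a (γ.ze 1) 0) (hI n a (γ.ze 1) 0 (j.op.c 0 1)) *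
        (-((γ.ze 1 - 2) * da) / n))‖ ≤
      7 * n * Real.exp (-((γ.ze 1).re / 4)) * (ε * ‖(γ.ze 1 - 2) * da / n‖ + 10 * W * d) := by
  obtain ⟨εf, hf0, hf⟩ := apx_flux W ε hε
  refine ⟨min εf (1 / 1000000), by positivity, ?_⟩
  intro n d a da γ j dj hP hn h0 hs hd
  have ha := InP_a hP (min_le_right _ _)
  have hb : ∀ θ, 1000 ≤ ‖Om a (γ.ze 1)‖ ∧ ‖ev j.y 1 θ‖ ≤ 1 / 100000 ∧
      ‖ev j.yt 1 θ‖ ≤ 1 / 100000 ∧ ‖ev j.op 1 θ‖ ≤ 1 / 100000 := fun θ => ⟨hP.lo,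
    (norm_ev_le _ _ _).trans (j.norm_y_le.trans hn),
    (norm_ev_le _ _ _).trans (j.norm_yt_le.trans hn),
    (norm_ev_le _ _ _).trans (j.norm_op_le.trans hn)⟩
  have c1 := cont_Dc (z := fun _ : ℝ => γ.ze 1) continuous_const (by fun_prop) (by fun_prop)
    (by fun_prop) ha hb
  have cF : Continuous fun θ =>
      fluxCyl a (γ.ze 1) (ev j.y 1 θ) (ev j.yt 1 θ) (ev j.op 1 θ) da (ev dj.y 1 θ) := by
    refine ((Continuous.div (by fun_prop) c1 fun θ e => ?_).mul (by fun_prop)).mul (by fun_prop)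
    have := (norm_sqrt_near (Dc_near ha (hb θ).1 (hb θ).2.1 (hb θ).2.2.1 (hb θ).2.2.2)).1
    rw [e, norm_zero] at this
    norm_num at this
  have W0 : 0 ≤ W := (norm_nonneg _).trans hP.hi
  have n0 := hP.n0
  have h3 := circ_le cF (M := n * Real.exp (-((γ.ze 1).re / 4)) *
    (ε * ‖(γ.ze 1 - 2) * da / n‖ + 10 * W * d)) fun θ => by
      obtain ⟨k1, k2, -, k4, -⟩ := nsN_le (hs.trans (min_le_left _ _)) θ
      rw [h0, sub_zero] at k1
      refine (hf n a _ _ _ _ _ da _ (InP_mono hP (min_le_left _ _))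
        ((norm_c_le _ 1).trans (j.norm_op_le.trans hn)) k1 k2 k4).trans ?_
      have k5 : ‖ev dj.y 1 θ‖ ≤ d := by
        refine (norm_ev_tr _ _ _).trans (le_trans ?_ hd)
        rw [EJ.y, tr_mult symb_y]
        exact (norm_mult_apply_le symb_y _).trans_eq (one_mul _)
      gcongr
  exact le_of_eq_of_le (congrArg norm (by rw [Path.FluxCyl]; ring)) (h3.trans_eq (by ring))

/-- the two legs, for both signs (`GeoI.leg`; `Y = (-a / n) (ζ - (2 - 2 / a)) (1 + y)²`) -/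
theorem arm_geo {s K P n L : ℝ} {a Z ζ y : ℂ} (hs : s = 1 ∨ s = -1)
    (h : GeoI K P n (cs s a) (cs s Z) L) (hL : 10 ^ 7 ≤ L) (hZ : 100 * L ≤ Z.re)
    (ha : ‖a + n‖ ≤ n / 10000)
    (hζ : ζ ∈ segment ℝ (Z - 22 * L) (Us s Z L) ∪ segment ℝ (Us s Z L) (Es s Z L))
    (hy : ‖y‖ ≤ 1 / 100000) : L ≤ ‖Om a ζ‖ ∧ ‖Om a ζ‖ ≤ 100 * L ∧
      -(Om a ζ).re ≤ ‖Om a ζ‖ / 2 ∧ ‖ζ - Z‖ ≤ 22 * L ∧ ‖YI n a ζ y - (ζ - Z)‖ ≤ L / 30 ∧
      YI n a ζ y ∈ Stokes.DD s := by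
  have seg : ∀ p q : ℂ, ζ ∈ segment ℝ p q → cs s ζ ∈ segment ℝ (cs s p) (cs s q) := fun p q h =>
    (convex_cs s (convex_segment _ _)).segment_subset (left_mem_segment _ _ _)
      (right_mem_segment _ _ _) h
  have e0 : cs s (Z - 22 * L) = cs s Z - 22 * L := by
    rw [cs_sub, show (22 * L : ℂ) = ((22 * L : ℝ) : ℂ) by push_cast; ring, cs_ofReal]
  have hζ' : cs s ζ ∈ segment ℝ (cs s Z - 22 * L) (U0 (cs s Z) L) ∪
      segment ℝ (U0 (cs s Z) L) (E0 (cs s Z) L) := by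
    refine hζ.imp (fun h1 => ?_) fun h1 => ?_
    · simpa only [e0, Us, cs_cs hs] using seg _ _ h1
    · simpa only [Us, Es, cs_cs hs] using seg _ _ h1
  obtain ⟨k1, k2, k3, k4, k5, -⟩ := h.leg hZ hζ'
  rw [← cs_Om hs, norm_cs hs] at k1 k2 k3
  rw [← cs_sub, norm_cs hs] at k4
  rw [← cs_sub] at k5
  have n0 := h.n0
  have hn : (n : ℂ) ≠ 0 := ofReal_ne_zero.2 n0.ne'
  have a0 : a ≠ 0 := fun e => h.a_ne (by rw [e]; exact cs_ofReal s 0)
  have aZ : ‖2 - 2 / a - Z‖ ≤ L / 50 := by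
    have e2 : cs s 2 = 2 := cs_ofReal s 2
    rw [← norm_cs hs, cs_sub, cs_sub, cs_div hs, e2]
    exact h.aZ
  have k6 : ‖YI n a ζ y - (ζ - Z)‖ ≤ L / 30 := by
    have e : YI n a ζ y - (ζ - Z) = (ζ - Z - (2 - 2 / a - Z)) *
        ((1 + y) ^ 2 - 1 - (a + n) / n * (1 + y) ^ 2) - (2 - 2 / a - Z) := by
      rw [YI, rh]
      field_simp
      ring
    have b1 : ‖(a + n) / n‖ ≤ 1 / 10000 := by
      rw [norm_div, norm_real, Real.norm_of_nonneg n0.le, div_le_iff₀ n0]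
      linarith
    have b2 : ‖(1 + y) ^ 2‖ ≤ 2 := by
      rw [norm_pow]
      nlinarith [norm_one_add hy, norm_nonneg (1 + y)]
    rw [e]
    refine (norm_sub_le_of_le (norm_mul_le_of_le (norm_sub_le_of_le k4 aZ)
      (norm_sub_le_of_le (norm_sq_sub hy) (norm_mul_le_of_le b1 b2))) aZ).trans ?_
    linarith
  refine ⟨k1, k2, k3, k4, k6, Or.inr ?_⟩
  obtain ⟨b1, b2, b3, b4⟩ := near_re k6
  change L ≤ s * (ζ - Z).im - (ζ - Z).re at k5
  rcases hs with rfl | rfl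
  · exact lt_abs.2 (Or.inl (by linarith))
  · exact lt_abs.2 (Or.inr (by linarith))

/-- One arm of the final contour (`Us - (Z - 22 L) = (20 + 4 s i) L`,
`Es - Us = (5/2 - 5/2 s i) L`, `Es - Z = (1/2 + 3/2 s i) L`). -/
theorem arm (L ε : ℝ) (hL : 10 ^ 7 ≤ L) (hε : 0 < ε) : ∃ ε₁ > 0, ∀ (s c K T P n : ℝ) (a Z : ℂ)
    (γ : Path) (j : EJ), (s = 1 ∨ s = -1) → 0 < c → 0 < T →
    γ = pq T P (Z - 22 * L) (Us s Z L) (Es s Z L) → AdmP c K T a γ →
    GeoI K P n (cs s a) (cs s Z) L → n ≤ ε₁ → ‖a + n‖ ≤ ε₁ * n → ‖Z * n - 2‖ ≤ ε₁ →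
    γ.IsCyl a j → ‖j‖ ≤ 1 / 100000 → (∀ t ∈ Icc (2 / 3 : ℝ) 1, nsN j t ≤ ε₁) →
    ∃ J : ℂ, (∀ Y₀ h₀ : ℂ, ‖Y₀ + R0v a γ j (2 / 3) / n‖ ≤ ε → ‖h₀ + R1v a γ j (2 / 3) / n‖ ≤ ε →
        Arm s L ε Y₀ h₀ J) ∧
      ‖tailF a γ j (2 / 3) - 2 * Real.pi * (Real.sqrt 2 / 4) * (n * Complex.exp (-Z / 4)) * J‖ ≤
        ε * ‖n * Complex.exp (-Z / 4)‖ := by
  have L0 : 0 < L := by linarith
  have E0 := Real.exp_pos (22 * L / 4)
  obtain ⟨ε', e0, e1, e2⟩ : ∃ ε' > 0, ε' ≤ ε ∧ ε' * (25 * L * Real.exp (22 * L / 4)) ≤ ε :=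
    ⟨min ε (ε / (25 * L * Real.exp (22 * L / 4))), by positivity, min_le_left _ _,
      (le_div_iff₀ (by positivity)).1 (min_le_right _ _)⟩
  obtain ⟨ε₂, p2, hleg⟩ := leg_of_jet (100 * L) ε' e0
  obtain ⟨ε₁, p1, f1, f2⟩ : ∃ ε₁ > 0, ε₁ * (22 * L + 1) ≤ ε₂ ∧ ε₁ * (100 * L) ≤ 1 :=
    ⟨min (ε₂ / (22 * L + 1)) (1 / (100 * L)), by positivity,
      (le_div_iff₀ (by positivity)).1 (min_le_left _ _),
      (le_div_iff₀ (by positivity)).1 (min_le_right _ _)⟩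
  have f3 : ε₁ ≤ ε₂ := by nlinarith
  have f4 : ε₁ ≤ 1 / 10000 := by nlinarith
  refine ⟨ε₁, p1, ?_⟩
  intro s c K T P n a Z γ j hs hc hT hγ h hG hn ha hZ hj hj1 hns
  have n0 := hG.n0
  have hZ' : 100 * L ≤ Z.re := by
    have h1 := hG.nZre.1
    rw [cs_re] at h1
    refine le_of_mul_le_mul_right ?_ n0
    nlinarith
  have ha' : ‖a + n‖ ≤ n / 10000 := ha.trans (by nlinarith)
  have s2 : s * s = 1 := by rcases hs with rfl | rfl <;> norm_num
  have r1 : (Us s Z L - (Z - 22 * L)).re = 20 * L := by simp [Us, cs, U0_re]; ring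
  have i1 : (Us s Z L - (Z - 22 * L)).im = s * (4 * L) := by
    simp [Us, cs, U0_im]; linear_combination Z.im * s2
  have r2 : (Es s Z L - Us s Z L).re = 5 / 2 * L := by simp [Us, Es, cs, U0_re, E0_re]; ring
  have i2 : (Es s Z L - Us s Z L).im = s * (-(5 / 2 * L)) := by
    simp [Us, Es, cs, U0_im, E0_im]; ring
  have r3 : (Es s Z L - Z).re = L / 2 := by simp [Es, cs, E0_re]; ring
  have nm : ∀ (z : ℂ) (x y b : ℝ), z.re = x → z.im = s * y → 0 ≤ b → x ^ 2 + y ^ 2 ≤ b ^ 2 →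
      ‖z‖ ≤ b := fun z x y b h1 h2 h3 h4 => by
    refine le_of_sq_le_sq ?_ h3
    rw [Complex.sq_norm, normSq_apply, h1, h2]
    linear_combination h4 + y ^ 2 * s2
  have l1 := nm _ _ _ (21 * L) r1 i1 (by positivity) (by nlinarith [sq_nonneg L])
  have l2 := nm _ _ _ (4 * L) r2 i2 (by positivity) (by nlinarith)
  have key : ∀ t ∈ Icc (2 / 3 : ℝ) 1, ‖γ.g t‖ / 100 ≤ (γ.g t).re ∧ γ.ze t ∈
      segment ℝ (Z - 22 * L) (Us s Z L) ∪ segment ℝ (Us s Z L) (Es s Z L) := fun t ht => by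
    obtain ⟨g1, g2⟩ := pq_right (T := T) (P := P) (q₁ := Z - 22 * L) (q₂ := Us s Z L)
      (q₃ := Es s Z L) (t := t) (by linarith [ht.1])
    have dir : ∀ (b x : ℝ) (z : ℂ), 0 ≤ b → z.re = x → ‖z‖ ≤ 100 * x →
        ‖2 * (b * z)‖ / 100 ≤ (2 * (b * z)).re := fun b x z h1 h2 h3 => by
      rw [← mul_assoc, show (2 * b : ℂ) = ((2 * b : ℝ) : ℂ) by push_cast; ring, re_ofReal_mul,
        norm_mul, norm_real, Real.norm_of_nonneg (by positivity), h2]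
      nlinarith
    rw [hγ, g1, g2]
    rcases le_total (2 * t - 1) (2 / 3) with h1 | h1
    · rw [pg_g2 (by linarith [ht.1]) h1, pg_ze2 (by linarith [ht.1]) h1]
      exact ⟨dir _ _ _ (PolyP.sp_nonneg _ _) r1 (by linarith),
        Or.inl (mem_seg_iff.2 ⟨_, PolyP.ps_mem _ _, rfl⟩)⟩
    · rw [pg_g3 h1, pg_ze3 h1]
      exact ⟨dir _ _ _ (PolyP.sp_nonneg _ _) r2 (by linarith),
        Or.inr (mem_seg_iff.2 ⟨_, PolyP.ps_mem _ _, rfl⟩)⟩
  have geo := fun t (ht : t ∈ Icc (2 / 3 : ℝ) 1) => arm_geo hs hG hL hZ' ha' (key t ht).2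
    ((norm_c_le _ t).trans (j.norm_y2_le.trans hj1))
  have hlen : ∫ t in (2 / 3 : ℝ)..1, ‖γ.g t‖ ≤ 25 * L := by
    rw [intervalIntegral.integral_congr (g := fun t => 2 *
      ‖(pg P (Z - 22 * L) (Us s Z L) (Es s Z L)).g (2 * t - 1)‖) fun t ht => ?_,
      intervalIntegral.integral_const_mul, ← smul_eq_mul,
      intervalIntegral.smul_integral_comp_mul_sub
        (fun t => ‖(pg P (Z - 22 * L) (Us s Z L) (Es s Z L)).g t‖),
      show (2 : ℝ) * (2 / 3) - 1 = 1 / 3 by norm_num, show (2 : ℝ) * 1 - 1 = 1 by norm_num, pg_len]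
    · linarith
    · rw [uIcc_of_le (by norm_num)] at ht
      simp only [hγ, (pq_right (by linarith [ht.1] : 1 / 2 ≤ t)).2, norm_mul, Complex.norm_two]
  obtain ⟨lg, ar⟩ := hleg c K T n (25 * L) (2 / 3) a Z γ j hc hG.K0 hT h hj hj1 (by norm_num)
    (fun t ht => by
      obtain ⟨k1, k2, k3, k4, -⟩ := geo t ht
      refine ⟨(key t ht).1, ⟨n0, hn.trans f3, ha.trans (by gcongr), ?_, by linarith, k2, k3⟩,
        by linarith, (hns t ht).trans f3⟩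
      rw [show γ.ze t * n - 2 = (γ.ze t - Z) * n + (Z * n - 2) by ring]
      refine (norm_add_le_of_le (norm_mul_le_of_le (r₂ := ε₁) k4 ?_) hZ).trans (by linarith)
      rwa [norm_real, Real.norm_of_nonneg n0.le]) hlen
  have z0 : γ.ze (2 / 3) = Z - 22 * L := by rw [hγ, pq_two_thirds]
  have z1 : γ.ze 1 = Es s Z L := by rw [hγ, pq_one]
  refine ⟨_, fun Y₀ h₀ b1 b2 => ⟨_, _, _, _, _, _, _,
    { lg with res := fun t ht => (lg.res t ht).trans e1 }, fun t ht => (geo t ht).2.2.2.2.2, ?_, ?_,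
    ?_, ?_, ?_, ?_, rfl⟩, ar.trans ?_⟩
  · rw [z0]
    push_cast
    ring
  · rw [z1, r3]
  · have := (near_re (geo 1 (by norm_num)).2.2.2.2.1).1
    rw [z1, r3] at this
    rw [z1]
    linarith
  · obtain ⟨-, -, -, k4, k5, -⟩ := geo 1 (by norm_num)
    have := norm_add_le_of_le k5 k4
    rw [sub_add_cancel] at this
    linarith
  · rwa [YI, neg_div, sub_neg_eq_add]
  · rwa [hI, neg_div, sub_neg_eq_add]
  · have e3 : Real.exp (-((γ.ze (2 / 3)).re / 4)) =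
        Real.exp (22 * L / 4) * Real.exp (-Z / 4).re := by
      rw [← Real.exp_add, z0]
      congr 1
      simp
      ring
    rw [e3, norm_mul, norm_real, Real.norm_of_nonneg n0.le, Complex.norm_exp]
    exact le_of_eq_of_le (by ring)
      (mul_le_mul_of_nonneg_right e2 (mul_pos n0 (Real.exp_pos (-Z / 4).re)).le)

end Vale.Agent.P218N.J
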