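import Vale.Agent.P218N.J.Sw1

/-! The switch of one end: reduction of each final state to the symmetric family. -/

open Filter Topology Metric Set Complex
open scoped ComplexConjugate

noncomputable section

namespace Vale.Agent.P218N.J

open Vale.Agent.P218N.End

set_option linter.unusedSectionVars false

variable {ι : Type} [Fintype ι] [DecidableEq ι]

namespace Sw

variable {c : Cx ι} {x : ℂ} {n L P δ μ Rc : ℝ} {ξ : ι → ℂ} {σ : ι → ES} {i : ι} {Wk : ι → ℝ}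

/-- the non-symmetric part of the fast data is removed -/
theorem remove (h : Sw c x n L P δ μ) (hi : i ∈ c.P.I)
    (hA : AllG c Rc ξ (Function.update σ i (pfx c.P.T P x n L)))
    (hW : ∀ k ∈ c.P.I, k ≠ i → Wt (σ k) (Wk k)) {ω : WD} (h1 : ‖ω‖ ≤ δ / 4) (h2 : ‖nsD ω‖ ≤ c.ε)
    (e2 : 4 * c.ε < δ) {o' o'' : Out ι}
    (s' : c.Sol (cfw Rc (Function.update σ i (pfx c.P.T P x n L)) i ω) ξ o')
    (f' : Half c.P (ahs (Function.update σ i (pfx c.P.T P x n L)))
      (rds (Function.update σ i (pfx c.P.T P x n L))) o')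
    (s'' : c.Sol (cfw Rc (Function.update σ i (pfx c.P.T P x n L)) i (W.one1 0 (ω.c 0))) ξ o'')
    (f'' : Half c.P (ahs (Function.update σ i (pfx c.P.T P x n L)))
      (rds (Function.update σ i (pfx c.P.T P x n L))) o'') :
    ‖o'.v - o''.v‖ ≤ 2 * c.C₁ * c.ε / δ * (‖Complex.exp (1 / 2 / x)‖ * Real.exp (6 * L) +
        ∑ k ∈ c.P.I.erase i, Wk k + Real.exp (-(Rc / 5))) ∧
      ‖o'.a i - o''.a i‖ ≤ n ^ 2 * (L * c.ε / δ) / 100 ∧ ‖o'.j i - o''.j i‖ ≤ c.ε / δ / 100 := by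
  have H := h.ok
  have δ0 := h.δ0
  have ε0 := H.ε0
  have r2 : 2 < δ / (2 * c.ε) := by rw [lt_div_iff₀ (by positivity)]; linarith
  have hp : ‖ω.c 0‖ ≤ δ / 4 := (W.norm_c_le ω 0).trans h1
  have hb : ∀ q ∈ ball (0 : ℂ) (δ / (2 * c.ε)), ‖W.one1 0 (ω.c 0) + q • nsD ω‖ ≤ δ := by
    intro q hq
    refine (norm_add_le _ _).trans ?_
    rw [W.norm_one1, norm_smul]
    have k1 := mul_le_mul (mem_ball_zero_iff.1 hq).le h2 (norm_nonneg _) (by positivity)
    have e : δ / (2 * c.ε) * c.ε = δ / 2 := by field_simp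
    linarith
  obtain ⟨o, hol, hs, hd⟩ := fam H hA hi (r := δ / (2 * c.ε)) (by positivity)
    (ω := fun q => W.one1 0 (ω.c 0) + q • nsD ω) (by fun_prop) (fun p hp => h.small (hb p hp))
    (W := Wk) fun k hk hki => by rw [Function.update_of_ne hki]; exact hW k hk hki
  have m0 : (0 : ℂ) ∈ ball (0 : ℂ) (δ / (2 * c.ε)) := mem_ball_self (by linarith)
  have m1 : (1 : ℂ) ∈ ball (0 : ℂ) (δ / (2 * c.ε)) := by
    rw [mem_ball_zero_iff, norm_one]; linarith
  have k1 := hs 1 m1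
  have k0 := hs 0 m0
  simp only [one_smul, one1_add_nsD] at k1
  simp only [zero_smul, add_zero] at k0
  obtain ⟨u1, u2⟩ := H.loc.uq _ _ _ _ _ _ (h.good hA (ω := ω) (by linarith)) s' k1.1 f' k1.2
  obtain ⟨u3, u4⟩ := H.loc.uq _ _ _ _ _ _
    (h.good hA (ω := W.one1 0 (ω.c 0)) (by rw [W.norm_one1]; linarith)) s'' k0.1 f'' k0.2
  rw [u1, u3, (u2 i hi).1, (u2 i hi).2, (u4 i hi).1, (u4 i hi).2]
  refine ⟨?_, ?_, ?_⟩
  · have := (convex_ball (0 : ℂ) (δ / (2 * c.ε) / 2)).norm_image_sub_le_of_norm_deriv_le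
      (f := fun q => (o q).v) (fun q hq => hol.v.differentiableAt
        (isOpen_ball.mem_nhds (ball_subset_ball (by linarith) hq)))
      (fun q hq => (hd q hq).2.2 _ (by rw [Function.update_self]; exact h.w0))
      (x := 0) (y := 1) (mem_ball_self (by linarith))
      (by rw [mem_ball_zero_iff, norm_one]; linarith)
    rw [sub_zero, norm_one, mul_one] at this
    refine this.trans (le_of_eq ?_)
    congr 1
    field_simp
  · refine (schw (by linarith) (hol.a i hi)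
      fun q hq => (h.mem_half hi rfl rfl (hs q hq).2).1).trans (le_of_eq ?_)
    field_simp
    ring
  · refine (schw (b := 0) (R := 1 / 100000) (by linarith) (hol.j i hi) fun q hq => by
      rw [sub_zero]; exact (h.base hi (hs q hq).1).1).trans ?_
    have e : 2 * (1 / 100000) / (δ / (2 * c.ε)) = c.ε / δ / 25000 := by field_simp; ring
    have : 0 ≤ c.ε / δ := by positivity
    linarith

theorem side (h : Sw c x n L P δ μ) (hi : i ∈ c.P.I) (hx : ξ i = x) {s : ℝ} (hs : s = 1 ∨ s = -1)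
    (hA : AllG c Rc ξ (Function.update σ i (fin c.P.T P s x n L)))
    (hW : ∀ k ∈ c.P.I, k ≠ i → Wt (σ k) (Wk k)) {o : ℂ → Out ι} (ho : ∀ p ∈ ball (0 : ℂ) δ,
      c.Sol (cfw Rc (Function.update σ i (pfx c.P.T P x n L)) i (W.one1 0 p)) ξ (o p) ∧
      Half c.P (ahs (Function.update σ i (pfx c.P.T P x n L)))
        (rds (Function.update σ i (pfx c.P.T P x n L))) (o p))
    {μ' ε₃ : ℝ} (hμ : μ ≤ μ') (hε : c.ε ≤ μ')
    (harm : ∀ (s c K T P n : ℝ) (a Z : ℂ) (γ : Path) (j : EJ), (s = 1 ∨ s = -1) → 0 < c → 0 < T →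
      γ = pq T P (Z - 22 * L) (Us s Z L) (Es s Z L) → AdmP c K T a γ →
      GeoI K P n (cs s a) (cs s Z) L → n ≤ μ' → ‖a + n‖ ≤ μ' * n → ‖Z * n - 2‖ ≤ μ' →
      γ.IsCyl a j → ‖j‖ ≤ 1 / 100000 → (∀ t ∈ Icc (2 / 3 : ℝ) 1, nsN j t ≤ μ') →
      ∃ J : ℂ, (∀ Y₀ h₀ : ℂ, ‖Y₀ + R0v a γ j (2 / 3) / n‖ ≤ ε₃ →
          ‖h₀ + R1v a γ j (2 / 3) / n‖ ≤ ε₃ → Arm s L ε₃ Y₀ h₀ J) ∧
        ‖tailF a γ j (2 / 3) - 2 * Real.pi * (Real.sqrt 2 / 4) * (n * Complex.exp (-Z / 4)) * J‖ ≤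
          ε₃ * ‖n * Complex.exp (-Z / 4)‖)
    (e1 : c.C / L + c.ε ≤ δ / 4) (e2 : 4 * c.ε < δ) (e3 : L * c.ε / δ ≤ ε₃) :
    ∃ p J : ℂ, ‖p‖ ≤ c.C / L + c.ε ∧ Arm s L ε₃ (YF x n L i (o p)) (HF x n L i (o p)) J ∧
      ‖vl c.P c.Sol Rc (Function.update σ i (fin c.P.T P s x n L)) ξ - ((o p).v +
        2 * Real.pi * (Real.sqrt 2 / 4) * (n * Complex.exp (-Zi x n L / 4)) * J)‖ ≤
        2 * c.C₁ * c.ε / δ * (‖Complex.exp (1 / 2 / x)‖ * Real.exp (6 * L) +
          ∑ k ∈ c.P.I.erase i, Wk k + Real.exp (-(Rc / 5))) +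
        ε₃ * ‖n * Complex.exp (-Zi x n L / 4)‖ := by
  have H := h.ok
  have δ0 := h.δ0
  have n0 := h.n0
  have ε0 := H.ε0
  have L7 := h.L7
  have g0 : EndG c (ξ i) (pfx c.P.T P x n L) := hx ▸ h.g0
  have hA0 : AllG c Rc ξ (Function.update σ i (pfx c.P.T P x n L)) := by
    simpa only [Function.update_idem] using hA.update g0
  obtain ⟨o₁, o', ω, s1, f1, v1, s', f', -, w2, w3, -, ev, r0, r1⟩ := restrict H hi
    (ah := ahi x n L) (rd := n ^ 2 * L / 200) (γ := (fin c.P.T P s x n L).γ)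
    (γ' := (pfx c.P.T P x n L).γ) hA g0 (h.sub s hs) (t₀ := 2 / 3) ⟨by norm_num, by norm_num⟩
    (pq_two_thirds.trans pq_one.symm)
  have m1 := (h.mem_half hi rfl rfl f1).2
  have μ4 : μ ≤ 1 / 10000 := by linarith [h.μ1, h.δ1]
  have an := h.an _ m1
  have om : L ≤ ‖Om (o₁.a i) ((fin c.P.T P s x n L).γ.ze 1)‖ := by
    have e : (fin c.P.T P s x n L).γ.ze 1 = Es s (Zi x n L) L := pq_one
    rw [e]
    exact (arm_geo (y := 0) hs (h.geo s hs _ m1) L7 h.ZL (an.trans (by nlinarith))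
      (.inr (right_mem_segment _ _ _)) (by simp)).1
  have w4 : ‖ω‖ ≤ c.C / L + c.ε := w2.trans (by
    have := H.C0
    gcongr)
  have hp : ‖ω.c 0‖ ≤ c.C / L + c.ε := (W.norm_c_le ω 0).trans w4
  have mp : ω.c 0 ∈ ball (0 : ℂ) δ := by rw [mem_ball_zero_iff]; linarith
  obtain ⟨b1, b2, -, -⟩ := H.spec.base _ _ _ s1 i hi
  simp only [cfg, Function.update_self] at b1
  have T0 : 0 < c.P.T := by linarith [H.spec.K0, H.spec.KT]
  obtain ⟨J, a1, a2⟩ := harm s c.P.c c.P.K c.P.T P n (o₁.a i) (Zi x n L) (fin c.P.T P s x n L).γ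
    (o₁.j i) hs H.spec.c0 T0 rfl ((h.gf s hs).adm _ m1) (h.geo s hs _ m1) (h.n1.trans hμ)
    (an.trans (by nlinarith)) (h.Zn.trans hμ) b1 (b2.trans H.spec.δ1) fun t ht => by
      have := H.loc.ns _ _ _ _ _ (hA.good H) s1 f1 i hi t (by
        simp only [cfg, Function.update_self]
        have e : (fin c.P.T P s x n L).γ.ze (1 / 2) = P := pq_half
        have := (h.gf s hs).mono.monotoneOn (a := 1 / 2) (b := t) ⟨by norm_num, by norm_num⟩
          ⟨by linarith [ht.1], ht.2⟩ (by linarith [ht.1])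
        simp only [e, Complex.ofReal_re] at this
        exact h.lo.trans this)
      simp only [cfg, map_zero, norm_zero, mul_zero, zero_add] at this
      exact this.trans hε
  obtain ⟨d1, d2, d3⟩ := h.remove hi hA0 hW (w4.trans e1) w3 e2 s' f' (ho _ mp).1 (ho _ mp).2
  have y0 := (h.base hi s').2.1
  have hn0 : (n : ℂ) ≠ 0 := by exact_mod_cast n0.ne'
  obtain ⟨q1, q2⟩ := h.Q_le
  have hQ0 : Zi x n L - 22 * L ≠ 0 := by
    intro e
    rw [e, norm_zero, zero_mul] at q2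
    linarith
  have t0 : 0 ≤ L * c.ε / δ := by positivity
  refine ⟨ω.c 0, J, hp, a1 _ _ ?_ ?_, ?_⟩
  · rw [← r0, R0v, pfx_one, y0]
    have e : YF x n L i (o (ω.c 0)) + rh (o'.a i) (Zi x n L - 22 * L) * (1 + 0) ^ 2 / n =
        (o'.a i - (o (ω.c 0)).a i) * (Zi x n L - 22 * L - 2) / n := by
      simp only [YF, YI, rh]; ring
    rw [e, norm_div, norm_mul, Complex.norm_real, Real.norm_of_nonneg n0.le, div_le_iff₀ n0]
    have q3 : ‖Zi x n L - 22 * L - 2‖ ≤ 3 / n := by rwa [le_div_iff₀ n0]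
    refine (mul_le_mul d2 q3 (norm_nonneg _) (by positivity)).trans ?_
    have e' : n ^ 2 * (L * c.ε / δ) / 100 * (3 / n) = 3 / 100 * (L * c.ε / δ) * n := by
      field_simp
    rw [e']
    gcongr
    linarith
  · rw [← r1, R1v, pfx_one, y0]
    have e : HF x n L i (o (ω.c 0)) + (o'.a i * (1 + 0) ^ 2 +
        2 * (1 + 0) * (o'.j i).op.c 0 1 / (Zi x n L - 22 * L)) / n =
        (o'.a i - (o (ω.c 0)).a i) / n +
          2 * (o'.j i - (o (ω.c 0)).j i).op.c 0 1 / ((Zi x n L - 22 * L) * n) := by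
      have e0 : (o'.j i - (o (ω.c 0)).j i).op.c 0 1 =
          (o'.j i).op.c 0 1 - ((o (ω.c 0)).j i).op.c 0 1 := rfl
      simp only [HF, hI, e0]
      field_simp
      ring
    rw [e]
    have c1 : ‖(o'.a i - (o (ω.c 0)).a i) / n‖ ≤ L * c.ε / δ / 100 := by
      rw [norm_div, Complex.norm_real, Real.norm_of_nonneg n0.le, div_le_iff₀ n0]
      refine d2.trans ?_
      have : n ≤ 1 := by linarith [h.n1]
      nlinarith [mul_nonneg t0 n0.le]
    have c2 : ‖(o'.j i - (o (ω.c 0)).j i).op.c 0 1‖ ≤ c.ε / δ / 100 :=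
      (BoundedContinuousFunction.norm_coe_le_norm _ _).trans ((W.norm_c_le _ _).trans
        ((EJ.norm_op_le _).trans d3))
    have c3 : ‖2 * (o'.j i - (o (ω.c 0)).j i).op.c 0 1 / ((Zi x n L - 22 * L) * n)‖ ≤
        2 * (c.ε / δ / 100) := by
      rw [norm_div, norm_mul, norm_mul, Complex.norm_real, Real.norm_of_nonneg n0.le,
        Complex.norm_ofNat]
      refine (div_le_self (by positivity) q2).trans ?_
      linarith
    have c4 : c.ε / δ ≤ L * c.ε / δ := by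
      rw [mul_div_assoc]
      exact le_mul_of_one_le_left (by positivity) (by linarith)
    linarith [norm_add_le ((o'.a i - (o (ω.c 0)).a i) / n)
      (2 * (o'.j i - (o (ω.c 0)).j i).op.c 0 1 / ((Zi x n L - 22 * L) * n))]
  · have v2 : vl c.P c.Sol Rc (Function.update σ i (fin c.P.T P s x n L)) ξ = o₁.v := v1
    rw [v2]
    refine le_trans (le_of_eq ?_) ((norm_add_le _ _).trans (add_le_add d1 a2))
    congr 1
    rw [ev]
    ring

/-- the slope equation at the point `Z - 22 L` -/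
theorem slope (h : Sw c x n L P δ μ) (hi : i ∈ c.P.I) (hx : ξ i = x)
    (hA : AllG c Rc ξ (Function.update σ i (pfx c.P.T P x n L))) {p : ℂ} {b : ℝ} (hp : ‖p‖ ≤ b)
    (hb : b ≤ δ) {o : Out ι}
    (s : c.Sol (cfw Rc (Function.update σ i (pfx c.P.T P x n L)) i (W.one1 0 p)) ξ o)
    (f : Half c.P (ahs (Function.update σ i (pfx c.P.T P x n L)))
      (rds (Function.update σ i (pfx c.P.T P x n L))) o) :
    ‖o.a i + o.a i ^ 2 * sE (o.a i) (Zi x n L - 22 * L) - x‖ ≤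
      c.ρ ^ 2 * (c.C * (b + b ^ 2 * (100 * L) + 1 / L) + c.ε) := by
  have H := h.ok
  have := H.loc.as0 _ _ _ _ _ (h.good hA (ω := W.one1 0 p) (by rw [W.norm_one1]; linarith)) s f i hi
  simp only [cfw, Function.update_self, pfx_one, W.norm_one1, hx] at this
  refine this.trans ?_
  obtain ⟨k1, k2, -⟩ := h.atQ (h.mem_half hi rfl rfl f).2
  have := H.C0
  have := h.L7
  gcongr

end Sw

end Vale.Agent.P218N.J
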