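import Vale.Agent.P218N.J.Inner
import Vale.Agent.P218N.J.Sw2
import Vale.Agent.P218N.J.Abs

/-! The switch of one active end from the upper to the lower contour. -/

open Filter Topology Metric Set Complex
open scoped ComplexConjugate

noncomputable section

namespace Vale.Agent.P218N.J

open Vale.Agent.P218N.End

open Vale.Agent.P218N.Stokes

set_option linter.unusedSectionVars false

variable {ι : Type} [Fintype ι] [DecidableEq ι] {e A κ c₁ : ℝ} {k l : ℂ → ℂ}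

theorem norm_k0 : 2 ≤ ‖(2 * Real.pi * (Real.sqrt 2 / 4) : ℂ)‖ ∧
    ‖(2 * Real.pi * (Real.sqrt 2 / 4) : ℂ)‖ ≤ 3 := by
  have e : (2 * Real.pi * (Real.sqrt 2 / 4) : ℂ) = (2 * Real.pi * (Real.sqrt 2 / 4) : ℝ) := by
    push_cast; ring
  have h1 := Real.pi_gt_three
  have h2 := Real.pi_lt_d2
  have h3 : 4 / 3 ≤ Real.sqrt 2 := Real.le_sqrt_of_sq_le (by norm_num)
  have h4 : Real.sqrt 2 ≤ 3 / 2 := Real.sqrt_le_iff.2 ⟨by norm_num, by norm_num⟩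
  rw [e, Complex.norm_real, Real.norm_of_nonneg (by positivity)]
  constructor <;> nlinarith

theorem scale_facts {n L : ℝ} (n0 : 0 < n) {k0 : ℂ} (k1 : 2 ≤ ‖k0‖) (Z : ℂ) :
    k0 * (n * Complex.exp (-(Z - 22 * L) / 4)) =
        k0 * (n * Complex.exp (-Z / 4)) * Real.exp (22 * L / 4) ∧
      7 * n * Real.exp (-((Z - 22 * L).re / 4)) ≤
        4 * ‖k0 * (n * Complex.exp (-Z / 4)) * Real.exp (22 * L / 4)‖ := by
  have eS : k0 * (n * Complex.exp (-(Z - 22 * L) / 4)) =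
      k0 * (n * Complex.exp (-Z / 4)) * Real.exp (22 * L / 4) := by
    rw [Complex.ofReal_exp, mul_assoc, mul_assoc, ← Complex.exp_add]
    congr 3
    push_cast
    ring
  refine ⟨eS, ?_⟩
  rw [← eS, norm_mul, norm_mul, Complex.norm_real, Real.norm_of_nonneg n0.le, Complex.norm_exp]
  have e : (-(Z - 22 * L) / 4).re = -((Z - 22 * L).re / 4) := by
    rw [Complex.div_ofNat_re, Complex.neg_re, neg_div]
  rw [e]
  have : 0 ≤ n * Real.exp (-((Z - 22 * L).re / 4)) := by positivity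
  nlinarith

theorem norm_N0 (x : ℂ) {n L : ℝ} (n0 : 0 < n) (hL : 1 ≤ L) :
    ‖n * Complex.exp (-Zi x n L / 4)‖ ≤ ‖Complex.exp (1 / 2 / x)‖ / 3 := by
  rw [exp_Zi x n0 (show 0 < L by linarith), norm_mul, norm_div, Complex.norm_real,
    Complex.norm_real, Real.norm_of_nonneg (Real.exp_pos _).le,
    Real.norm_of_nonneg (Real.sqrt_nonneg _)]
  have a1 : Real.exp (-1 / 2) ≤ 1 := Real.exp_le_one_iff.2 (by norm_num)
  have a2 : 3 ≤ Real.sqrt (11 * L) := Real.le_sqrt_of_sq_le (by linarith)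
  have a3 : Real.exp (-1 / 2) / Real.sqrt (11 * L) ≤ 1 / 3 := by gcongr
  nlinarith [norm_nonneg (Complex.exp (1 / 2 / x))]

theorem fv_div {S d ψ : ℂ} {b : ℝ} (hS : S ≠ 0) (h : ‖d - S * ψ‖ ≤ b) : ‖d / S - ψ‖ ≤ b / ‖S‖ := by
  rw [le_div_iff₀ (norm_pos_iff.2 hS), ← norm_mul]
  refine le_trans (le_of_eq ?_) h
  congr 1
  field_simp

theorem jump_alg {k0 N vp vm Jp Jm m Vp Vm : ℂ} {E G B D a u β ε₃ F : ℝ} (k1 : 2 ≤ ‖k0‖)
    (k2 : ‖k0‖ ≤ 3) (N0 : N ≠ 0) (E0 : 0 < E) (nN : ‖N‖ ≤ G / 3) (β0 : 0 ≤ β) (ε0 : 0 ≤ ε₃)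
    (D0 : 0 ≤ D) (ua : u ≤ 2 * a) (eB : ‖k0 * N * m‖ = B * G)
    (J : ‖(E * (vp / (k0 * N * E)) + Jp) - (E * (vm / (k0 * N * E)) + Jm) - m‖ ≤
      1 / 5 * ‖m‖ + (a * D + 4 * ‖k0 * N * E‖ * β) / ‖k0 * N * E‖ * E)
    (hp : ‖Vp - (vp + k0 * N * Jp)‖ ≤ u * (G * F + D) + ε₃ * ‖N‖)
    (hm : ‖Vm - (vm + k0 * N * Jm)‖ ≤ u * (G * F + D) + ε₃ * ‖N‖)
    (e5 : 2 * u * F + 2 * ε₃ + 4 * E * β ≤ B / 20) :
    ‖Vp - Vm - k0 * N * m‖ ≤ 1 / 4 * B * G + 5 * a * D := by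
  have k3 : k0 ≠ 0 := norm_pos_iff.1 (by linarith)
  have E1 : (E : ℂ) ≠ 0 := by exact_mod_cast E0.ne'
  have G0 : 0 ≤ G := by linarith [norm_nonneg N]
  have S2 : ‖k0 * N‖ ≤ G := by
    rw [norm_mul]
    nlinarith [norm_nonneg N]
  have S3 : ‖k0 * N * E‖ = ‖k0 * N‖ * E := by
    rw [norm_mul, Complex.norm_real, Real.norm_of_nonneg E0.le]
  have J2 : ‖(vp + k0 * N * Jp) - (vm + k0 * N * Jm) - k0 * N * m‖ ≤
      1 / 5 * (B * G) + (a * D + 4 * (G * E) * β) := by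
    have e : (vp + k0 * N * Jp) - (vm + k0 * N * Jm) - k0 * N * m = k0 * N *
        ((E * (vp / (k0 * N * E)) + Jp) - (E * (vm / (k0 * N * E)) + Jm) - m) := by field_simp
    rw [e, norm_mul]
    refine (mul_le_mul_of_nonneg_left J (norm_nonneg _)).trans ?_
    have e' : ‖k0 * N‖ * ((a * D + 4 * ‖k0 * N * E‖ * β) / ‖k0 * N * E‖ * E) =
        a * D + 4 * (‖k0 * N‖ * E) * β := by
      have : ‖k0 * N‖ ≠ 0 := norm_ne_zero_iff.2 (mul_ne_zero k3 N0)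
      rw [S3]
      field_simp
    rw [mul_add, e', ← eB, norm_mul (k0 * N)]
    have : 4 * (‖k0 * N‖ * E) * β ≤ 4 * (G * E) * β := by gcongr
    linarith
  have t1 : ε₃ * ‖N‖ ≤ ε₃ * G := mul_le_mul_of_nonneg_left (by linarith) ε0
  have t2 := mul_le_mul_of_nonneg_right ua D0
  have t3 := mul_le_mul_of_nonneg_right e5 G0
  have t4 := norm_add₃_le (a := Vp - (vp + k0 * N * Jp)) (b := -(Vm - (vm + k0 * N * Jm)))
    (c := (vp + k0 * N * Jp) - (vm + k0 * N * Jm) - k0 * N * m)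
  rw [norm_neg] at t4
  refine le_trans (le_of_eq (by congr 1; ring)) (t4.trans ?_)
  linarith

theorem Sw.core {c : Cx ι} {x : ℂ} {n L P δ μ ε₂ ε₃ μa μb μc : ℝ} (h : Sw c x n L P δ μ)
    (hja : ∀ (Yf hf f : ℂ → ℂ) (εf : ℝ) (pp pm Jp Jm : ℂ), DifferentiableOn ℂ Yf (ball 0 δ) →
      DifferentiableOn ℂ hf (ball 0 δ) → DifferentiableOn ℂ f (ball 0 δ) →
      (∀ p ∈ ball (0 : ℂ) δ, ‖Yf p + (22 * L : ℝ)‖ ≤ 22 * L / 100) →
      (∀ p ∈ ball (0 : ℂ) δ, ‖hf p - 1 + 4 * p‖ ≤ δ / 100) →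
      (∀ p ∈ ball (0 : ℂ) (δ / 2),
        ‖deriv f p - 2 * hf p / lI (Yf p) (hf p) * deriv Yf p‖ ≤ εf) →
      ‖pp‖ ≤ δ / 4 → ‖pm‖ ≤ δ / 4 → ‖Yf pp + (22 * L : ℝ)‖ ≤ 1 / 200 →
      ‖Yf pm + (22 * L : ℝ)‖ ≤ 1 / 200 → Arm 1 L ε₃ (Yf pp) (hf pp) Jp →
      Arm (-1) L ε₃ (Yf pm) (hf pm) Jm →
      ‖(Real.exp (22 * L / 4) * f pp + Jp) - (Real.exp (22 * L / 4) * f pm + Jm) -
          -8 / Real.sqrt (22 * L) * Real.exp (22 * L / 4) *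
            (k (-(22 * L : ℝ)) - l (-(22 * L : ℝ)))‖ ≤
        1 / 5 * ‖-8 / Real.sqrt (22 * L) * Real.exp (22 * L / 4) *
            (k (-(22 * L : ℝ)) - l (-(22 * L : ℝ)))‖ + εf * Real.exp (22 * L / 4))
    (harm : ∀ (s c K T P n : ℝ) (a Z : ℂ) (γ : Path) (j : EJ), (s = 1 ∨ s = -1) → 0 < c → 0 < T →
      γ = pq T P (Z - 22 * L) (Us s Z L) (Es s Z L) → AdmP c K T a γ →
      GeoI K P n (cs s a) (cs s Z) L → n ≤ μa → ‖a + n‖ ≤ μa * n → ‖Z * n - 2‖ ≤ μa →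
      γ.IsCyl a j → ‖j‖ ≤ 1 / 100000 → (∀ t ∈ Icc (2 / 3 : ℝ) 1, nsN j t ≤ μa) →
      ∃ J : ℂ, (∀ Y₀ h₀ : ℂ, ‖Y₀ + R0v a γ j (2 / 3) / n‖ ≤ ε₃ →
          ‖h₀ + R1v a γ j (2 / 3) / n‖ ≤ ε₃ → Arm s L ε₃ Y₀ h₀ J) ∧
        ‖tailF a γ j (2 / 3) - 2 * Real.pi * (Real.sqrt 2 / 4) * (n * Complex.exp (-Z / 4)) * J‖ ≤
          ε₃ * ‖n * Complex.exp (-Z / 4)‖)
    (hfl : ∀ (n d : ℝ) (a da : ℂ) (γ : Path) (j dj : EJ), InP (100 * L) μb n a (γ.ze 1) →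
      ‖j‖ ≤ 1 / 100000 → j.y2.c 0 1 = 0 → nsN j 1 ≤ μb → ‖tr 1 dj.y2‖ ≤ d →
      ‖γ.FluxCyl a j 1 da dj.y - 2 * Real.pi * (Real.sqrt 2 / 4) *
        (n * Complex.exp (-γ.ze 1 / 4)) * (2 * hI n a (γ.ze 1) 0 (j.op.c 0 1) /
          lI (YI n a (γ.ze 1) 0) (hI n a (γ.ze 1) 0 (j.op.c 0 1)) * (-((γ.ze 1 - 2) * da) / n))‖ ≤
        7 * n * Real.exp (-((γ.ze 1).re / 4)) *
          (ε₂ * ‖(γ.ze 1 - 2) * da / n‖ + 10 * (100 * L) * d))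
    (hpin : ∀ (n : ℝ) (a x : ℂ), 0 < n → n ≤ μc → ‖x + n‖ ≤ μc * n → ‖a + n‖ ≤ μc * n →
      ‖YI n a (Zi x n L - 22 * L) 0 + (22 * L : ℝ)‖ ≤ 22 * L / 100 →
      ‖a + a ^ 2 * sE a (Zi x n L - 22 * L) - x‖ ≤ n ^ 2 / 10000 →
      ‖YI n a (Zi x n L - 22 * L) 0 + (22 * L : ℝ)‖ ≤ 1 / 200)
    (ma : μ ≤ μa) (mb : μ ≤ μb) (mc : μ ≤ μc) (εa : c.ε ≤ μa) (εb : c.ε ≤ μb) (ε20 : 0 ≤ ε₂)
    (e1 : c.C / L + c.ε ≤ δ / 4) (e2 : 4 * c.ε < δ) (e3 : L * c.ε / δ ≤ ε₃)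
    (e4 : c.C * ((c.C / L + c.ε) + (c.C / L + c.ε) ^ 2 * (100 * L) + 1 / L) + c.ε ≤ A ^ 2 / 10000)
    (A0 : 0 ≤ A) (An : A * c.ρ ≤ n)
    (e5 : 4 * c.C₁ * c.ε / δ * Real.exp (6 * L) + 2 * ε₃ +
      4 * Real.exp (22 * L / 4) * ((ε₂ * L + 4000 * L * c.ε) / δ) ≤ ‖BL k l L‖ / 20) :
    Lnm c x (BL k l L * Complex.exp (1 / 2 / x))
      (1 / 4 * ‖BL k l L‖ * ‖Complex.exp (1 / 2 / x)‖) (5 * c.C₁ / δ)
      (fin c.P.T P 1 x n L) (fin c.P.T P (-1) x n L) := by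
  have p1 : (1 : ℝ) = 1 ∨ (1 : ℝ) = -1 := .inl rfl
  have m1 : (-1 : ℝ) = 1 ∨ (-1 : ℝ) = -1 := .inr rfl
  refine ⟨h.gf 1 p1, h.gf (-1) m1, fun Rc ξ σ Wk i hi hx hA hW => ?_⟩
  have H := h.ok
  have δ0 := h.δ0
  have n0 := h.n0
  have ε0 := H.ε0
  have L7 := h.L7
  have C0 := H.C₁_nonneg
  have g0 : EndG c (ξ i) (pfx c.P.T P x n L) := by rw [hx]; exact h.g0
  have gm : EndG c (ξ i) (fin c.P.T P (-1) x n L) := by rw [hx]; exact h.gf (-1) m1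
  have hA0 : AllG c Rc ξ (Function.update σ i (pfx c.P.T P x n L)) := by
    simpa only [Function.update_idem] using hA.update g0
  have hAm : AllG c Rc ξ (Function.update σ i (fin c.P.T P (-1) x n L)) := by
    simpa only [Function.update_idem] using hA.update gm
  obtain ⟨o, ho, dY, dh, dv, bY, bh, fv⟩ := h.famA hi hA0 hW mb εb ε20 hfl
  obtain ⟨pp, Jp, p2, p3, p4⟩ := h.side hi hx p1 hA hW ho ma εa harm e1 e2 e3
  obtain ⟨pm, Jm, m2, m3, m4⟩ := h.side hi hx m1 hAm hW ho ma εa harm e1 e2 e3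
  clear harm hfl
  have mc' := mul_le_mul_of_nonneg_right mc n0.le
  have pin' : ∀ p : ℂ, ‖p‖ ≤ c.C / L + c.ε → ‖YF x n L i (o p) + (22 * L : ℝ)‖ ≤ 1 / 200 := by
    intro p hp
    have mp : p ∈ ball (0 : ℂ) δ := by rw [mem_ball_zero_iff]; linarith
    refine hpin n _ x n0 (h.n1.trans mc) (h.xn.trans mc')
      ((h.an _ (h.mem_half hi rfl rfl (ho p mp).2).2).trans mc') (bY p mp)
      ((h.slope hi hx hA0 hp (by linarith) (ho p mp).1 (ho p mp).2).trans ?_)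
    refine (mul_le_mul_of_nonneg_left e4 (sq_nonneg _)).trans ?_
    have := mul_self_le_mul_self (mul_nonneg A0 H.ρ0.le) An
    linarith
  have D0 : 0 ≤ ∑ k ∈ c.P.I.erase i, Wk k + Real.exp (-(Rc / 5)) := by
    refine add_nonneg (Finset.sum_nonneg fun k hk => ?_) (Real.exp_pos _).le
    obtain ⟨k1, k2⟩ := Finset.mem_erase.1 hk
    have := (hA.ends k k2).side.rd_pos H
    rw [Function.update_of_ne k1] at this
    exact (hW k k2 k1).nonneg this.le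
  have β0 : 0 ≤ (ε₂ * L + 4000 * L * c.ε) / δ := by positivity
  obtain ⟨k1, k2⟩ := norm_k0
  obtain ⟨eS, S1⟩ := scale_facts (L := L) n0 k1 (Zi x n L)
  have N1 : (n : ℂ) * Complex.exp (-Zi x n L / 4) ≠ 0 :=
    mul_ne_zero (by exact_mod_cast n0.ne') (Complex.exp_ne_zero _)
  have S0 : 2 * Real.pi * (Real.sqrt 2 / 4) * ((n : ℂ) * Complex.exp (-Zi x n L / 4)) *
      Real.exp (22 * L / 4) ≠ 0 := mul_ne_zero (mul_ne_zero (norm_pos_iff.1 (by linarith)) N1)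
    (by exact_mod_cast (Real.exp_pos _).ne')
  have J := hja (fun p => YF x n L i (o p)) (fun p => HF x n L i (o p)) _ _ pp pm Jp Jm dY dh
    (dv.div_const (2 * Real.pi * (Real.sqrt 2 / 4) * ((n : ℂ) * Complex.exp (-Zi x n L / 4)) *
      Real.exp (22 * L / 4))) bY bh (fun p hp => by
      have := fv p hp
      rw [eS] at this
      rw [deriv_div_const]
      exact fv_div S0 (this.trans (add_le_add le_rfl (mul_le_mul_of_nonneg_right S1 β0))))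
    (p2.trans e1) (m2.trans e1) (pin' pp p2) (pin' pm m2) p3 m3
  have eB : BL k l L * Complex.exp (1 / 2 / x) = 2 * Real.pi * (Real.sqrt 2 / 4) *
      ((n : ℂ) * Complex.exp (-Zi x n L / 4)) * (-8 / Real.sqrt (22 * L) * Real.exp (22 * L / 4) *
        (k (-(22 * L : ℝ)) - l (-(22 * L : ℝ)))) := by
    rw [exp_Zi x n0 (show 0 < L by linarith), BL]; ring
  have ua : 2 * c.C₁ * c.ε / δ ≤ 2 * (c.C₁ / δ) := by
    have : c.ε ≤ 1 := by linarith [h.δ1]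
    have e : 2 * c.C₁ * c.ε / δ = c.ε * (2 * (c.C₁ / δ)) := by ring
    rw [e]
    exact mul_le_of_le_one_left (by positivity) this
  rw [add_assoc] at p4 m4
  rw [eB, mul_div_assoc 5]
  exact jump_alg k1 k2 N1 (Real.exp_pos _) (norm_N0 x n0 (by linarith)) β0
    (le_trans (by positivity) e3) D0 ua (by rw [← eB, norm_mul]) J p4 m4
    (le_trans (le_of_eq (by ring)) e5)

theorem exists_delta {K δ₀ A : ℝ} (K0 : 0 ≤ K) (d0 : 0 < δ₀) (A0 : 0 < A) :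
    ∃ δ : ℝ, 0 < δ ∧ δ ≤ 1 ∧ δ ≤ δ₀ ∧ K * δ * 40000 ≤ A ^ 2 := by
  refine ⟨min 1 (min δ₀ (A ^ 2 / (40000 * (K + 1)))), by positivity, min_le_left _ _,
    (min_le_right _ _).trans (min_le_left _ _), ?_⟩
  have h1 : min 1 (min δ₀ (A ^ 2 / (40000 * (K + 1)))) ≤ A ^ 2 / (40000 * (K + 1)) :=
    (min_le_right _ _).trans (min_le_right _ _)
  have h2 : 0 < min 1 (min δ₀ (A ^ 2 / (40000 * (K + 1)))) := by positivity
  rw [le_div_iff₀ (by positivity)] at h1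
  nlinarith

theorem rad_ok {K δ A L ρ n : ℝ} (K0 : 0 ≤ K) (δ0 : 0 < δ) (δ1 : δ ≤ 1) (A0 : 0 < A) (L0 : 0 < L)
    (ρ0 : 0 < ρ) (δ3 : K * δ * 40000 ≤ A ^ 2) (LK : 400 * K / A ^ 2 ≤ L) (An : A * ρ ≤ n) :
    K * ρ ^ 2 * (1 + δ ^ 2 * (100 * L)) ≤ n ^ 2 * L / 200 := by
  rw [div_le_iff₀ (by positivity)] at LK
  have w1 : K * δ ^ 2 * 40000 ≤ A ^ 2 := le_trans (by gcongr; nlinarith) δ3
  have w2 : K * (1 + δ ^ 2 * (100 * L)) ≤ A ^ 2 * L / 200 := by nlinarith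
  have w3 : (A * ρ) ^ 2 ≤ n ^ 2 := by gcongr
  have w4 := mul_le_mul_of_nonneg_left w2 (sq_nonneg ρ)
  nlinarith

theorem near_ok {μ L n : ℝ} {Z ah : ℂ} (μ0 : 0 < μ) (L1 : 1 ≤ L) (n0 : 0 < n)
    (i1 : n ≤ μ / (23 * L)) (i3 : ‖Z * n - 2‖ ≤ μ / (23 * L)) (i4 : ‖ah + n‖ ≤ μ / (23 * L) * n) :
    μ / (23 * L) ≤ μ ∧ ‖(Z - 22 * L) * n - 2‖ ≤ μ ∧
      ∀ b ∈ closedBall ah (n ^ 2 * L / 200), ‖b + n‖ ≤ μ * n := by
  have v2 : μ / (23 * L) ≤ μ / 23 := by gcongr; linarith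
  have v3 : n * L ≤ μ / 23 := by
    rw [le_div_iff₀ (by positivity)] at i1
    linarith
  refine ⟨by linarith, ?_, fun b hb => ?_⟩
  · have e : (Z - 22 * L) * n - 2 = (Z * n - 2) - (22 * (n * L) : ℝ) := by push_cast; ring
    rw [e]
    refine (norm_sub_le _ _).trans ?_
    rw [Complex.norm_real, Real.norm_of_nonneg (by positivity)]
    linarith
  · rw [mem_closedBall, dist_eq_norm] at hb
    have e : b + n = (b - ah) + (ah + n) := by ring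
    rw [e]
    refine (norm_add_le _ _).trans ((add_le_add hb i4).trans ?_)
    have : n * L / 200 + μ / (23 * L) ≤ μ := by linarith
    nlinarith

theorem switch (c₀ : Cx ι) (hF : Fit c₀.M c₀.X e A κ) (hne : ∃ ε ρ, ((c₀.tol ε).sc ρ).Ok)
    (hc : 0 < c₁) (hk : Sol k (DD 1)) (hl : Sol l (DD (-1)))
    (hs : ∀ Y : ℂ, 256001 + |Y.im| ≤ -Y.re →
      c₁ * Real.exp (Y.re / 4) ≤ ‖k Y - l Y‖ * (-Y.re) ^ 130 ∧
      c₁ * ‖k Y - l Y‖ ≤ Real.exp (Y.re / 4) * (-Y.re) ^ 130) :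
    ∃ C : ℝ, 0 ≤ C ∧ ∀ᶠ L : ℝ in atTop, ∀ᶠ ε in 𝓝[>] (0 : ℝ), ∀ᶠ η in 𝓝[>] (0 : ℝ),
      ∀ (ρ a : ℝ) (x : ℂ), Act e A η ρ a x → ((c₀.tol ε).sc ρ).Ok →
        Lnm ((c₀.tol ε).sc ρ) x (BL k l L * Complex.exp (1 / 2 / x))
          (1 / 4 * ‖BL k l L‖ * ‖Complex.exp (1 / 2 / x)‖) C
          (fin c₀.P.T (e / (2000 * ρ)) 1 x (|a| * ρ) L)
          (fin c₀.P.T (e / (2000 * ρ)) (-1) x (|a| * ρ) L) := by
  obtain ⟨ε', ρ', H'⟩ := hne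
  have K0 : 0 ≤ c₀.K' := H'.K0
  have C0 : 0 ≤ c₀.C := H'.C0
  have C1 : 0 ≤ c₀.C₁ := H'.C₁_nonneg
  have d0 : 0 < c₀.P.δ₀ := H'.spec.δ0
  have A0 := hF.A0
  obtain ⟨δ, δ0, δ1, δ2, δ3⟩ := exists_delta K0 d0 A0
  refine ⟨5 * c₀.C₁ / δ, by positivity, ?_⟩
  have T1 : Tendsto (fun L : ℝ => c₀.C / L) atTop (𝓝 0) := tendsto_const_nhds.div_atTop tendsto_id
  have T2 : Tendsto (fun L : ℝ => c₀.C * (c₀.C + 100 * c₀.C ^ 2 + 1) / L) atTop (𝓝 0) :=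
    tendsto_const_nhds.div_atTop tendsto_id
  filter_upwards [jump_abs hc hk hl hs δ0 δ1, BL_big hc (fun Y hY => (hs Y hY).1) 0,
    eventually_ge_atTop ((10 : ℝ) ^ 7), eventually_ge_atTop (Lmin c₀ A),
    eventually_ge_atTop (400 * c₀.K' / A ^ 2), T1.eventually (gt_mem_nhds (show 0 < δ / 4 by
      positivity)), T2.eventually (gt_mem_nhds (show 0 < A ^ 2 / 10000 by positivity))]
    with L hja hB L7 Lm LK l1 l2
  have B0 := hB.1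
  have L0 : 0 < L := by linarith
  obtain ⟨ε₃, hja₃, ε30, ε31⟩ : ∃ ε₃, _ ∧ ε₃ ∈ Ioc 0 (‖BL k l L‖ / 160) :=
    (hja.and (Ioc_mem_nhdsGT (by positivity))).exists
  obtain ⟨μa, a0, harm⟩ := arm L ε₃ L7 ε30
  obtain ⟨μb, b0, hfl⟩ := flux_apx (100 * L) (δ * ‖BL k l L‖ / (320 * Real.exp (22 * L / 4) * L))
    (by positivity)
  obtain ⟨μc, c0, hpin⟩ := pin L7
  have ev : ∀ {f : ℝ → ℝ} {b : ℝ}, Continuous f → f 0 < b → ∀ᶠ ε in 𝓝[>] (0 : ℝ), f ε < b :=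
    fun hf h => ((hf.tendsto 0).eventually (gt_mem_nhds h)).filter_mono nhdsWithin_le_nhds
  filter_upwards [Ioc_mem_nhdsGT a0, Ioc_mem_nhdsGT b0,
    ev (f := fun ε => c₀.C / L + ε) (b := δ / 4) (by fun_prop) (by simpa using l1),
    ev (f := fun ε => 4 * ε) (b := δ) (by fun_prop) (by simpa using δ0),
    ev (f := fun ε => L * ε / δ) (b := ε₃) (by fun_prop) (by simpa using ε30),
    ev (f := fun ε => c₀.C * ((c₀.C / L + ε) + (c₀.C / L + ε) ^ 2 * (100 * L) + 1 / L) + ε)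
      (b := A ^ 2 / 10000) (by fun_prop) (lt_of_eq_of_lt (by field_simp; ring) l2),
    ev (f := fun ε => 4 * c₀.C₁ * ε / δ * Real.exp (6 * L) +
      4 * Real.exp (22 * L / 4) * (4000 * L * ε / δ)) (b := ‖BL k l L‖ / 40) (by fun_prop)
      (by simpa using B0)] with ε εa εb e1 e2 e3 e4 e5
  obtain ⟨μ, μ0, ma, mb, mc, md⟩ : ∃ μ : ℝ, 0 < μ ∧ μ ≤ μa ∧ μ ≤ μb ∧ μ ≤ μc ∧
      μ ≤ δ / 1000000 :=
    ⟨min (min μa μb) (min μc (δ / 1000000)), by positivity,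
      (min_le_left _ _).trans (min_le_left _ _), (min_le_left _ _).trans (min_le_right _ _),
      (min_le_right _ _).trans (min_le_left _ _), (min_le_right _ _).trans (min_le_right _ _)⟩
  filter_upwards [inner_facts hF.e0 A0 (show 0 < μ / (23 * L) by positivity),
    ist_reg (c₀.tol ε) hF, ist_fin (c₀.tol ε) hF (L := L) Lm] with η hI hR hT ρ a x hx H
  have p1 : (1 : ℝ) = 1 ∨ (1 : ℝ) = -1 := .inl rfl
  obtain ⟨t1, t2, -, -, t3, t4, -⟩ := hT ρ a x _ 1 hx rfl H p1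
  obtain ⟨i0, i1, -, i2, i3, i4, -, -⟩ := hI ρ a x _ L hx rfl (by linarith) t1
  obtain ⟨v2, v3, v4⟩ := near_ok μ0 (by linarith) i0 i1 i3 i4
  have An : A * ρ ≤ |a| * ρ := mul_le_mul_of_nonneg_right hx.lo hx.ρ0.le
  have S : Sw ((c₀.tol ε).sc ρ) x (|a| * ρ) L (e / (2000 * ρ)) δ μ :=
    { ok := H, L7 := L7, n0 := i0, n1 := i1.trans v2, μ1 := md
      xn := i2.trans (mul_le_mul_of_nonneg_right v2 i0.le)
      Zn := i3.trans v2, Qn := v3, an := v4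
      geo := fun s hs => (hR ρ a x _ s L hx rfl H hs Lm t1).1
      ZL := t2
      gf := fun s hs => (hT ρ a x _ s hx rfl H hs).2.2.1.1
      g0 := t3, w0 := t4
      sub := fun s hs => (hT ρ a x _ s hx rfl H hs).2.2.2.2.2.2
      lo := (hR ρ a x _ 1 L hx rfl H p1 Lm t1).2.lo
      δ0 := δ0, δ1 := δ1, δ2 := δ2
      rad := rad_ok K0 δ0 δ1 A0 L0 hx.ρ0 δ3 LK An }
  refine S.core hja₃ harm hfl hpin ma mb mc εa.2 εb.2 (by positivity) e1.le e2 e3.le e4.le A0.le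
    An ?_
  change 4 * c₀.C₁ * ε / δ * _ + _ + 4 * _ * ((_ + 4000 * L * ε) / δ) ≤ _
  have e : 4 * Real.exp (22 * L / 4) * ((δ * ‖BL k l L‖ / (320 * Real.exp (22 * L / 4) * L) * L +
      4000 * L * ε) / δ) = ‖BL k l L‖ / 80 + 4 * Real.exp (22 * L / 4) * (4000 * L * ε / δ) := by
    field_simp
    ring
  rw [e]
  linarith

end Vale.Agent.P218N.J
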