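import Vale.Agent.P218N.J.Chain
import Vale.Agent.P218N.J.Switch

/-! The theorem of the block JUMP. -/

open Filter Topology Metric Set Complex
open scoped ComplexConjugate

noncomputable section

namespace Vale.Agent.P218N.J

open Vale.Agent.P218N.End

theorem exists_fit {e A κ : ℝ} (he : 0 < e) (hA : 0 < A) (hκ : 0 < κ) (h : 4000 * κ ≤ e) :
    ∃ M X : ℝ, 1 ≤ M ∧ 1 ≤ X ∧ Fit M X e A κ := by
  have h1 : 0 < 2 / κ := by positivity
  have h2 : 0 < 10 / A := by positivity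
  have h3 : 0 < 100000 / A ^ 2 := by positivity
  have h4 : 0 < 30000 * e ^ 2 := by positivity
  refine ⟨1 + 2 / κ + 10 * e + 10 / A, 1 + 100000 / A ^ 2 + 30000 * e ^ 2, by linarith, by linarith,
    he, hA, hκ, h, ?_, by linarith, ?_, ?_, by linarith⟩ <;>
    exact (div_le_iff₀ (by positivity)).1 (by linarith)

/-- `P i = C (1/2)`, `m = 0`, `w = 1`, `k = 0`, `B ρ = BL k l L`.  Order of the constants:
`a, e`; `A = min |a i|` over the active ends, `κ = min (e / 4000) (cD e / 2)`, `κ0 = κ / 10`;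
`M, X` with `Fit`; `c₀` (`exists_cx`); `k, l` (`Stokes.stokes`); `C` (`switch`); `L` (`switch`,
`BL_big` with `4 (60 (|I| + 1) C₁ + |I| C)`, `Lmin`); `ε`; `η` (`secFam`, `chain`, `switch` for
`c₀.tol ε`).  The jump is `chain` for both signs and `tele_m` (`Lnm.refl` at the passive ends). -/
theorem jumpStmt : JumpStmt := by
  intro ι _ _ P Sol cD R0 F hS K hK
  refine ⟨fun _ => MvPolynomial.C (1 / 2), fun _ _ => 0, fun _ _ => by simp, fun _ _ _ _ => by simp,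
    fun a e ⟨⟨i₀, hi₀, ha₀, he₀⟩, _⟩ up => ?_⟩
  simp only [MvPolynomial.constantCoeff_C] at he₀ up
  have he : 0 < e := he₀ ▸ div_pos one_half_pos (abs_pos.2 ha₀.ne)
  obtain ⟨i₁, hi₁, hmin⟩ := (P.I.filter fun i => a i < 0).exists_min_image (fun i => |a i|)
    ⟨i₀, Finset.mem_filter.2 ⟨hi₀, ha₀⟩⟩
  set A := |a i₁|
  have hA : 0 < A := abs_pos.2 (Finset.mem_filter.1 hi₁).2.ne
  have lo : ∀ i ∈ P.I, a i < 0 → A ≤ |a i| := fun i hi h => hmin i (Finset.mem_filter.2 ⟨hi, h⟩)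
  have hcD := hS.cD0
  set κ := min (e / 4000) (cD * e / 2)
  have hκ0 : 0 < κ := by positivity
  have hκ1 : κ ≤ e / 4000 := min_le_left _ _
  have hκ2 : κ ≤ cD * e / 2 := min_le_right _ _
  obtain ⟨M, X, hM, hX, hF⟩ := exists_fit he hA hκ0 (by linarith)
  obtain ⟨c₀, rfl, rfl, rfl, rfl, hOk⟩ := exists_cx hS.toSpec0 hM hX
  obtain ⟨k, l, c₁, hc, hk, hl, hs⟩ := Stokes.stokes
  obtain ⟨C, hC, hsw⟩ := switch c₀ hF (hOk.exists.imp fun ε h => h.exists) hc hk hl hs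
  obtain ⟨L, hsw, ⟨hB0, hB⟩, hL⟩ := (hsw.and ((BL_big hc (fun Y hY => (hs Y hY).1)
    (4 * (60 * (c₀.P.I.card + 1) * c₀.C₁ + c₀.P.I.card * C))).and
    (eventually_ge_atTop (Lmin c₀ A)))).exists
  obtain ⟨ε, hsw, hOk⟩ := (hsw.and hOk).exists
  obtain ⟨C', hch⟩ := chain (c₀.tol ε) hF lo up (one_le_two.trans hK) hL
  obtain ⟨u, hu, hu'⟩ := (nhdsGT_basis 0).eventually_iff.1 hOk
  obtain ⟨η, hsw, hch, hsec, hη⟩ := (hsw.and (hch.and ((secFam (c₀.tol ε) hS hF (by linarith) hOk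
    lo up (one_le_two.trans hK)).and (Ioo_mem_nhdsGT hu)))).exists
  refine ⟨κ / 10, by positivity, fun β hβ => ⟨e / 200, 1 / 1000, η, by positivity, by norm_num,
    hη.1, _, _, hsec 1 β (.inl rfl) hβ.2.le, hsec (-1) β (.inr rfl) hβ.2.le, fun _ => 1, 0,
    fun _ => BL k l L, ‖BL k l L‖⁻¹ + ‖BL k l L‖ + 2 * |C'| +
      c₀.P.I.card * C * (c₀.P.I.card * (c₀.M + 2) + 1), fun _ _ _ => one_pos, fun ρ _ => ?_,
    fun ρ hρ ξ hξ => ?_⟩⟩
  · have h1 : 0 ≤ c₀.P.I.card * C * (c₀.P.I.card * (c₀.M + 2) + 1) := by positivity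
    have h2 : 0 < ‖BL k l L‖⁻¹ := by positivity
    rw [pow_zero, mul_one, ← inv_le_iff_one_le_mul₀ hB0]
    constructor <;> linarith [abs_nonneg C']
  have H := hu' ⟨hρ.1, hρ.2.trans hη.2⟩
  obtain ⟨g1, w1, v1⟩ := hch ρ hρ H 1 (.inl rfl) ξ hξ
  obtain ⟨-, w2, v2⟩ := hch ρ hρ H (-1) (.inr rfl) ξ hξ
  have v3 := tele_m H hC g1 (σ' := fins c₀.P.T e a (-1) ρ L ξ)
    (m := fun i => if a i < 0 then BL k l L * Complex.exp (1 / 2 / ξ i) else 0)
    (b := fun i => if a i < 0 then 1 / 4 * ‖BL k l L‖ * ‖Complex.exp (1 / 2 / ξ i)‖ else 0)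
    (fun i hi => ?_) fun i hi => ⟨w1 i hi, w2 i hi⟩
  swap
  · have h1 := g1.ends i hi
    by_cases h : a i < 0
    · simp only [fins, if_pos h]
      refine hsw ρ (a i) (ξ i) ⟨h, lo i hi h, up i hi, hρ.1, hρ.2, ?_⟩ H
      simpa [abs_of_pos hρ.1] using hξ.2 i hi
    · simp only [fins, if_neg h] at h1 ⊢
      exact Lnm.refl h1 le_rfl hC H
  set S := ∑ i ∈ c₀.P.I.filter (fun i => a i < 0), ‖Complex.exp (1 / 2 / ξ i)‖ with hS'
  set E := Real.exp (-((e + e / 200) / ρ)) with hE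
  have hS0 : 0 ≤ S := Finset.sum_nonneg fun _ _ => norm_nonneg _
  have hE0 : 0 < E := Real.exp_pos _
  have heρ : 0 < e / ρ := div_pos he hρ.1
  have e1 : Real.exp (-(101 / 100 * e / ρ)) ≤ E := Real.exp_le_exp.2 (by
    rw [mul_div_assoc, show (e + e / 200) / ρ = 201 / 200 * (e / ρ) by ring]; linarith)
  have e2 : Real.exp (-(6 * e / ρ / 5)) ≤ E := Real.exp_le_exp.2 (by
    rw [mul_div_assoc, show (e + e / 200) / ρ = 201 / 200 * (e / ρ) by ring]; linarith)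
  have e3 : ∑ i ∈ c₀.P.I, (if a i < 0 then ‖Complex.exp (1 / 2 / ξ i)‖ * Real.exp (-(L / 10))
      else (c₀.M + 2) * Real.exp (-(101 / 100 * e / ρ))) ≤
      S * Real.exp (-(L / 10)) + c₀.P.I.card * ((c₀.M + 2) * E) := by
    rw [Finset.sum_ite, Finset.sum_mul, Finset.sum_const, nsmul_eq_mul]
    gcongr
    exact Finset.filter_subset _ _
  have e4 : P218F.stokesSum c₀.P.I a (fun _ => MvPolynomial.C (1 / 2))
      (fun i => MvPolynomial.X i + ∑ j ∈ c₀.P.I, 0 * MvPolynomial.X j) (fun _ => 1) ξ =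
      ∑ i ∈ c₀.P.I.filter (fun i => a i < 0), Complex.exp (1 / 2 / ξ i) := by
    simp [P218F.stokesSum]
  have e5 : P218F.stokesAbs c₀.P.I a (fun _ => MvPolynomial.C (1 / 2))
      (fun i => MvPolynomial.X i + ∑ j ∈ c₀.P.I, 0 * MvPolynomial.X j) (fun _ => 1) ξ = S := by
    simp [P218F.stokesAbs, hS']
  rw [← Finset.sum_filter, ← Finset.sum_filter, ← Finset.mul_sum, ← Finset.mul_sum] at v3
  have v4 := v3.trans (add_le_add_right (mul_le_mul_of_nonneg_left (add_le_add e3 e2)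
    (by positivity)) _)
  have v5 := (norm_add_le _ _).trans (add_le_add ((norm_sub_le _ _).trans (add_le_add v1 v2)) v4)
  rw [e4, e5]
  refine le_trans (le_of_eq ?_) (v5.trans ?_)
  · have e6 : ∀ x y z x' y' : ℂ, x - y - z = x - x' - (y - y') + (x' - y' - z) := by
      intros
      ring
    exact congrArg _ (e6 ..)
  · have h1 := mul_le_mul_of_nonneg_right hB hS0
    have h2 := mul_le_mul_of_nonneg_right (le_abs_self C') hE0.le
    have h3 : 0 ≤ (‖BL k l L‖⁻¹ + ‖BL k l L‖) * E := by positivity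
    change 30 * (c₀.P.I.card + 1) * c₀.C₁ * _ * S + _ + (30 * (c₀.P.I.card + 1) * c₀.C₁ * _ * S + _)
      + (_ * S + c₀.P.I.card * C * _) ≤ _
    linarith

end Vale.Agent.P218N.J
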