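import Vale.Agent.P218N.J.Trunc
import Vale.Agent.P218N.J.Geo

/-! Deformation of the contours. -/

open Filter Topology Metric Set Complex
open scoped ComplexConjugate

noncomputable section

namespace Vale.Agent.P218N.J

open Vale.Agent.P218N.End

namespace MoveP

variable {K T t s l h : ℝ} {a Z p q : ℂ}

theorem freq_line {v : ℂ} (hv : v ≠ 0) {Q : ℂ → Prop} (hQ : ∀ᶠ τ : ℝ in 𝓝[>] l, Q (p + τ * v)) :
    ∃ᶠ m in 𝓝[≠] (p + l * v), Q m := by
  have h1 : Tendsto (fun τ : ℝ => p + τ * v) (𝓝[>] l) (𝓝[≠] (p + l * v)) := by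
    refine tendsto_nhdsWithin_iff.2 ⟨?_, ?_⟩
    · exact ((by fun_prop : Continuous fun τ : ℝ => p + τ * v).tendsto l).mono_left
        nhdsWithin_le_nhds
    · filter_upwards [self_mem_nhdsWithin] with τ hτ e
      have h2 : (τ : ℂ) = l := mul_right_cancel₀ hv (add_left_cancel e)
      exact (ne_of_gt hτ) (ofReal_injective h2)
  exact h1.frequently hQ.frequently

theorem ev_line (v : ℂ) {D : Set ℂ} (hD : IsOpen D) (hl : p + l * v ∈ D) :
    ∀ᶠ τ : ℝ in 𝓝 l, p + τ * v ∈ D :=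
  ((by fun_prop : Continuous fun τ : ℝ => p + τ * v).tendsto l).eventually (hD.mem_nhds hl)

theorem to_smul {z : ℂ} (hz : To l h z) {x : ℝ} (hx : 0 < x) : To l h (x * z) := by
  obtain ⟨z1, z2, z3⟩ := hz
  simp only [To, re_ofReal_mul, im_ofReal_mul]
  refine ⟨mul_pos hx z1, ?_, ?_⟩ <;> nlinarith

theorem open_r (l h : ℝ) (p : ℂ) : IsOpen {m | To l h (m - p)} :=
  (isOpen_to l h).preimage (f := fun m => m - p) (by fun_prop)

theorem open_l (l h : ℝ) (p : ℂ) : IsOpen {m | To l h (p - m)} :=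
  (isOpen_to l h).preimage (f := fun m => p - m) (by fun_prop)

theorem convex_r (l h : ℝ) (p : ℂ) : Convex ℝ {m | To l h (m - p)} := by
  intro x hx y hy α β hα hβ hab
  have e : α • x + β • y - p = α • (x - p) + β • (y - p) := by
    obtain rfl : α = 1 - β := by linarith
    simp only [real_smul]
    push_cast
    ring
  rw [mem_ofPred_eq, e]
  exact convex_to l h hx hy hα hβ hab

theorem convex_l (l h : ℝ) (p : ℂ) : Convex ℝ {m | To l h (p - m)} := by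
  intro x hx y hy α β hα hβ hab
  have e : p - (α • x + β • y) = α • (p - x) + β • (p - y) := by
    obtain rfl : α = 1 - β := by linarith
    simp only [real_smul]
    push_cast
    ring
  rw [mem_ofPred_eq, e]
  exact convex_to l h hx hy hα hβ hab

theorem cs_line (s σ : ℝ) (p q : ℂ) : cs s (p + σ * (q - p)) = cs s p + σ * (cs s q - cs s p) := by
  rw [cs_add, cs_real_mul, cs_sub]

theorem cs_half (s P : ℝ) (q : ℂ) : cs s ((P + q) / 2) = (P + cs s q) / 2 := by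
  apply Complex.ext <;> simp [cs]
  ring

theorem cs_seg {y : ℂ} (hy : y ∈ segment ℝ p q) : cs s y ∈ segment ℝ (cs s p) (cs s q) := by
  obtain ⟨σ, h1, rfl⟩ := mem_seg_iff.1 hy
  exact mem_seg_iff.2 ⟨σ, h1, (cs_line _ _ _ _).symm⟩

theorem seg_join {y : ℂ} (hy : y ∈ segment ℝ p q) :
    segment ℝ p y ∪ segment ℝ y q = segment ℝ p q := by
  obtain ⟨σ, h1, rfl⟩ := mem_seg_iff.1 hy
  exact CatP.seg_union h1.1 h1.2

theorem rh_seg {y : ℂ} {b : ℝ} (hy : y ∈ segment ℝ p q) (hp : ‖rh a p‖ ≤ b) (hq : ‖rh a q‖ ≤ b) :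
    ‖rh a y‖ ≤ b := by
  obtain ⟨σ, h1, rfl⟩ := mem_seg_iff.1 hy
  refine mem_closedBall_zero_iff.1 ((convex_closedBall (0 : ℂ) b).segment_subset
    (mem_closedBall_zero_iff.2 hp) (mem_closedBall_zero_iff.2 hq) (mem_seg_iff.2 ⟨σ, h1, ?_⟩))
  simp only [rh]
  ring

theorem rseg {P : ℝ} (hK : 1000 ≤ K) (hT : 1000 * K ≤ T) (hP : T < P)
    (ha : ‖a‖ * (P + 2) ≤ 1 / 100) : SegOK (1 / 100) K a T P := by
  have hx : ∀ x ∈ ({(T : ℂ), (P : ℂ)} : Set ℂ), ∃ r : ℝ, x = r ∧ T ≤ r ∧ r ≤ P := by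
    rintro x (rfl | rfl)
    · exact ⟨T, rfl, le_rfl, hP.le⟩
    · exact ⟨P, rfl, hP.le, le_rfl⟩
  rw [← sub_pos] at hP
  refine segOK_cone (L := 1) ?_ (by norm_num) (by norm_num) (fun x h1 y h2 => ?_) (by linarith)
  · rw [← ofReal_sub]
    exact Tn.real hP (by norm_num) (by norm_num)
  · obtain ⟨u, rfl, u1, -⟩ := hx x h1
    obtain ⟨v, rfl, v1, v2⟩ := hx y h2
    obtain ⟨r1, r2, -⟩ := rh_tn (a := a) (T := v) (by linarith)
      (le_trans (mul_le_mul_of_nonneg_left (by linarith) (norm_nonneg a)) ha)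
    have hu : 0 < u := by linarith
    constructor
    · rw [← ofReal_sub, conj_ofReal, ← ofReal_mul]
      exact (r1.mono (by norm_num) (by norm_num)).smul (mul_pos hP hu)
    · rw [norm_real, Real.norm_of_nonneg hu.le]
      nlinarith [re_le_norm (rh a v)]

theorem to_U (h : GeoA K T a Z t) : To (-1 / 20) (1 / 4) (U0 Z t - T) := by
  have h1 := h.K0
  have h2 := h.KT
  have h3 := h.t0
  have h4 := h.Zt
  obtain ⟨h5, h6⟩ := abs_le.1 h.Zi
  have h7 := h.ZT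
  simp only [To, sub_re, sub_im, ofReal_re, ofReal_im, U0_re, U0_im]
  refine ⟨?_, ?_, ?_⟩ <;> linarith

theorem rad1 (h : GeoA K T a Z t) {m : ℂ} (hm : m ∈ closedBall (U0 Z t) (t / 100)) :
    SegOK (1 / 100) K a T m := by
  simpa using (h.rad hm (σ := 1 / 10) (σ' := 1) le_rfl (by norm_num) le_rfl).1

end MoveP

open MoveP

/-- the first vertex may be moved near the starting point -/
theorem GeoA.start {K T t : ℝ} {a Z : ℂ} (h : GeoA K T a Z t) {U m : ℂ}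
    (hU : U ∈ closedBall (U0 Z t) (t / 100)) (hm : ‖m - T‖ ≤ T / 10)
    (hd : Tn (-1 / 3) (1 / 3) (m - T)) : SegOK (1 / 100) K a T m ∧ SegOK (1 / 100) K a m U := by
  have h1 := h.K0
  have h2 := h.KT
  have h7 := h.ZT
  have hT : 0 < T := by linarith
  obtain ⟨m1, m2, m3, m4⟩ := near_re hm
  rw [ofReal_re] at m1 m2
  rw [ofReal_im] at m3 m4
  have m0 : T < m.re := by simpa using hd.1
  have m5 : ‖m‖ ≤ 11 / 10 * T := by
    have := norm_add_le (m - T) T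
    rw [sub_add_cancel, norm_real, Real.norm_of_nonneg hT.le] at this
    linarith
  have m6 : Tn (-1 / 10) (1 / 10) m := by refine ⟨?_, ?_, ?_⟩ <;> linarith
  have m7 : T ≤ ‖m‖ := m0.le.trans (re_le_norm m)
  obtain ⟨r1, r2, -⟩ := tn_small (a := a) (y := m) (by nlinarith [h.aT, norm_nonneg a])
  obtain ⟨q1, q2, -⟩ := rh_tn hT.le h.aT
  constructor
  · have x1 : ∀ x ∈ ({(T : ℂ), m} : Set ℂ), Tn (-1 / 10) (1 / 10) x ∧ T ≤ ‖x‖ ∧
        Tn (-1 / 10) (1 / 10) (rh a x) ∧ 1 ≤ ‖rh a x‖ := by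
      rintro x (rfl | rfl)
      · exact ⟨Tn.real hT (by norm_num) (by norm_num), by simp [abs_of_pos hT],
          q1.mono (by norm_num) (by norm_num), by linarith [re_le_norm (rh a T)]⟩
      · exact ⟨m6, m7, r1, r2⟩
    refine segOK_cone (L := 1) (hd.mono (by norm_num) (by norm_num)) (by norm_num) (by norm_num)
      (fun x hx y hy => ⟨?_, ?_⟩) (by linarith)
    · exact (hd.conj.mul (L := -1 / 2) (H := 1 / 2) (x1 x hx).1 (by norm_num [Cor])).mul
        (x1 y hy).2.2.1 (by norm_num [Cor])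
    · nlinarith [(x1 x hx).2.1, (x1 y hy).2.2.2]
  · obtain ⟨u1, ⟨u2, u3, u4⟩, u5, -⟩ := h.tn (Or.inl hU)
    simp only [sub_re, sub_im, ofReal_re, ofReal_im] at u2 u3 u4
    have d1 : Tn (-1 / 40) (13 / 50) (U - m) := by
      simp only [Tn, sub_re, sub_im]
      refine ⟨?_, ?_, ?_⟩ <;> linarith
    have d2 : Tn (-3 / 10) (3 / 10) (conj (U - m) * U) := d1.conj.mul u1 (by norm_num [Cor])
    have u6 : 900 * T ≤ ‖U‖ := by linarith [re_le_norm U]
    have u7 : 900 * T ≤ ‖U * rh a m‖ := by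
      rw [norm_mul]
      nlinarith
    refine segOK_of rfl (d1.mono (by norm_num) (by norm_num))
      (ok_of_tn (L := 1) ?_ (by norm_num) (by norm_num) ?_) (ok_dom ?_ ?_ (by linarith))
      (ok_of_tn (L := 40) ?_ (by norm_num) (by norm_num) ?_)
    · rw [Om, ← mul_assoc]
      exact (d1.conj.mul (L := -1 / 2) (H := 1 / 2) m6 (by norm_num [Cor])).mul r1
        (by norm_num [Cor])
    · rw [Om, norm_mul]
      nlinarith
    · rw [← mul_assoc]
      exact d2.mul r1 (by norm_num [Cor])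
    · have := mul_le_mul m5 (h.g3 U (Or.inl hU)).2 (norm_nonneg _) (by linarith)
      rw [norm_mul]
      linarith
    · rw [Om, ← mul_assoc]
      exact d2.mul (h.g1 U hU) (by norm_num [Cor])
    · rw [Om, norm_mul]
      linarith [h.size' (Or.inl hU) (Or.inl hU)]

set_option linter.unusedSectionVars false

variable {ι : Type} [Fintype ι] [DecidableEq ι] {c : Cx ι} {x ah Z U E : ℂ}
  {rd s P P' t w b n : ℝ}

namespace Reg

theorem geo0 (H : c.Ok) (h : Reg c x ah rd s P Z t) (hE : E ∈ closedBall (E0 Z t) (t / 100)) :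
    GeoA c.P.K P (cs s ah) Z t := h.geo ah (mem_closedBall_self ((h.side E hE).rd_pos H).le)

/-- the real prefix (`tn_small`, `real_seg`) -/
theorem seg0 (H : c.Ok) (h : Reg c x ah rd s P Z t) :
    ∀ a ∈ closedBall ah rd, SegOK (1 / 100) c.P.K a c.P.T P := fun a ha =>
  rseg H.spec.K0 H.spec.KT h.TP (by simpa only [norm_cs h.hs] using (h.geo a ha).aT)

theorem endG' (H : c.Ok) (h : Reg c x ah rd s P Z t) (hU : U ∈ closedBall (U0 Z t) (t / 100))
    (hE : E ∈ closedBall (E0 Z t) (t / 100)) {m : ℂ} (hm : ‖m‖ ≤ c.M / c.ρ)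
    (hs : ∀ a ∈ closedBall ah rd,
      SegOK (1 / 100) c.P.K (cs s a) P m ∧ SegOK (1 / 100) c.P.K (cs s a) m U) :
    EndG c x ⟨ah, rd, pq c.P.T P (cs s m) (cs s U) (cs s E)⟩ := by
  have g := h.geo0 H hE
  have h1 := h.hs
  refine endG_pq H (h.side E hE) h.lo (by linarith [g.K0, g.KT, g.ZT, h.up])
    (by rwa [norm_cs h1]) ?_ ?_ fun a ha => ⟨h.seg0 H a ha, SegOK.of_cs h1 ?_, SegOK.of_cs h1 ?_,
      SegOK.of_cs h1 ?_⟩
  · rw [norm_cs h1]
    exact (g.tn (Or.inl hU)).2.2.2.trans h.up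
  · rw [norm_cs h1]
    exact (g.tn (Or.inr hE)).2.2.2.trans h.up
  · rw [cs_cs h1, cs_ofReal]
    exact (hs a ha).1
  · rw [cs_cs h1, cs_cs h1]
    exact (hs a ha).2
  · rw [cs_cs h1, cs_cs h1]
    exact (h.geo a ha).last hU hE

theorem endG (H : c.Ok) (h : Reg c x ah rd s P Z t) (hU : U ∈ closedBall (U0 Z t) (t / 100))
    (hE : E ∈ closedBall (E0 Z t) (t / 100)) :
    EndG c x ⟨ah, rd, ctr c.P.T P (cs s U) (cs s E)⟩ := by
  have g := h.geo0 H hE
  rw [ctr, ← cs_half]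
  refine h.endG' H hU hE ?_ fun a ha => (rad1 (h.geo a ha) hU).halves (by norm_num)
  have h1 := norm_add_le (P : ℂ) U
  rw [norm_real, Real.norm_of_nonneg (by linarith [g.K0, g.KT])] at h1
  rw [norm_div, Complex.norm_ofNat]
  linarith [g.K0, g.KT, g.ZT, h.up, (g.tn (Or.inl hU)).2.2.2]

theorem com (h : Reg c x ah rd s P Z t) {D : Set ℂ} {q₁ q₂ q₃ : ℂ → ℂ} :
    ∃ t₁ ∈ Icc (0 : ℝ) 1, ∀ m ∈ D,
      1 / (c.M * c.ρ) ≤ ((pq c.P.T P (q₁ m) (q₂ m) (q₃ m)).ze t₁).re ∧ ∀ u ∈ Icc 0 t₁,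
        ((pq c.P.T P (q₁ m) (q₂ m) (q₃ m)).ze u).im = 0 ∧ ∀ m' ∈ D,
          (pq c.P.T P (q₁ m) (q₂ m) (q₃ m)).ze u = (pq c.P.T P (q₁ m') (q₂ m') (q₃ m')).ze u :=
  ⟨1 / 2, ⟨by norm_num, by norm_num⟩, fun m _ => ⟨by rw [pq_half]; simpa using h.lo,
    fun u hu => ⟨(pq_left hu.2).2, fun m' _ => (pq_left hu.2).1.trans (pq_left hu.2).1.symm⟩⟩⟩

/-- The first vertex moves in an open convex set which meets the segment `P U`: `eqv_hol` on
`cs s ⁻¹' D`; for vertices on the segment `eqv_rep` applies. -/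
theorem first (H : c.Ok) (h : Reg c x ah rd s P Z t) (hU : U ∈ closedBall (U0 Z t) (t / 100))
    (hE : E ∈ closedBall (E0 Z t) (t / 100)) {D : Set ℂ} (hD : IsOpen D) (hc : Convex ℝ D)
    (hm : ∀ m ∈ D, ‖m‖ ≤ c.M / c.ρ ∧ ∀ a ∈ closedBall ah rd,
      SegOK (1 / 100) c.P.K (cs s a) P m ∧ SegOK (1 / 100) c.P.K (cs s a) m U)
    {l : ℝ} (hl : l ∈ Ioo (0 : ℝ) 1) (hit : P + l * (U - P) ∈ D) :
    ∀ m ∈ D, Eqv c x ⟨ah, rd, pq c.P.T P (cs s m) (cs s U) (cs s E)⟩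
      ⟨ah, rd, ctr c.P.T P (cs s U) (cs s E)⟩ := by
  have h1 := h.hs
  have hD' : IsOpen (cs s ⁻¹' D) := hD.preimage (continuous_cs s)
  have hG : ∀ m ∈ cs s ⁻¹' D, EndG c x ⟨ah, rd, pq c.P.T P m (cs s U) (cs s E)⟩ := fun m k => by
    have := h.endG' H hU hE (hm _ k).1 (hm _ k).2
    rwa [cs_cs h1] at this
  obtain ⟨dz, dg⟩ := differentiableOn_pq (T := c.P.T) (P := P) (U := cs s ⁻¹' D)
    (q₁ := fun m => m) (q₂ := fun _ => cs s U) (q₃ := fun _ => cs s E) differentiableOn_id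
    (differentiableOn_const _) (differentiableOn_const _)
  have h0 : (P : ℂ) + l * (cs s U - P) ∈ cs s ⁻¹' D := by
    rwa [mem_preimage, cs_line, cs_cs h1, cs_ofReal]
  have hv : cs s U - P ≠ 0 := fun e => by
    have k1 := ((h.geo0 H hE).tn (Or.inl hU)).2.1.1
    have k2 := congrArg re e
    simp only [sub_re, cs_re, zero_re] at k1 k2
    linarith
  intro m k
  refine eqv_hol H hD' (convex_cs s hc).isPreconnected dz dg hG h.com h0 (freq_line hv ?_) _
    (by rwa [mem_preimage, cs_cs h1])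
  filter_upwards [mem_nhdsWithin_of_mem_nhds (ev_line _ hD' h0),
    mem_nhdsWithin_of_mem_nhds (Ioo_mem_nhds hl.1 hl.2)] with τ k1 k2
  refine eqv_rep H (hG _ k1) (h.endG H hU hE) (subset_of_eq ?_) (ctr_one.trans pq_one.symm)
  rw [rng_pq, union_assoc (segment ℝ (c.P.T : ℂ) P), CatP.seg_union k2.1.le k2.2.le, rng_ctr]

/-- The corner moves.  Use `first` at `U0` with
`D = {m ∈ ball U0 (t/100), To (-6/5) (1/4) (U0 - m)}`; for `m = U0 - l (E - U0)`, `l > 0` small,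
the contours `P, m, U0, E` and `ctr P m E` have the same trace; then `eqv_hol` in the corner. -/
theorem slide (H : c.Ok) (h : Reg c x ah rd s P Z t) (hU : U ∈ ball (U0 Z t) (t / 100))
    (hE : E ∈ closedBall (E0 Z t) (t / 100)) :
    Eqv c x ⟨ah, rd, ctr c.P.T P (cs s U) (cs s E)⟩
      ⟨ah, rd, ctr c.P.T P (cs s (U0 Z t)) (cs s E)⟩ := by
  have h1 := h.hs
  have g := h.geo0 H hE
  have t0 := g.t0
  have b0 : U0 Z t ∈ ball (U0 Z t) (t / 100) := mem_ball_self (by linarith)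
  obtain ⟨l, l1, l2⟩ : ∃ l : ℝ, P + l * (U0 Z t - P) ∈ ball (U0 Z t) (t / 100) ∧ l ∈ Ioo 0 1 :=
    (((ev_line (l := 1) (U0 Z t - P) isOpen_ball (by simpa using t0)).filter_mono
      (nhdsWithin_le_nhds (s := Iio 1))).and (Ioo_mem_nhdsLT zero_lt_one)).exists
  have k0 := h.first H (ball_subset_closedBall b0) hE
    (isOpen_ball.inter (open_l (-6 / 5) (1 / 4) (U0 Z t)))
    ((convex_ball _ _).inter (convex_l _ _ _)) (fun m hm =>
      ⟨(g.tn (Or.inl (ball_subset_closedBall hm.1))).2.2.2.trans h.up, fun a ha =>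
        ⟨rad1 (h.geo a ha) (ball_subset_closedBall hm.1),
          (h.geo a ha).short (ball_subset_closedBall hm.1) (To.tn hm.2)⟩⟩) l2 ⟨l1, by
      obtain ⟨k1, k2, k3⟩ := to_U g
      rw [mem_ofPred_eq, show U0 Z t - (P + l * (U0 Z t - P)) = ((1 - l : ℝ) : ℂ) * (U0 Z t - P) by
        push_cast; ring]
      exact to_smul ⟨k1, by linarith, k3⟩ (sub_pos.2 l2.2)⟩
  have hD' : IsOpen (cs s ⁻¹' ball (U0 Z t) (t / 100)) := isOpen_ball.preimage (continuous_cs s)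
  have hG : ∀ m ∈ cs s ⁻¹' ball (U0 Z t) (t / 100), EndG c x ⟨ah, rd, ctr c.P.T P m (cs s E)⟩ :=
    fun m k => by
      have := h.endG H (ball_subset_closedBall k) hE
      rwa [cs_cs h1] at this
  obtain ⟨dz, dg⟩ := differentiableOn_pq (T := c.P.T) (P := P)
    (U := cs s ⁻¹' ball (U0 Z t) (t / 100)) (q₁ := fun m => (P + m) / 2) (q₂ := fun m => m)
    (q₃ := fun _ => cs s E) (by fun_prop) differentiableOn_id (differentiableOn_const _)
  have hd : To (-6 / 5) (1 / 4) (E - U0 Z t) := by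
    obtain ⟨e1, e2, e3, e4⟩ := near_E0 hE
    simp only [To, sub_re, sub_im, U0_re, U0_im]
    refine ⟨?_, ?_, ?_⟩ <;> linarith
  have h0 : cs s (U0 Z t) + (0 : ℝ) * (cs s (U0 Z t) - cs s E) ∈
      cs s ⁻¹' ball (U0 Z t) (t / 100) := by
    rwa [mem_preimage, ofReal_zero, zero_mul, add_zero, cs_cs h1]
  have hv : cs s (U0 Z t) - cs s E ≠ 0 := fun e => by
    have k1 := hd.1
    have k2 := congrArg re e
    simp only [sub_re, cs_re, zero_re] at k1 k2
    linarith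
  refine eqv_hol H hD' (convex_cs s (convex_ball _ _)).isPreconnected dz dg hG h.com h0
    (freq_line hv ?_) _ (by rwa [mem_preimage, cs_cs h1])
  filter_upwards [mem_nhdsWithin_of_mem_nhds (ev_line _ hD' h0), self_mem_nhdsWithin] with τ k1 k2
  have k3 : 0 < τ := k2
  have e : cs s (U0 Z t) + τ * (cs s (U0 Z t) - cs s E) = cs s (U0 Z t + τ * (U0 Z t - E)) := by
    rw [cs_add, cs_real_mul, cs_sub]
  have k4 := hG _ k1
  rw [e] at k1 k4 ⊢
  rw [mem_preimage, cs_cs h1] at k1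
  have k5 := k0 _ ⟨k1, by
    rw [mem_ofPred_eq, show U0 Z t - (U0 Z t + τ * (U0 Z t - E)) = τ * (E - U0 Z t) by ring]
    exact to_smul hd k3⟩
  refine (eqv_rep H k4 k5.1 (subset_of_eq ?_) (pq_one.trans ctr_one.symm)).trans k5
  rw [rng_ctr, rng_pq, union_assoc _ (segment ℝ (cs s (U0 Z t + τ * (U0 Z t - E))) _),
    seg_join (cs_seg (mem_seg_iff.2 ⟨τ / (1 + τ), ⟨by positivity,
      (div_le_one (by linarith)).2 (by linarith)⟩, ?_⟩))]
  have : (1 + τ : ℂ) ≠ 0 := by exact_mod_cast (by linarith : 1 + τ ≠ 0)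
  push_cast
  field_simp
  ring

theorem wt' (H : c.Ok) (h : Reg c x ah rd s P Z t)
    (hw : Real.sqrt (b / (9 / 10 * Z.re)) * Real.exp (-((Z.re + 49 / 100 * t) / 4)) ≤ w)
    (hE : E ∈ closedBall (E0 Z t) (t / 100)) {u v : ℝ} (h0 : 0 ≤ u) (hu : u ≤ b) (hv : E.re ≤ v) :
    Real.sqrt (u / v) * Real.exp (-(E.re / 4)) ≤ w := by
  have g := h.geo0 H hE
  have k1 := (g.tn (Or.inr hE)).2.2.1
  have k2 := (near_E0 hE).1
  have k3 : 0 < 9 / 10 * Z.re := by linarith [g.t0, g.Zt]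
  exact le_trans (mul_le_mul (Real.sqrt_le_sqrt (div_le_div₀ (h0.trans hu) hu k3 (k1.trans hv)))
    (Real.exp_le_exp.2 (by linarith)) (Real.exp_pos _).le (Real.sqrt_nonneg _)) hw

theorem wt (H : c.Ok) (h : Reg c x ah rd s P Z t) (hb : ∀ a ∈ closedBall ah rd,
      ∀ y ∈ closedBall (U0 Z t) (t / 100) ∪ closedBall (E0 Z t) (t / 100), ‖rh (cs s a) y‖ ≤ b)
    (hw : Real.sqrt (b / (9 / 10 * Z.re)) * Real.exp (-((Z.re + 49 / 100 * t) / 4)) ≤ w)
    (hE : E ∈ closedBall (E0 Z t) (t / 100)) {γ : Path} (hγ : γ.ze 1 = cs s E) :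
    Wt ⟨ah, rd, γ⟩ w := by
  intro a ha
  simp only [hγ, cs_re]
  refine h.wt' H hw hE (norm_nonneg _) ?_ (re_le_norm (cs s E))
  rw [← norm_cs h.hs, cs_rh h.hs, cs_cs h.hs]
  exact hb a ha E (Or.inr hE)

theorem trunc (H : c.Ok) (h : Reg c x ah rd s P Z t) (hb : ∀ a ∈ closedBall ah rd,
      ∀ y ∈ closedBall (U0 Z t) (t / 100) ∪ closedBall (E0 Z t) (t / 100), ‖rh (cs s a) y‖ ≤ b)
    (hw : Real.sqrt (b / (9 / 10 * Z.re)) * Real.exp (-((Z.re + 49 / 100 * t) / 4)) ≤ w)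
    (hU : U ∈ closedBall (U0 Z t) (t / 100)) (hE : E ∈ closedBall (E0 Z t) (t / 100)) {F : ℂ}
    (hF : F ∈ closedBall (E0 Z t) (t / 100)) (hs : F ∈ segment ℝ U E) :
    Lnk c x c.C₁ w ⟨ah, rd, ctr c.P.T P (cs s U) (cs s E)⟩
      ⟨ah, rd, ctr c.P.T P (cs s U) (cs s F)⟩ := by
  have h1 := h.hs
  have g := h.geo0 H hE
  refine lnk_trunc H (h.endG H hU hE) (h.endG H hU hF) ?_ fun a ha ζ hζ k => ?_
  · rw [rng_ctr, rng_ctr, ← seg_join (cs_seg (s := s) hs)]
    exact union_subset_union_right _ subset_union_left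
  rw [ctr_one, cs_re] at k ⊢
  refine h.wt' H hw hF (norm_nonneg _) ?_ (k.trans (re_le_norm ζ))
  have k1 : U.re < F.re := by linarith [(near_U0 hU).2.1, (near_E0 hF).1, g.t0]
  have k2 : P < U.re := by simpa using (g.tn (Or.inl hU)).2.1.1
  have k3 := h.TP
  have k4 : ∀ p q : ℂ, p.re < F.re → q.re < F.re → ζ ∉ segment ℝ p q := fun p q hp hq hz =>
    absurd ((convex_halfSpace_re_lt F.re).segment_subset hp hq hz) (not_lt.2 k)
  rw [rng_ctr] at hζ
  rcases hζ with (hz | hz) | hz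
  · exact absurd hz (k4 _ _ (by rw [ofReal_re]; linarith) (by rw [ofReal_re]; linarith))
  · exact absurd hz (k4 _ _ (by rw [ofReal_re]; linarith) k1)
  · have k5 := cs_seg (s := s) hz
    rw [cs_cs h1, cs_cs h1] at k5
    rw [← norm_cs h1, cs_rh h1]
    exact rh_seg k5 (hb a ha U (Or.inl hU)) (hb a ha E (Or.inr hE))

/-- The end point moves.  With `E'' = E0 + (U0 - E0) / 500`, `Ua = U0 - 499 (E - E0)` (so that
`E''` lies on the segments `U0 E0` and `Ua E`):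
`[U0, E0] ~ [U0, E''] = [Ua, E''] ~ [Ua, E] = [U0, E] = [U, E]` by `lnk_trunc` and `slide`. -/
theorem move (H : c.Ok) (h : Reg c x ah rd s P Z t) (hb : ∀ a ∈ closedBall ah rd,
      ∀ y ∈ closedBall (U0 Z t) (t / 100) ∪ closedBall (E0 Z t) (t / 100), ‖rh (cs s a) y‖ ≤ b)
    (hw : Real.sqrt (b / (9 / 10 * Z.re)) * Real.exp (-((Z.re + 49 / 100 * t) / 4)) ≤ w)
    (hU : U ∈ ball (U0 Z t) (t / 100)) (hE : E ∈ closedBall (E0 Z t) (t / 100000)) :
    Lnk c x (2 * c.C₁) w ⟨ah, rd, ctr c.P.T P (cs s (U0 Z t)) (cs s (E0 Z t))⟩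
      ⟨ah, rd, ctr c.P.T P (cs s U) (cs s E)⟩ := by
  have t0 : 0 < t := by linarith [pos_of_mem_ball hU]
  have e0 : E ∈ closedBall (E0 Z t) (t / 100) := closedBall_subset_closedBall (by linarith) hE
  have e1 : E0 Z t + (U0 Z t - E0 Z t) / 500 ∈ closedBall (E0 Z t) (t / 100) := by
    rw [mem_closedBall_iff_norm, add_sub_cancel_left, norm_div, Complex.norm_ofNat]
    have := norm_le_of (z := U0 Z t - E0 Z t) (x := 5 / 2 * t) (y := 5 / 2 * t)
      (by rw [sub_re, U0_re, E0_re]; linarith) (by rw [sub_re, U0_re, E0_re]; linarith)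
      (by rw [sub_im, U0_im, E0_im]; linarith) (by rw [sub_im, U0_im, E0_im]; linarith)
    linarith
  have e2 : U0 Z t - 499 * (E - E0 Z t) ∈ ball (U0 Z t) (t / 100) := by
    rw [mem_ball_iff_norm, sub_sub_cancel_left, norm_neg, norm_mul, Complex.norm_ofNat]
    linarith [mem_closedBall_iff_norm.1 hE]
  have k1 := h.trunc H hb hw (mem_closedBall_self (by linarith))
    (mem_closedBall_self (by linarith)) e1
    (mem_seg_iff.2 ⟨499 / 500, by norm_num, by push_cast; ring⟩)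
  have k2 := h.trunc H hb hw (ball_subset_closedBall e2) e0 e1
    (mem_seg_iff.2 ⟨499 / 500, by norm_num, by push_cast; ring⟩)
  rw [two_mul]
  exact ((k1.eqv_right (h.slide H e2 e1).symm).trans k2.symm).eqv_right
    ((h.slide H e2 e0).trans (h.slide H hU e0).symm)

/-- The end of the real prefix moves: `first` with
`D = {m | ‖m - P‖ < P / 10, To (-1/3) (1/3) (m - P)}` (`GeoA.start`), then `eqv_rep`. -/
theorem start (H : c.Ok) (h : Reg c x ah rd s P Z t) (h' : Reg c x ah rd s P' Z t) (h1 : P ≤ P')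
    (h2 : P' - P < P / 10) (hU : U ∈ closedBall (U0 Z t) (t / 100))
    (hE : E ∈ closedBall (E0 Z t) (t / 100)) :
    Eqv c x ⟨ah, rd, ctr c.P.T P (cs s U) (cs s E)⟩
      ⟨ah, rd, ctr c.P.T P' (cs s U) (cs s E)⟩ := by
  rcases h1.eq_or_lt with rfl | h3
  · exact Eqv.refl H (h.endG H hU hE)
  have g := h.geo0 H hE
  have p0 : 0 < P := by linarith [g.K0, g.KT]
  obtain ⟨l, l1, l2⟩ : ∃ l : ℝ, P + l * (U - P) ∈ ball (P : ℂ) (P / 10) ∧ l ∈ Ioo 0 1 :=
    (((ev_line (l := 0) (U - P) isOpen_ball (by simpa using p0)).filter_mono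
      (nhdsWithin_le_nhds (s := Ioi 0))).and (Ioo_mem_nhdsGT zero_lt_one)).exists
  have k0 := h.first H hU hE (isOpen_ball.inter (open_r (-1 / 3) (1 / 3) P))
    ((convex_ball _ _).inter (convex_r _ _ _)) (fun m hm => ⟨by
      have k := norm_add_le (m - P) P
      rw [sub_add_cancel, norm_real, Real.norm_of_nonneg p0.le] at k
      linarith [mem_ball_iff_norm.1 hm.1, g.ZT, h.up], fun a ha =>
        (h.geo a ha).start hU (mem_ball_iff_norm.1 hm.1).le (To.tn hm.2)⟩) l2 ⟨l1, by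
      obtain ⟨k1, k2, k3⟩ := (g.tn (Or.inl hU)).2.1
      rw [mem_ofPred_eq, add_sub_cancel_left]
      exact to_smul ⟨k1, by linarith, by linarith⟩ l2.1⟩ P' ⟨by
      rw [mem_ball_iff_norm, ← ofReal_sub, norm_real, Real.norm_of_nonneg (by linarith)]
      exact h2, by
      simp only [mem_ofPred_eq, To, sub_re, sub_im, ofReal_re, ofReal_im]
      refine ⟨?_, ?_, ?_⟩ <;> linarith⟩
  rw [cs_ofReal] at k0
  refine k0.symm.trans (eqv_rep H k0.1 (h'.endG H hU hE) (subset_of_eq ?_)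
    (ctr_one.trans pq_one.symm))
  have k1 : 0 < P' - c.P.T := by linarith [h.TP]
  have k2 : (P : ℂ) ∈ segment ℝ (c.P.T : ℂ) P' := mem_seg_iff.2 ⟨(P - c.P.T) / (P' - c.P.T),
    ⟨div_nonneg (by linarith [h.TP]) k1.le, (div_le_one k1).2 (by linarith)⟩, by
      rw [← ofReal_sub, ← ofReal_mul, div_mul_cancel₀ _ k1.ne', ← ofReal_add, add_sub_cancel]⟩
  rw [rng_ctr, rng_pq, seg_join k2]

/-- `first` with `D = {To (-1/20) (1/4) (m - P), To (-1/20) (1/4) (U0 - m), Z.re / 2 < m.re}`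
(`GeoI.diamond`, `l = 3/4`). -/
theorem diamond (H : c.Ok) (h : Reg c x ah rd s P Z t)
    (hI : ∀ a ∈ closedBall ah rd, GeoI c.P.K P n (cs s a) Z t) (ht : 100 * t ≤ Z.re)
    (t0 : 0 ≤ t) :
    Eqv c x ⟨ah, rd, pq c.P.T P (cs s (Z - 22 * t)) (cs s (U0 Z t)) (cs s (E0 Z t))⟩
      ⟨ah, rd, ctr c.P.T P (cs s (U0 Z t)) (cs s (E0 Z t))⟩ := by
  have hE : E0 Z t ∈ closedBall (E0 Z t) (t / 100) := mem_closedBall_self (by linarith)
  have g := h.geo0 H hE
  have k0 := g.K0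
  have kT := g.KT
  have zT := g.ZT
  have t1 := g.t0
  obtain ⟨z1, z2⟩ := abs_le.1 g.Zi
  refine h.first H (mem_closedBall_self (by linarith)) hE
    (((open_r (-1 / 20) (1 / 4) P).inter (open_l (-1 / 20) (1 / 4) (U0 Z t))).inter
      (isOpen_lt (continuous_const (y := Z.re / 2)) continuous_re))
    (((convex_r _ _ _).inter (convex_l _ _ _)).inter (convex_halfSpace_re_gt _))
    (fun m hm => ⟨?_, fun a ha => (hI a ha).diamond (To.tn hm.1.1) (To.tn hm.1.2) hm.2.le⟩)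
    (l := 3 / 4) (by norm_num) ⟨⟨?_, ?_⟩, ?_⟩ _ ⟨⟨?_, ?_⟩, ?_⟩
  · obtain ⟨⟨⟨m1, m2, m3⟩, m4, -⟩, -⟩ := hm
    simp only [sub_re, sub_im, ofReal_re, ofReal_im, U0_re] at m1 m2 m3 m4
    have := norm_le_of (z := m) (x := Z.re) (y := Z.re) (by linarith) (by linarith) (by linarith)
      (by linarith)
    linarith [h.up]
  · rw [mem_ofPred_eq, add_sub_cancel_left]
    exact to_smul (to_U g) (by norm_num)
  · rw [mem_ofPred_eq, show U0 Z t - (P + ((3 / 4 : ℝ) : ℂ) * (U0 Z t - P)) =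
      ((1 / 4 : ℝ) : ℂ) * (U0 Z t - P) by push_cast; ring]
    exact to_smul (to_U g) (by norm_num)
  · rw [mem_ofPred_eq, add_re, re_ofReal_mul, sub_re, ofReal_re, U0_re]
    linarith
  all_goals
    have e1 : (Z - 22 * t).re = Z.re - 22 * t := by simp
    have e2 : (Z - 22 * t).im = Z.im := by simp
    simp only [mem_ofPred_eq, To, sub_re _ (P : ℂ), sub_im _ (P : ℂ), sub_re (U0 Z t),
      sub_im (U0 Z t), ofReal_re, ofReal_im, U0_re, U0_im, e1, e2]
  · refine ⟨?_, ?_, ?_⟩ <;> linarith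
  · refine ⟨?_, ?_, ?_⟩ <;> linarith
  · linarith

end Reg

end Vale.Agent.P218N.J
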