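import Vale.Agent.P218N.J.Defs

/-! The inner equation along the legs: comparison with slow solutions, the Noether identity. -/

open Filter Topology Metric Set Complex

noncomputable section

namespace Vale.Agent.P218N.J

open Vale.Agent.P218N.Stokes

/-- backward Gronwall inequality with a source -/
theorem back_gron {φ φ' : ℝ → ℂ} {G γ : ℝ → ℝ} {s T L E : ℝ} (hT : s ≤ T) (hL : 0 ≤ L)
    (hφ : ∀ t ∈ Icc s T, HasDerivAt φ (φ' t) t) (hG : ∀ t, HasDerivAt G (γ t) t)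
    (hγ : ∀ t, 0 ≤ γ t) (hE : 0 ≤ E) (hb : ∀ t ∈ Icc s T, ‖φ' t‖ ≤ γ t * (L * ‖φ t‖ + E)) :
    ‖φ s‖ ≤ Real.exp (L * (G T - G s)) * (‖φ T‖ + E * (G T - G s)) := by
  have mono : Monotone G := monotone_of_deriv_nonneg (fun t => (hG t).differentiableAt)
    fun t => by rw [(hG t).deriv]; exact hγ t
  have key : ∀ δ : ℝ, 0 < δ → ‖φ s‖ ≤
      Real.exp (L * (G T - G s)) * (‖φ T‖ + E * (G T - G s) + δ * (T - s)) := fun δ hδ => by
    have dG : ∀ u, HasDerivAt (fun u => G T - G (-u)) (γ (-u)) u := fun u => by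
      simpa using ((hG (-u)).comp u (hasDerivAt_neg u)).const_sub (G T)
    have dφ : ∀ u ∈ Icc (-T) (-s), HasDerivAt (fun u => φ (-u)) (-φ' (-u)) u := fun u hu => by
      have hu' : -u ∈ Icc s T := ⟨by linarith [hu.2], by linarith [hu.1]⟩
      exact ((hφ (-u) hu').scomp u (hasDerivAt_neg u)).congr_deriv (by simp)
    have := image_norm_le_of_norm_deriv_right_lt_deriv_boundary (f := fun u => φ (-u))
      (f' := fun u => -φ' (-u)) (a := -T) (b := -s)
      (B := fun u => Real.exp (L * (G T - G (-u))) * (‖φ T‖ + E * (G T - G (-u)) + δ * (T + u)))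
      (B' := fun u => Real.exp (L * (G T - G (-u))) * (L * γ (-u)) *
        (‖φ T‖ + E * (G T - G (-u)) + δ * (T + u)) +
        Real.exp (L * (G T - G (-u))) * (E * γ (-u) + δ))
      (fun u hu => (dφ u hu).continuousAt.continuousWithinAt)
      (fun u hu => (dφ u (Ico_subset_Icc_self hu)).hasDerivWithinAt) (by simp)
      (fun u => by
        refine (((dG u).const_mul L).exp.mul ((((dG u).const_mul E).const_add ‖φ T‖).add
          (((hasDerivAt_id u).const_add T).const_mul δ))).congr_deriv ?_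
        simp)
      (fun u hu hB => by
        have h1 := hb (-u) ⟨by linarith [hu.2], by linarith [hu.1]⟩
        have h2 : 1 ≤ Real.exp (L * (G T - G (-u))) :=
          Real.one_le_exp (mul_nonneg hL (sub_nonneg.2 (mono (by linarith [hu.1]))))
        have h3 : 0 ≤ E * γ (-u) := mul_nonneg hE (hγ _)
        rw [norm_neg]
        rw [hB] at h1
        nlinarith)
      (right_mem_Icc.2 (by linarith))
    simpa [sub_eq_add_neg] using this
  have lim : Tendsto (fun δ : ℝ => Real.exp (L * (G T - G s)) *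
      (‖φ T‖ + E * (G T - G s) + δ * (T - s))) (𝓝[>] 0)
      (𝓝 (Real.exp (L * (G T - G s)) * (‖φ T‖ + E * (G T - G s) + 0 * (T - s)))) :=
    Tendsto.mono_left (Continuous.tendsto (by fun_prop) 0) nhdsWithin_le_nhds
  rw [zero_mul, add_zero] at lim
  exact ge_of_tendsto lim (eventually_nhdsWithin_of_forall key)

theorem lI_sq (Y h : ℂ) : lI Y h ^ 2 = 2 * h ^ 2 - Y := by
  unfold lI Complex.sqrt
  exact Complex.cpow_ofNat_inv_pow _ 2

theorem lI_re (Y h : ℂ) : 0 ≤ (lI Y h).re := by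
  unfold lI Complex.sqrt
  rw [Complex.cpow_inv_two_re]
  exact Real.sqrt_nonneg _

theorem hasDerivAt_csqrt {z : ℂ} (h : z ∈ slitPlane) :
    HasDerivAt Complex.sqrt (1 / (2 * Complex.sqrt z)) z := by
  refine (Complex.hasDerivAt_sqrt h).congr_deriv ?_
  rw [show (-1 / 2 : ℂ) = -2⁻¹ by norm_num, Complex.cpow_neg]
  unfold Complex.sqrt
  generalize z ^ (2⁻¹ : ℂ) = w
  rw [one_div, mul_inv, mul_comm, div_eq_mul_inv]

theorem norm_h_bounds {h : ℂ} (h1 : ‖h - 1‖ ≤ 1 / 10000) :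
    9999 / 10000 ≤ ‖h‖ ∧ ‖h‖ ≤ 10001 / 10000 := by
  have a := abs_le.1 (abs_norm_sub_norm_le h 1)
  rw [norm_one] at a
  constructor <;> linarith [a.1, a.2]

theorem norm_two_sq {h : ℂ} (h1 : ‖h - 1‖ ≤ 1 / 10000) : ‖2 * h ^ 2‖ ≤ 3 := by
  have := norm_h_bounds h1
  rw [norm_mul, norm_pow, Complex.norm_ofNat]
  nlinarith [norm_nonneg h]

theorem norm_lI_sq {Y h : ℂ} (h1 : ‖h - 1‖ ≤ 1 / 10000) : ‖Y‖ - 3 ≤ ‖lI Y h‖ ^ 2 := by
  rw [← norm_pow, lI_sq, norm_sub_rev]
  linarith [norm_sub_norm_le Y (2 * h ^ 2), norm_two_sq h1]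

theorem norm_lI_ge {Y h : ℂ} (h1 : ‖h - 1‖ ≤ 1 / 10000) (hY : 128000 ≤ ‖Y‖) :
    300 ≤ ‖lI Y h‖ :=
  (abs_le_of_sq_le_sq' (by linarith [norm_lI_sq (Y := Y) h1]) (norm_nonneg _)).2

theorem lI_ne {Y h : ℂ} (h1 : ‖h - 1‖ ≤ 1 / 10000) (hY : 128000 ≤ ‖Y‖) : lI Y h ≠ 0 :=
  norm_pos_iff.1 (lt_of_lt_of_le (by norm_num) (norm_lI_ge h1 hY))

theorem slit_lI {Y h : ℂ} (h1 : ‖h - 1‖ ≤ 1 / 10000) (hY : 128000 ≤ ‖Y‖)
    (hr : Y.re ≤ 3 / 4 * ‖Y‖) : 2 * h ^ 2 - Y ∈ slitPlane := by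
  by_contra hn
  rw [mem_slitPlane_iff, not_or, not_lt, not_not] at hn
  have a := norm_two_sq h1
  have b := abs_le.1 ((Complex.abs_re_le_norm _).trans a)
  have c := (Complex.abs_im_le_norm _).trans a
  have d := Complex.norm_le_abs_re_add_abs_im Y
  obtain ⟨e, f⟩ := hn
  rw [sub_re] at e
  rw [sub_im, sub_eq_zero] at f
  rw [f] at c
  rcases abs_cases Y.re with k | k <;> linarith [k.1, b.1, b.2]

theorem norm_HI_le {Y h : ℂ} (h1 : ‖h - 1‖ ≤ 1 / 10000) (hY : 128000 ≤ ‖Y‖) :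
    ‖HI Y h‖ ≤ 2 * Real.sqrt ‖Y‖ := by
  have a := norm_lI_sq (Y := Y) h1
  have b := norm_lI_ge h1 hY
  have c := Real.sq_sqrt (norm_nonneg Y)
  have d := Real.sqrt_nonneg ‖Y‖
  have e : Real.sqrt ‖Y‖ ≤ 2 * ‖lI Y h‖ :=
    (abs_le_of_sq_le_sq' (by nlinarith) (by positivity)).2
  rw [HI, norm_div, norm_neg, div_le_iff₀ (by linarith)]
  nlinarith

/-- the derivative of the Hamiltonian in `Y` -/
def HY (Y h : ℂ) : ℂ := -1 / lI Y h - Y / (2 * lI Y h ^ 3)

/-- the derivative of the Hamiltonian in `h` -/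
def Hh (Y h : ℂ) : ℂ := 2 * Y * h / lI Y h ^ 3

theorem norm_Hh_le {Y h : ℂ} (h1 : ‖h - 1‖ ≤ 1 / 10000) (hY : 128000 ≤ ‖Y‖) :
    ‖Hh Y h‖ ≤ 1 := by
  have a := norm_lI_sq (Y := Y) h1
  have b := norm_lI_ge h1 hY
  have c := (norm_h_bounds h1).2
  rw [Hh, norm_div, norm_mul, norm_mul, norm_pow, Complex.norm_ofNat,
    div_le_one (by positivity)]
  have d : 300 * (‖Y‖ - 3) ≤ ‖lI Y h‖ ^ 3 := by
    rw [pow_succ' _ 2]; exact mul_le_mul b a (by linarith) (by linarith)
  nlinarith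

/-- the chain rule for the Hamiltonian -/
theorem hasFDerivAt_HI {E : Type} [NormedAddCommGroup E] [NormedSpace ℂ E] {Y h : E → ℂ}
    {Y' h' : E →L[ℂ] ℂ} {p : E} (dY : HasFDerivAt Y Y' p) (dh : HasFDerivAt h h' p)
    (hs : 2 * h p ^ 2 - Y p ∈ slitPlane) :
    HasFDerivAt (fun p => HI (Y p) (h p)) (HY (Y p) (h p) • Y' + Hh (Y p) (h p) • h') p := by
  have n0 : lI (Y p) (h p) ≠ 0 := fun h0 => by
    have := lI_sq (Y p) (h p)
    rw [h0] at this
    exact slitPlane_ne_zero hs (by rw [← this]; ring)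
  have d1 : HasFDerivAt (fun p => lI (Y p) (h p)) _ p :=
    (hasDerivAt_csqrt hs).comp_hasFDerivAt p (((dh.pow 2).const_mul 2).sub dY)
  have d2 := dY.neg.mul ((hasDerivAt_inv n0).comp_hasFDerivAt p d1)
  refine HasFDerivAt.congr_fderiv (d2.congr_of_eventuallyEq (Eventually.of_forall fun x => ?_)) ?_
  · simp [HI, div_eq_mul_inv]
  · ext v
    have e : Complex.sqrt (2 * h p ^ 2 - Y p) = lI (Y p) (h p) := rfl
    simp [HY, Hh, e]
    field_simp
    ring

theorem hasDerivAt_HI {Y h : ℂ → ℂ} {Y' h' p : ℂ} (dY : HasDerivAt Y Y' p)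
    (dh : HasDerivAt h h' p) (hs : 2 * h p ^ 2 - Y p ∈ slitPlane) :
    HasDerivAt (fun p => HI (Y p) (h p)) (HY (Y p) (h p) * Y' + Hh (Y p) (h p) * h') p := by
  simpa using (hasFDerivAt_HI dY.hasFDerivAt dh.hasFDerivAt hs).hasDerivAt

theorem hasDerivAt_HI_real {Y h : ℝ → ℂ} {Y' h' : ℂ} {p : ℝ} (dY : HasDerivAt Y Y' p)
    (dh : HasDerivAt h h' p) (hs : 2 * h p ^ 2 - Y p ∈ slitPlane) :
    HasDerivAt (fun p => HI (Y p) (h p)) (HY (Y p) (h p) * Y' + Hh (Y p) (h p) * h') p := by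
  have d := (hasFDerivAt_HI (E := ℂ × ℂ) (p := (Y p, h p)) hasFDerivAt_fst hasFDerivAt_snd
    hs).restrictScalars ℝ
  have d2 := d.comp_hasDerivAt p (dY.prodMk dh)
  refine HasDerivAt.congr_deriv d2 ?_
  simp

theorem noether_alg {Y h q : ℂ} (hY : Y ≠ 0) (hl : lI Y h ≠ 0) :
    -HI Y h / 4 + HY Y h * h + Hh Y h * q = -lI Y h / 4 + Hh Y h * resI Y h q / 4 := by
  have s := lI_sq Y h
  unfold HI HY Hh resI
  generalize lI Y h = l at s hl
  field_simp
  linear_combination (2 * l ^ 2 + 4 * h ^ 2 - 8 * h) * s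

variable {t₀ t₁ len ε : ℝ} {g w Y h q : ℝ → ℂ}

theorem re_mono {f f' : ℝ → ℂ} (d : ∀ t, HasDerivAt f (f' t) t)
    (hp : ∀ t ∈ Icc t₀ t₁, 0 ≤ (f' t).re) {t : ℝ} (ht : t ∈ Icc t₀ t₁) :
    (f t₀).re ≤ (f t).re := by
  have dr : ∀ t, HasDerivAt (fun t => (f t).re) (f' t).re t := fun t =>
    Complex.reCLM.hasFDerivAt.comp_hasDerivAt t (d t)
  exact monotoneOn_of_deriv_nonneg (convex_Icc t₀ t₁)
    (fun t _ => (dr t).continuousAt.continuousWithinAt)
    (fun t _ => (dr t).differentiableAt.differentiableWithinAt)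
    (fun t ht => by rw [(dr t).deriv]; exact hp t (interior_subset ht))
    (left_mem_Icc.2 (ht.1.trans ht.2)) ht ht.1

namespace Leg

theorem eps_nonneg (H : Leg t₀ t₁ len ε g w Y h q) : 0 ≤ ε :=
  (norm_nonneg _).trans (H.res t₀ (left_mem_Icc.2 H.le))

theorem re_w (H : Leg t₀ t₁ len ε g w Y h q) {t : ℝ} (ht : t ∈ Icc t₀ t₁) :
    (w t₀).re ≤ (w t).re :=
  re_mono H.dw (fun t ht => le_trans (by positivity) (H.dir t ht)) ht

theorem re_Y (H : Leg t₀ t₁ len ε g w Y h q) {t : ℝ} (ht : t ∈ Icc t₀ t₁) :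
    (Y t₀).re ≤ (Y t).re := by
  refine re_mono H.dY (fun t ht => ?_) ht
  have a : ‖g t * (h t - 1)‖ ≤ ‖g t‖ * (1 / 10000) := by
    rw [norm_mul]; exact mul_le_mul_of_nonneg_left (H.h1 t ht) (norm_nonneg _)
  have b := abs_le.1 ((Complex.abs_re_le_norm _).trans a)
  rw [show g t * h t = g t + g t * (h t - 1) by ring, add_re]
  linarith [H.dir t ht, b.1, norm_nonneg (g t)]

end Leg

theorem norm_cf_le {Y a b : ℂ} (hY : 128000 ≤ ‖Y‖) (ha : ‖a‖ ≤ 1 / 5000) (hb : ‖b‖ ≤ 1 / 1000) :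
    ‖cf Y a b‖ ≤ 7 / 10000 := by
  have a0 := norm_nonneg a
  have b0 := norm_nonneg b
  have b1 : ‖-2 * (a + b)‖ ≤ 24 / 10000 := by
    rw [norm_mul]; simp only [norm_neg, Complex.norm_ofNat]; linarith [norm_add_le a b]
  have b2 : ‖a * a + a * b + b * b‖ ≤ 1 / 100000 := norm_add₃_le.trans (by
    rw [norm_mul, norm_mul, norm_mul]; nlinarith)
  have b3 : 1 / ‖Y‖ ≤ 1 / 128000 := one_div_le_one_div_of_le (by norm_num) hY
  unfold cf
  refine (norm_sub_le _ _).trans ?_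
  rw [norm_div, norm_div, norm_one]
  simp only [Complex.norm_ofNat]
  linarith [norm_add_le (-2 * (a + b)) (a * a + a * b + b * b)]

/-- backward comparison with a slow solution -/
theorem Leg.cmp (H : Leg t₀ t₁ len ε g w Y h q) {k : ℂ → ℂ} {D : Set ℂ} (hk : Sol k D)
    (hD : ∀ t ∈ Icc t₀ t₁, Y t ∈ D) : ‖1 - 1 / h t₀ - k (Y t₀)‖ ≤
      Real.exp (len / 1000) * (Real.exp (((Y t₀).re - (Y t₁).re) / 4) + ε * len) := by
  have e0 := H.eps_nonneg
  have hb := fun t ht => norm_h_bounds (H.h1 t ht)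
  have h0 : ∀ t ∈ Icc t₀ t₁, h t ≠ 0 := fun t ht =>
    norm_pos_iff.1 (lt_of_lt_of_le (by norm_num) (hb t ht).1)
  have ka : ∀ t ∈ Icc t₀ t₁, ‖1 - 1 / h t‖ ≤ 1 / 5000 := fun t ht => by
    rw [show 1 - 1 / h t = (h t - 1) / h t by field_simp [h0 t ht], norm_div,
      div_le_iff₀ (norm_pos_iff.2 (h0 t ht))]
    linarith [H.h1 t ht, (hb t ht).1]
  have kb : ∀ t ∈ Icc t₀ t₁, ‖k (Y t)‖ ≤ 1 / 1000 := fun t ht => (hk.bd _ (hD t ht)).trans (by
    rw [div_le_div_iff₀ (by linarith [(H.far t ht).1]) (by norm_num)]; linarith [(H.far t ht).1])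
  have dG : ∀ t, HasDerivAt (fun t => ∫ u in t₀..t, ‖g u‖) ‖g t‖ t := fun t =>
    (H.cg.norm.integral_hasStrictDerivAt t₀ t).hasDerivAt
  have main := back_gron (φ := fun t => Complex.exp (-Y t / 4) * (1 - 1 / h t - k (Y t)))
    (φ' := fun t => g t * (h t * cf (Y t) (1 - 1 / h t) (k (Y t)) *
      (Complex.exp (-Y t / 4) * (1 - 1 / h t - k (Y t))) +
      Complex.exp (-Y t / 4) * (resI (Y t) (h t) (q t) / (4 * h t ^ 2))))
    (L := 1 / 1000) (E := Real.exp (-(Y t₀).re / 4) * ε) H.le (by norm_num) (fun t ht => by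
      have d1 := ((H.dY t).neg.div_const 4).cexp
      have d2 := ((H.dh t).inv (h0 t ht)).const_sub 1
      have d3 : HasDerivAt (fun t => k (Y t)) _ t := (hk.der _ (hD t ht)).comp_of_eq t (H.dY t) rfl
      refine ((d1.mul (d2.sub d3)).congr_deriv ?_).congr_of_eventuallyEq
        (Eventually.of_forall fun t => by simp)
      have Y0 : Y t ≠ 0 := norm_pos_iff.1 (lt_of_lt_of_le (by norm_num) (H.far t ht).1)
      have r := rhs_sub (Y t) (1 - 1 / h t) (k (Y t))
      have r2 : q t / h t ^ 3 = rhs (Y t) (1 - 1 / h t) + resI (Y t) (h t) (q t) / (4 * h t ^ 3) := by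
        have := h0 t ht
        unfold rhs resI; field_simp; ring
      have r3 : g t * q t / h t ^ 2 = g t * h t * (q t / h t ^ 3) := by
        have := h0 t ht
        field_simp
      have r4 : resI (Y t) (h t) (q t) / (4 * h t ^ 2) =
          h t * (resI (Y t) (h t) (q t) / (4 * h t ^ 3)) := by
        have := h0 t ht
        field_simp
      simp only [Pi.sub_apply, Pi.neg_apply, Pi.inv_apply, neg_div, neg_neg, one_div] at r r2 ⊢
      rw [r3, r2, r4]
      linear_combination Complex.exp (-(Y t / 4)) * g t * h t * r)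
    dG (fun t => norm_nonneg _) (by positivity) (fun t ht => by
      rw [norm_mul]
      refine mul_le_mul_of_nonneg_left ((norm_add_le _ _).trans (add_le_add ?_ ?_)) (norm_nonneg _)
      · rw [norm_mul, norm_mul]
        refine mul_le_mul_of_nonneg_right ?_ (norm_nonneg _)
        have := norm_cf_le (H.far t ht).1 (ka t ht) (kb t ht)
        nlinarith [(hb t ht).2, norm_nonneg (h t)]
      · rw [norm_mul, Complex.norm_exp]
        refine mul_le_mul (Real.exp_le_exp.2 ?_) ?_ (norm_nonneg _) (Real.exp_pos _).le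
        · simp only [neg_div, neg_re, div_ofNat_re]; linarith [H.re_Y ht]
        · rw [norm_div, norm_mul, norm_pow, Complex.norm_ofNat]
          refine (div_le_self (norm_nonneg _) ?_).trans (H.res t ht)
          nlinarith [(hb t ht).1])
  simp only [intervalIntegral.integral_same, sub_zero, norm_mul, Complex.norm_exp, neg_div, neg_re,
    div_ofNat_re] at main
  have l0 : 0 ≤ ∫ u in t₀..t₁, ‖g u‖ :=
    intervalIntegral.integral_nonneg H.le fun _ _ => norm_nonneg _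
  have l1 := H.len
  have m1 : ‖1 - 1 / h t₁ - k (Y t₁)‖ ≤ 1 := (norm_sub_le _ _).trans (by
    linarith [ka t₁ (right_mem_Icc.2 H.le), kb t₁ (right_mem_Icc.2 H.le)])
  refine le_of_mul_le_mul_left (main.trans ?_) (Real.exp_pos (-((Y t₀).re / 4)))
  have e1 : Real.exp (-((Y t₁).re / 4)) =
      Real.exp (-((Y t₀).re / 4)) * Real.exp (((Y t₀).re - (Y t₁).re) / 4) := by
    rw [← Real.exp_add]; congr 1; ring
  calc _ ≤ Real.exp (len / 1000) * (Real.exp (-((Y t₁).re / 4)) * 1 +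
        Real.exp (-((Y t₀).re / 4)) * ε * len) := by
        gcongr
        linarith
    _ = _ := by rw [e1]; ring

/-- the Noether identity -/
theorem Leg.noether (H : Leg t₀ t₁ len ε g w Y h q) :
    ‖(∫ t in t₀..t₁, g t * (Complex.exp (-w t / 4) * lI (Y t) (h t))) -
      4 * (Complex.exp (-w t₀ / 4) * HI (Y t₀) (h t₀) - Complex.exp (-w t₁ / 4) * HI (Y t₁) (h t₁))‖
      ≤ ε * len * Real.exp (-(w t₀).re / 4) := by
  have e0 := H.eps_nonneg
  have cw : Continuous w := continuous_iff_continuousAt.2 fun t => (H.dw t).continuousAt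
  have cY : Continuous Y := continuous_iff_continuousAt.2 fun t => (H.dY t).continuousAt
  have ch : Continuous h := continuous_iff_continuousAt.2 fun t => (H.dh t).continuousAt
  have cg := H.cg
  have cq := H.cq
  have sl : ∀ t ∈ Icc t₀ t₁, 2 * h t ^ 2 - Y t ∈ slitPlane := fun t ht =>
    slit_lI (H.h1 t ht) (H.far t ht).1 (H.far t ht).2
  have l0 : ∀ t ∈ Icc t₀ t₁, lI (Y t) (h t) ≠ 0 := fun t ht => lI_ne (H.h1 t ht) (H.far t ht).1
  have Y0 : ∀ t ∈ Icc t₀ t₁, Y t ≠ 0 := fun t ht =>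
    norm_pos_iff.1 (lt_of_lt_of_le (by norm_num) (H.far t ht).1)
  have cl : ContinuousOn (fun t => lI (Y t) (h t)) (Icc t₀ t₁) :=
    Complex.continuousOn_sqrt.comp (f := fun t => 2 * h t ^ 2 - Y t) (by fun_prop) sl
  have i1 : IntervalIntegrable (fun t => g t * (Complex.exp (-w t / 4) * lI (Y t) (h t)))
      MeasureTheory.volume t₀ t₁ :=
    ContinuousOn.intervalIntegrable_of_Icc H.le (by fun_prop)
  have i2 : IntervalIntegrable (fun t => g t * (Complex.exp (-w t / 4) *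
      (Hh (Y t) (h t) * resI (Y t) (h t) (q t)))) MeasureTheory.volume t₀ t₁ := by
    refine ContinuousOn.intervalIntegrable_of_Icc H.le ?_
    unfold Hh resI
    have := fun t ht => pow_ne_zero 3 (l0 t ht)
    fun_prop (disch := assumption)
  have ftc := intervalIntegral.integral_eq_sub_of_hasDerivAt
    (f := fun t => 4 * (Complex.exp (-w t / 4) * HI (Y t) (h t))) (a := t₀) (b := t₁)
    (f' := fun t => g t * (Complex.exp (-w t / 4) * (Hh (Y t) (h t) * resI (Y t) (h t) (q t))) -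
      g t * (Complex.exp (-w t / 4) * lI (Y t) (h t))) (fun t ht => by
      rw [uIcc_of_le H.le] at ht
      refine ((((H.dw t).neg.div_const 4).cexp.mul
        (hasDerivAt_HI_real (H.dY t) (H.dh t) (sl t ht))).const_mul 4).congr_deriv ?_
      simp only [Pi.neg_apply]
      linear_combination 4 * Complex.exp (-w t / 4) * g t * noether_alg (q := q t) (Y0 t ht) (l0 t ht))
    (i2.sub i1)
  rw [intervalIntegral.integral_sub i2 i1] at ftc
  rw [show _ - _ = ∫ t in t₀..t₁, g t * (Complex.exp (-w t / 4) *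
    (Hh (Y t) (h t) * resI (Y t) (h t) (q t))) by linear_combination -ftc]
  refine (intervalIntegral.norm_integral_le_of_norm_le
    (g := fun t => ‖g t‖ * (Real.exp (-(w t₀).re / 4) * ε)) H.le
    (Eventually.of_forall fun t ht => ?_) (Continuous.intervalIntegrable (by fun_prop) _ _)).trans ?_
  · have ht := Ioc_subset_Icc_self ht
    rw [norm_mul, norm_mul, norm_mul, Complex.norm_exp]
    refine mul_le_mul_of_nonneg_left (mul_le_mul (Real.exp_le_exp.2 ?_) ?_ (by positivity)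
      (Real.exp_pos _).le) (norm_nonneg _)
    · simp only [neg_div, neg_re, div_ofNat_re]; linarith [H.re_w ht]
    · exact (mul_le_of_le_one_left (norm_nonneg _) (norm_Hh_le (H.h1 t ht) (H.far t ht).1)).trans
        (H.res t ht)
  · rw [intervalIntegral.integral_mul_const]
    refine (mul_le_mul_of_nonneg_right H.len (by positivity)).trans (le_of_eq (by ring))

end Vale.Agent.P218N.J
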