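import Vale.Agent.P218N.J.Move
import Vale.Agent.P218N.J.Geo2
import Vale.Agent.P218N.J.GF

/-! The outer family: the states of one end. -/

open Filter Topology Metric Set Complex
open scoped ComplexConjugate

noncomputable section

namespace Vale.Agent.P218N.J

open Vale.Agent.P218N.End

variable {ι : Type} [Fintype ι] [DecidableEq ι] {e A κ : ℝ}

namespace OutP

theorem ev_le {b : ℝ} (hb : 0 < b) : ∀ᶠ η in 𝓝[>] (0 : ℝ), η ≤ b :=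
  mem_of_superset (Ioc_mem_nhdsGT hb) fun _ h => h.2

theorem ev_Ioo {p : ℝ → Prop} (h : ∀ᶠ ρ in 𝓝[>] (0 : ℝ), p ρ) :
    ∀ᶠ η in 𝓝[>] (0 : ℝ), ∀ ρ ∈ Ioo (0 : ℝ) η, p ρ := by
  obtain ⟨b, hb, h1⟩ := (mem_nhdsGT_iff_exists_Ioo_subset).1 h
  filter_upwards [ev_le hb] with η h2 ρ h3
  exact h1 ⟨h3.1, h3.2.trans_le h2⟩

theorem ev_cont {f : ℝ → ℝ} (hf : Continuous f) (h0 : f 0 = 0) {b : ℝ} (hb : 0 < b) :
    ∀ᶠ ρ in 𝓝[>] (0 : ℝ), f ρ < b :=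
  mem_nhdsWithin_of_mem_nhds (hf.continuousAt.eventually_lt continuousAt_const (by rwa [h0]))

theorem ev_mul (L : ℝ) {b : ℝ} (hb : 0 < b) : ∀ᶠ ρ in 𝓝[>] (0 : ℝ), L * ρ < b :=
  ev_cont (by fun_prop) (mul_zero _) hb

theorem ev_log {B ϑ : ℝ} (hB : 0 < B) (h : 0 < ϑ) : ∀ᶠ ρ in 𝓝[>] (0 : ℝ),
    ρ * (3 * Real.log (B / ρ) + 3 * Real.pi) < ϑ := by
  filter_upwards [ev_cont (f := fun ρ => ρ * (3 * Real.log B + 3 * Real.pi) - 3 * (ρ * Real.log ρ))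
    ((by fun_prop : Continuous _).sub (continuous_const.mul Real.continuous_mul_log)) (by simp) h,
    self_mem_nhdsWithin] with ρ h1 h2
  rw [Real.log_div hB.ne' (ne_of_gt h2)]
  linarith

theorem norm_pol {ρ : ℝ} (h : 0 ≤ ρ) (φ : ℝ) : ‖P218F.pol ρ φ‖ = ρ := by
  rw [P218F.pol, norm_mul, norm_exp_ofReal_mul_I, mul_one, norm_real, Real.norm_of_nonneg h]

theorem mul_pol (a ρ φ : ℝ) : a * P218F.pol ρ φ = P218F.pol (a * ρ) φ := by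
  simp only [P218F.pol, ofReal_mul, mul_assoc]

theorem norm_mul_pol (a : ℝ) {ρ : ℝ} (h : 0 ≤ ρ) (φ : ℝ) : ‖a * P218F.pol ρ φ‖ = |a| * ρ := by
  rw [norm_mul, norm_pol h, norm_real, Real.norm_eq_abs]

theorem Me {M X : ℝ} (hF : Fit M X e A κ) : 8000 ≤ M * e ∧ 0 < M := by
  have h : 0 < M := (pos_iff_pos_of_mul_pos (by linarith [hF.Mκ])).2 hF.κ0
  exact ⟨by nlinarith [hF.Mκ, hF.κe], h⟩

/-- the slow term is small -/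
theorem slow {B b d : ℝ} (hB : 0 < B) (hb : 0 < b) (hd : 0 < d) : ∀ᶠ ρ in 𝓝[>] (0 : ℝ),
    ∀ a E : ℂ, ‖a‖ ≤ d * ρ → 1 ≤ ‖E‖ → ‖E‖ ≤ B / ρ → 1 ≤ ‖Om a E‖ → ‖Om a E‖ ≤ B / ρ →
      ‖a ^ 2 * sE a E‖ ≤ b * ρ := by
  filter_upwards [ev_log hB (div_pos hb (pow_pos hd 2)), self_mem_nhdsWithin] with
    ρ h0 hρ a E h1 h2 h3 h4 h5
  have hρ : 0 < ρ := hρ
  rw [lt_div_iff₀ (pow_pos hd 2)] at h0
  rw [norm_mul, norm_pow]
  refine (mul_le_mul (pow_le_pow_left₀ (norm_nonneg _) h1 2) (norm_sE_le h2 h3 h4 h5)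
    (norm_nonneg _) (by positivity)).trans ?_
  nlinarith

omit [Fintype ι] [DecidableEq ι] in
theorem side_ev (c₀ : Cx ι) (hF : Fit c₀.M c₀.X e A κ) {B b : ℝ} (hB : 0 < B) (hb : 0 < b) :
    ∀ᶠ η in 𝓝[>] (0 : ℝ), ∀ ρ ∈ Ioo (0 : ℝ) η, ∀ (x ah E : ℂ) (rd : ℝ), b * ρ ≤ rd →
      ‖ah‖ + rd ≤ ρ / e → ‖x - ah‖ ≤ 2 * η * ρ → 1 ≤ ‖E‖ → ‖E‖ ≤ B / ρ →
      (∀ a ∈ closedBall ah rd, 1 ≤ ‖Om a E‖ ∧ ‖Om a E‖ ≤ B / ρ ∧
        ‖Om a E‖ ≤ c₀.X * (rd / ρ ^ 2)) → Side (c₀.sc ρ) x ah rd E := by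
  have he := hF.e0
  filter_upwards [ev_Ioo (slow hB (show 0 < b / 16 by positivity) (one_div_pos.2 he)),
    ev_Ioo (ev_mul c₀.L₀ hb), ev_le (show 0 < b / 32 by positivity), ev_le (one_div_pos.2 he)] with
    η h1 h2 h3 h4 ρ hρ x ah E rd k1 k2 k3 k4 k5 k6
  have h0 := hρ.1
  have hrd : 0 < rd := (mul_pos hb h0).trans_le k1
  have e1 : ρ / e = 1 / e * ρ := by ring
  have e2 : 8000 * (1 / e) ≤ c₀.M := by
    rw [mul_one_div, div_le_iff₀ he]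
    exact (Me hF).1
  have e3 : 0 < 1 / e * ρ := by positivity
  have e4 := mul_le_mul_of_nonneg_right e2 h0.le
  obtain ⟨k7, k8, -⟩ := k6 ah (mem_closedBall_self hrd.le)
  refine ⟨?_, ?_, ?_, ?_, fun a ha => (k6 a ha).2.2⟩
  · change _ ≤ c₀.M * ρ
    have := norm_add_le (x - ah) ah
    rw [sub_add_cancel] at this
    nlinarith
  · change c₀.L₀ * ρ ^ 2 ≤ _
    nlinarith [h2 ρ hρ]
  · change _ ≤ c₀.M * ρ
    nlinarith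
  · have k9 := h1 ρ hρ ah E (by linarith) k4 k5 k7 k8
    rw [show ah + ah ^ 2 * sE ah E - x = ah ^ 2 * sE ah E - (x - ah) by ring]
    refine (norm_sub_le _ _).trans ?_
    nlinarith

omit [Fintype ι] [DecidableEq ι] in
/-- the disc of an active end -/
theorem act_side (c₀ : Cx ι) (hF : Fit c₀.M c₀.X e A κ) :
    ∀ᶠ η in 𝓝[>] (0 : ℝ), ∀ ρ ∈ Ioo (0 : ℝ) η, ∀ (a ψ ρ₁ : ℝ) (x E : ℂ), A ≤ |a| →
      e * |a| ≤ 1 / 2 → |ρ₁ - ρ| ≤ η * ρ → ‖x - a * P218F.pol ρ₁ ψ‖ ≤ 2 * η * ρ → 1 ≤ ‖E‖ →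
      ‖E‖ ≤ 20 / (|a| * ρ₁) → (∀ a' ∈ closedBall (a * P218F.pol ρ₁ ψ) (|a| * ρ₁ / 2400),
        1 ≤ ‖Om a' E‖ ∧ ‖Om a' E‖ ≤ 20 / (|a| * ρ₁)) →
      Side (c₀.sc ρ) x (a * P218F.pol ρ₁ ψ) (|a| * ρ₁ / 2400) E := by
  have hA := hF.A0
  have he := hF.e0
  filter_upwards [side_ev c₀ hF (show 0 < 40 / A by positivity) (show 0 < A / 4800 by positivity),
    ev_le (show (0 : ℝ) < 1 / 100 by norm_num)] with η h1 h2 ρ hρ a ψ ρ₁ x E k1 k2 k3 k4 k5 k6 k7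
  have h0 := hρ.1
  obtain ⟨r1, r2⟩ := abs_le.1 k3
  have r3 : 99 / 100 * ρ ≤ ρ₁ := by nlinarith
  have r4 : ρ₁ ≤ 101 / 100 * ρ := by nlinarith
  have r5 : A * (99 / 100 * ρ) ≤ |a| * ρ₁ := mul_le_mul k1 r3 (by positivity) (abs_nonneg _)
  have r6 : 0 < A * ρ := by positivity
  have r7 : 20 / (|a| * ρ₁) ≤ 40 / A / ρ := by
    rw [div_div, div_le_div_iff₀ (by linarith) r6]
    linarith
  refine h1 ρ hρ x _ E _ (by linarith) ?_ k4 k5 (k6.trans r7) fun a' ha =>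
    ⟨(k7 a' ha).1, (k7 a' ha).2.trans r7, (k7 a' ha).2.trans ?_⟩
  · rw [norm_mul_pol a (by linarith), le_div_iff₀ he]
    nlinarith [mul_le_mul k2 r4 (by linarith) (by norm_num)]
  · rw [div_le_iff₀ (by linarith), show c₀.X * (|a| * ρ₁ / 2400 / ρ ^ 2) * (|a| * ρ₁) =
      c₀.X * (|a| * ρ₁) ^ 2 / (2400 * ρ ^ 2) by field_simp, le_div_iff₀ (by positivity)]
    have hX : 0 < c₀.X := (pos_iff_pos_of_mul_pos (by linarith [hF.XA])).2 (pow_pos hA 2)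
    have r8 := mul_le_mul_of_nonneg_left (pow_le_pow_left₀ (by positivity) r5 2) hX.le
    have r9 := mul_le_mul_of_nonneg_right hF.XA (sq_nonneg ρ)
    nlinarith [sq_nonneg ρ]

/-- a passive end -/
theorem pas (c₀ : Cx ι) (hF : Fit c₀.M c₀.X e A κ) : ∀ᶠ η in 𝓝[>] (0 : ℝ),
    ∀ ρ ∈ Ioo (0 : ℝ) η, (c₀.sc ρ).Ok → ∀ (a s φ ρ₁ R : ℝ) (x : ℂ), ¬a < 0 → e * |a| ≤ 1 / 2 →
      (s = 1 ∨ s = -1) → φ ∈ Icc (-(1 / 1000)) (Real.pi / 2) → |ρ₁ - ρ| ≤ η * ρ →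
      ‖x - a * P218F.pol ρ₁ (s * φ)‖ ≤ 2 * η * ρ → κ / ρ ≤ R → R ≤ 51 / 10 * e / ρ →
      EndG (c₀.sc ρ) x ⟨a * P218F.pol ρ₁ (s * φ), ρ₁ / (1000 * e), sg c₀.P.T R⟩ := by
  have he := hF.e0
  filter_upwards [side_ev c₀ hF (show 0 < 30 * e by positivity)
    (show 0 < 1 / (2000 * e) by positivity), ev_le (show (0 : ℝ) < 1 / 100 by norm_num),
    ev_Ioo (ev_mul c₀.P.T hF.κ0), ev_Ioo (ev_mul 1000 he)] with
    η h1 h2 h3 h4 ρ hρ H a s φ ρ₁ R x ha k2 hs hφ k3 k5 k6 k7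
  have h0 := hρ.1
  have hT : 1000000 ≤ c₀.P.T := H.T_ge
  obtain ⟨r1, r2⟩ := abs_le.1 k3
  have r3 : 99 / 100 * ρ ≤ ρ₁ := by nlinarith
  have r4 : ρ₁ ≤ 101 / 100 * ρ := by nlinarith
  have a0 : 0 ≤ a := not_lt.1 ha
  have TR : c₀.P.T < R := ((lt_div_iff₀ h0).2 (h3 ρ hρ)).trans_le k6
  rw [le_div_iff₀ h0] at k7
  rw [abs_of_nonneg a0] at k2
  obtain ⟨u, hu⟩ : ∃ u, ρ = u * e := ⟨ρ / e, by field_simp⟩
  obtain ⟨u₁, hu₁⟩ : ∃ u, ρ₁ = u * e := ⟨ρ₁ / e, by field_simp⟩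
  have u0 : 0 < u := (pos_iff_pos_of_mul_pos (hu ▸ h0)).2 he
  have u1 : u ≤ 1 / 1000 := le_of_mul_le_mul_right (by linarith [h4 ρ hρ]) he
  have u2 : u₁ ≤ 101 / 100 * u := le_of_mul_le_mul_right (by linarith) he
  have u3 : 99 / 100 * u ≤ u₁ := le_of_mul_le_mul_right (by linarith) he
  have u4 : R * u ≤ 51 / 10 := le_of_mul_le_mul_right (by rw [mul_assoc, ← hu]; exact k7) he
  have u5 : a * ρ₁ ≤ u₁ / 2 := by
    rw [hu₁]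
    linarith [mul_le_mul_of_nonneg_left k2 (show 0 ≤ u₁ by linarith)]
  have u6 : ρ₁ / (1000 * e) = u₁ / 1000 := by rw [hu₁]; field_simp
  have u7 : 0 ≤ a * ρ₁ := mul_nonneg a0 (by linarith)
  have nah : ‖a * P218F.pol ρ₁ (s * φ)‖ = a * ρ₁ := by
    rw [norm_mul_pol a (by linarith), abs_of_nonneg a0]
  have nR : ‖(R : ℂ)‖ = R := by rw [norm_real, Real.norm_of_nonneg (by linarith)]
  have u8 : u₁ * R ≤ 101 / 100 * (51 / 10) := by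
    linarith [mul_le_mul_of_nonneg_left u2 (show 0 ≤ R by linarith)]
  rw [u6]
  have key : ∀ a' ∈ closedBall (a * P218F.pol ρ₁ (s * φ)) (u₁ / 1000), ∀ y : ℝ, 0 ≤ y → y ≤ R →
      (Tn (-2) 2 (rh (cs s a') y) ∧ 1 ≤ ‖rh (cs s a') y‖) ∧ ‖rh a' y‖ ≤ 5 := by
    intro a' ha' y y0 y1
    have v1 := norm_le_of_mem_closedBall ha'
    have v2 := mem_closedBall_iff_norm.1 ha'
    have v3 : u₁ * y ≤ u₁ * R := mul_le_mul_of_nonneg_left y1 (by linarith)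
    rw [nah] at v1
    refine ⟨tn_passive' u7 hφ.1 hφ.2 y0 (by linarith [mul_le_mul_of_nonneg_right u5 y0])
      (by rw [norm_cs hs]; linarith) ?_, ?_⟩
    · rw [← cs_pol hs, ← cs_sub, norm_cs hs, ← mul_pol]
      linarith [mul_le_mul_of_nonneg_right v2 y0]
    · rw [rh, mul_sub, ← add_sub_assoc]
      refine (norm_sub_le _ _).trans ((add_le_add_left (norm_add_le _ _) _).trans ?_)
      rw [norm_mul, norm_mul, norm_ofNat, norm_real, Real.norm_of_nonneg y0]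
      linarith [mul_le_mul_of_nonneg_right u5 y0, mul_le_mul_of_nonneg_right v1 y0]
  refine endG_sg H (h1 ρ hρ x _ R _ ?_ ?_ k5 (by linarith) ?_ fun a' ha' => ?_) ?_ ?_
    fun a' ha' => SegOK.of_cs hs ?_
  · rw [hu, show 1 / (2000 * e) * (u * e) = u / 2000 by field_simp]
    linarith
  · rw [nah, hu, mul_div_cancel_right₀ _ he.ne']
    linarith
  · rw [nR, le_div_iff₀ h0]
    linarith
  · obtain ⟨⟨-, v1⟩, v2⟩ := key a' ha' R (by linarith) le_rfl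
    rw [← cs_ofReal s R, ← cs_rh hs, norm_cs hs] at v1
    have v3 : ‖Om a' R‖ ≤ R * 5 := by
      rw [Om, norm_mul, nR]
      exact mul_le_mul_of_nonneg_left v2 (by linarith)
    refine ⟨by rw [Om, norm_mul, nR]; exact one_le_mul_of_one_le_of_one_le (by linarith) v1,
      v3.trans ?_, v3.trans ?_⟩
    · rw [le_div_iff₀ h0]
      linarith
    · rw [← mul_div_assoc, le_div_iff₀ (by positivity), hu]
      have v4 := mul_le_mul hF.Xe u3 (by linarith) (le_trans (by positivity) hF.Xe)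
      have v5 : 0 ≤ u * e ^ 2 := by positivity
      linarith [mul_le_mul_of_nonneg_right u4 v5]
  · change 1 / (c₀.M * ρ) ≤ _
    refine le_trans ?_ k6
    rw [div_le_div_iff₀ (mul_pos (Me hF).2 h0) h0]
    linarith [mul_le_mul_of_nonneg_right hF.Mκ h0.le]
  · change _ ≤ c₀.M / ρ
    rw [le_div_iff₀ h0]
    linarith [hF.Me]
  · rw [cs_ofReal, cs_ofReal]
    obtain ⟨⟨v1, v2⟩, -⟩ := key a' ha' c₀.P.T (by linarith) TR.le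
    obtain ⟨⟨v3, v4⟩, -⟩ := key a' ha' R (by linarith) le_rfl
    exact real_seg H.spec.K0 H.spec.KT TR v1 v2 v3 v4

theorem mem_cb (z : ℂ) {n : ℝ} (hn : 0 < n) (d : ℝ) (hd : 0 < d) :
    z ∈ closedBall z (1 / (12 * n) / d) := mem_closedBall_self (by positivity)

theorem five {ρ ρ' η : ℝ} (hF : 0 < e ∧ 4000 * κ ≤ e) (h0 : 0 < ρ) (h1 : η ≤ 1 / 100)
    (h2 : |ρ' - ρ| ≤ η * ρ) : κ / ρ ≤ 5 * e / ρ' ∧ 5 * e / ρ' ≤ 51 / 10 * e / ρ ∧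
      4 * (101 / 100 * e / ρ) ≤ 5 * e / ρ' ∧ ∀ a : ℝ, a < 0 → e * |a| ≤ 1 / 2 → ∀ s,
        4 * (101 / 100 * e / ρ) ≤ (cs s (E0 (2 / (|a| * ρ') : ℝ) (1 / (12 * (|a| * ρ'))))).re := by
  obtain ⟨r1, r2⟩ := abs_le.1 h2
  have r3 : 99 / 100 * ρ ≤ ρ' := by nlinarith
  have r4 : ρ' ≤ 101 / 100 * ρ := by nlinarith
  have r5 : 0 < ρ' := by linarith
  have r6 := mul_le_mul_of_nonneg_left r3 hF.1.le
  have r7 := mul_le_mul_of_nonneg_left r4 hF.1.le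
  have r8 := mul_pos hF.1 h0
  rw [← mul_div_assoc]
  refine ⟨?_, ?_, ?_, fun a ha h3 s => ?_⟩
  · rw [div_le_div_iff₀ h0 r5]
    nlinarith [mul_le_mul_of_nonneg_right hF.2 r5.le]
  · rw [div_le_div_iff₀ r5 h0]
    nlinarith
  · rw [div_le_div_iff₀ h0 r5]
    nlinarith
  · have r9 : 0 < |a| := abs_pos.2 ha.ne
    rw [cs_re, E0_re, ofReal_re, show 2 / (|a| * ρ') + 1 / 2 * (1 / (12 * (|a| * ρ'))) =
      49 / 24 / (|a| * ρ') by field_simp; ring, div_le_div_iff₀ h0 (mul_pos r9 r5)]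
    nlinarith [mul_le_mul h3 r4 r5.le (by norm_num)]

end OutP

open OutP

/-- the outer region of an active end, with two scales close to `ρ` -/
theorem mst_reg (c₀ : Cx ι) (hF : Fit c₀.M c₀.X e A κ) : ∀ᶠ η in 𝓝[>] (0 : ℝ),
    ∀ ρ ∈ Ioo (0 : ℝ) η, (c₀.sc ρ).Ok → ∀ (a s φ ρ₁ ρ₂ : ℝ) (x : ℂ), a < 0 → A ≤ |a| →
      e * |a| ≤ 1 / 2 → (s = 1 ∨ s = -1) → φ ∈ Icc (-(1 / 1000)) (Real.pi / 2) →
      |ρ₁ - ρ| ≤ η * ρ → |ρ₂ - ρ| ≤ η * ρ → ‖x - a * P218F.pol ρ₁ (s * φ)‖ ≤ 2 * η * ρ →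
      Reg (c₀.sc ρ) x (a * P218F.pol ρ₁ (s * φ)) (|a| * ρ₁ / 2400) s (e / (2000 * ρ₂))
        (2 / (|a| * ρ₁) : ℝ) (1 / (12 * (|a| * ρ₁))) := by
  have hA := hF.A0
  have he := hF.e0
  filter_upwards [act_side c₀ hF, ev_le (show (0 : ℝ) < 1 / 100 by norm_num),
    ev_Ioo (ev_mul (4000 * c₀.P.T) he), ev_Ioo (ev_mul 4000 he)] with
    η h1 h2 h3 h4 ρ hρ H a s φ ρ₁ ρ₂ x ha k1 k2 hs hφ k3 k4 k5
  have h0 := hρ.1
  have hT : 1000000 ≤ c₀.P.T := H.T_ge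
  obtain ⟨r1, r2⟩ := abs_le.1 k3
  obtain ⟨q1, q2⟩ := abs_le.1 k4
  have r3 : 99 / 100 * ρ ≤ ρ₁ := by nlinarith
  have r4 : ρ₁ ≤ 101 / 100 * ρ := by nlinarith
  have q3 : 99 / 100 * ρ ≤ ρ₂ := by nlinarith
  have q4 : ρ₂ ≤ 101 / 100 * ρ := by nlinarith
  have r5 : A * (99 / 100 * ρ) ≤ |a| * ρ₁ := mul_le_mul k1 r3 (by positivity) (abs_nonneg _)
  have r6 : 0 < A * ρ := by positivity
  have hn : 0 < |a| * ρ₁ := by linarith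
  have r7 : e * |a| * ρ₁ ≤ 1 / 2 * (101 / 100 * ρ) := mul_le_mul k2 r4 (by linarith) (by norm_num)
  have TP : c₀.P.T < e / (2000 * ρ₂) := by
    rw [lt_div_iff₀ (by linarith)]
    nlinarith [h3 ρ hρ]
  have geo : ∀ a' ∈ closedBall (a * P218F.pol ρ₁ (s * φ)) (|a| * ρ₁ / 2400),
      GeoA c₀.P.K (e / (2000 * ρ₂)) (cs s a') (2 / (|a| * ρ₁) : ℝ) (1 / (12 * (|a| * ρ₁))) := by
    intro a' ha'
    refine geoA_macro H.spec.K0 (H.spec.KT.trans TP.le) hn ?_ hφ.1 hφ.2 ?_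
    · have u1 : |a| * ρ₁ * (e / (2000 * ρ₂)) ≤ 1 / 2000 := by
        rw [← mul_div_assoc, div_le_div_iff₀ (by linarith) (by norm_num)]
        linarith
      have u2 : |a| * ρ₁ ≤ 1 / 4000 := le_of_mul_le_mul_left (by linarith [h4 ρ hρ]) he
      linarith
    · rw [← cs_pol hs, ← cs_add, norm_cs hs, ← mul_pol, abs_of_neg ha, ofReal_neg, neg_mul,
        ← sub_eq_add_neg, ← abs_of_neg ha]
      linarith [mem_closedBall_iff_norm.1 ha']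
  refine ⟨hs, geo, TP, ?_, ?_, fun E hE => ?_⟩
  · change 1 / (c₀.M * ρ) ≤ _
    rw [div_le_div_iff₀ (mul_pos (Me hF).2 h0) (by linarith)]
    nlinarith [(Me hF).1]
  · change _ ≤ c₀.M / ρ
    rw [ofReal_re, ← mul_div_assoc, div_le_div_iff₀ hn h0]
    nlinarith [mul_le_mul_of_nonneg_left r5 (Me hF).2.le, mul_le_mul_of_nonneg_right hF.MA h0.le]
  · have g0 := geo _ (mem_closedBall_self (by linarith))
    obtain ⟨-, -, u1, u2⟩ := g0.tn (Or.inr hE)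
    have u3 := g0.ZT
    rw [ofReal_re] at u1 u2 u3
    have u4 : 20 / (|a| * ρ₁) = 10 * (2 / (|a| * ρ₁)) := by ring
    refine h1 ρ hρ a _ ρ₁ x _ k1 k2 k3 k5 ?_ ?_ fun a' ha' => ?_
    · rw [norm_cs hs]
      linarith [re_le_norm E]
    · rw [norm_cs hs]
      linarith
    · rw [← norm_cs hs, cs_Om hs, cs_cs hs, Om, norm_mul]
      have u5 := (geo a' ha').size' (Or.inr hE) (Or.inr hE)
      have u6 := mul_le_mul u2 ((geo a' ha').g3 E (Or.inr hE)).2 (norm_nonneg _) (by linarith)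
      exact ⟨by linarith [g0.K0], by linarith⟩

namespace OutP

/-- the states at a nearby scale -/
theorem mst_near (c₀ : Cx ι) (hF : Fit c₀.M c₀.X e A κ) : ∀ᶠ η in 𝓝[>] (0 : ℝ),
    ∀ ρ ∈ Ioo (0 : ℝ) η, (c₀.sc ρ).Ok → ∀ (a s φ ρ' : ℝ) (x : ℂ), (a < 0 → A ≤ |a|) →
      e * |a| ≤ 1 / 2 → (s = 1 ∨ s = -1) → φ ∈ Icc (-(1 / 1000)) (Real.pi / 2) →
      |ρ' - ρ| ≤ η * ρ → ‖x - a * P218F.pol ρ' (s * φ)‖ ≤ 2 * η * ρ →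
      EndG (c₀.sc ρ) x (mst c₀.P.T e a s ρ' φ) ∧
        Wt (mst c₀.P.T e a s ρ' φ) ((c₀.M + 2) * Real.exp (-(101 / 100 * e / ρ))) ∧
        4 * (101 / 100 * e / ρ) ≤ ((mst c₀.P.T e a s ρ' φ).γ.ze 1).re := by
  filter_upwards [mst_reg c₀ hF, pas c₀ hF, ev_le (show (0 : ℝ) < 1 / 100 by norm_num)] with
    η h1 h2 h3 ρ hρ H a s φ ρ' x k1 k2 hs hφ k3 k4
  obtain ⟨f1, f2, f3, f4⟩ := five ⟨hF.e0, hF.κe⟩ hρ.1 h3 k3
  have key : EndG (c₀.sc ρ) x (mst c₀.P.T e a s ρ' φ) ∧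
      4 * (101 / 100 * e / ρ) ≤ ((mst c₀.P.T e a s ρ' φ).γ.ze 1).re := by
    unfold mst
    split_ifs with ha
    · have g := h1 ρ hρ H a s φ ρ' ρ' x ha (k1 ha) k2 hs hφ k3 k3 k4
      have t0 := (g.geo _ (mem_closedBall_self
        ((g.side _ (mem_closedBall_self ?_)).rd_pos H).le)).t0
      · exact ⟨g.endG H (mem_closedBall_self (by linarith)) (mem_closedBall_self (by linarith)),
          by rw [ctr_one]; exact f4 a ha k2 s⟩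
      · have : 0 < ρ' := by nlinarith [(abs_le.1 k3).1, hρ.1]
        positivity
    · exact ⟨h2 ρ hρ H a s φ ρ' _ x ha k2 hs hφ k3 k4 f1 f2, by rw [sg_one, ofReal_re]; exact f3⟩
  refine ⟨key.1, ?_, key.2⟩
  have := key.1.wt H key.2
  rwa [mul_div_cancel_left₀ _ (four_ne_zero' ℝ)] at this

end OutP

theorem mst_endG (c₀ : Cx ι) (hF : Fit c₀.M c₀.X e A κ) : ∀ᶠ η in 𝓝[>] (0 : ℝ),
    ∀ ρ ∈ Ioo (0 : ℝ) η, (c₀.sc ρ).Ok → ∀ (a s φ : ℝ) (x : ℂ), (a < 0 → A ≤ |a|) →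
      e * |a| ≤ 1 / 2 → (s = 1 ∨ s = -1) → φ ∈ Icc (-(1 / 1000)) (Real.pi / 2) →
      ‖x - a * P218F.pol ρ (s * φ)‖ < η * ρ → EndG (c₀.sc ρ) x (mst c₀.P.T e a s ρ φ) ∧
        Wt (mst c₀.P.T e a s ρ φ) ((c₀.M + 2) * Real.exp (-(101 / 100 * e / ρ))) := by
  filter_upwards [mst_near c₀ hF] with η h1 ρ hρ H a s φ x k1 k2 hs hφ k3
  have h2 := mul_pos (hρ.1.trans hρ.2) hρ.1
  have := h1 ρ hρ H a s φ ρ x k1 k2 hs hφ (by simpa using h2.le) (by linarith)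
  exact ⟨this.1, this.2.1⟩

namespace OutP

omit [DecidableEq ι] in
theorem xi_lt (c₀ : Cx ι) (K : ℕ) : ∀ᶠ η in 𝓝[>] (0 : ℝ), ∀ ρ ∈ Ioo (0 : ℝ) η,
    0 < c₀.P.r → ∀ ξ : ι → ℂ, ‖ξ‖ ^ K < η * ρ → ‖ξ‖ < c₀.P.r := by
  by_cases hr : 0 < c₀.P.r
  · filter_upwards [ev_le (pow_pos hr K), ev_le one_pos] with η h1 h2 ρ hρ _ ξ h3
    exact lt_of_pow_lt_pow_left₀ K hr.le (by nlinarith [hρ.1, hρ.2])
  · exact Eventually.of_forall fun _ _ _ h => absurd h hr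

theorem rc {M X ρ R : ℝ} (hF : Fit M X e A κ) (h0 : 0 < ρ) (h1 : κ / ρ ≤ R) (h2 : R ≤ 10 * e / ρ) :
    1 / (M * ρ) ≤ R ∧ R ≤ M / ρ := by
  refine ⟨le_trans ?_ h1, h2.trans (div_le_div_of_nonneg_right hF.Me h0.le)⟩
  rw [div_le_div_iff₀ (mul_pos (Me hF).2 h0) h0]
  nlinarith [hF.Mκ]

theorem rc6 {M X ρ : ℝ} (hF : Fit M X e A κ) (h0 : 0 < ρ) :
    1 / (M * ρ) ≤ 6 * e / ρ ∧ 6 * e / ρ ≤ M / ρ :=
  rc hF h0 (div_le_div_of_nonneg_right (by linarith [hF.κe, hF.κ0]) h0.le)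
    (div_le_div_of_nonneg_right (by linarith [hF.e0]) h0.le)

end OutP

theorem mst_allG (c₀ : Cx ι) (hF : Fit c₀.M c₀.X e A κ) {a : ι → ℝ}
    (lo : ∀ i ∈ c₀.P.I, a i < 0 → A ≤ |a i|) (up : ∀ i ∈ c₀.P.I, e * |a i| ≤ 1 / 2) {K : ℕ}
    (hK : 1 ≤ K) : ∀ᶠ η in 𝓝[>] (0 : ℝ), ∀ ρ ∈ Ioo (0 : ℝ) η, (c₀.sc ρ).Ok → ∀ s φ : ℝ,
      (s = 1 ∨ s = -1) → φ ∈ Icc (-(1 / 1000)) (Real.pi / 2) →
      ∀ ξ ∈ P218F.Box c₀.P.I a K η (P218F.pol ρ (s * φ)),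
        AllG (c₀.sc ρ) (6 * e / ρ) ξ fun i => mst c₀.P.T e (a i) s ρ φ := by
  filter_upwards [mst_endG c₀ hF, xi_lt c₀ K] with η h1 h2 ρ hρ H s φ hs hφ ξ hξ
  rw [P218F.Box, norm_pol hρ.1.le] at hξ
  exact ⟨h2 ρ hρ H.spec.r0 ξ hξ.1, rc6 hF hρ.1, fun i hi =>
    (h1 ρ hρ H _ s φ _ (lo i hi) (up i hi) hs hφ (hξ.2 i hi)).1⟩

end Vale.Agent.P218N.J
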