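import Vale.Agent.P218N.J.OutA

/-! The outer family. -/

open Filter Topology Metric Set Complex
open scoped ComplexConjugate

noncomputable section

namespace Vale.Agent.P218N.J

open Vale.Agent.P218N.End

variable {ι : Type} [Fintype ι] [DecidableEq ι] {e A κ : ℝ}

open OutP

namespace OutP

theorem mv {N N' : ℝ} (h0 : 0 < N) (h : |N' - N| ≤ N / 10 ^ 7) (u : ℂ) (hu : ‖u‖ ≤ 6) :
    ‖((2 * N' : ℝ) + u * (N' / 12 : ℝ) : ℂ) - ((2 * N : ℝ) + u * (N / 12 : ℝ))‖ <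
      N / 12 / 100000 := by
  rw [show ((2 * N' : ℝ) + u * (N' / 12 : ℝ) : ℂ) - ((2 * N : ℝ) + u * (N / 12 : ℝ)) =
    (N' - N : ℝ) * (2 + u / 12) by push_cast; ring, norm_mul, norm_real, Real.norm_eq_abs]
  have h1 := norm_add_le 2 (u / 12)
  rw [norm_div, norm_ofNat, norm_ofNat] at h1
  linarith [mul_le_mul h (show ‖2 + u / 12‖ ≤ 3 by linarith) (norm_nonneg _) (by positivity)]

theorem inv_near {ρ ρ' η : ℝ} (h0 : 0 < ρ) (h1 : η ≤ 1 / 10 ^ 8) (h2 : |ρ' - ρ| ≤ η * ρ) {b : ℝ}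
    (hb : 0 < b) : |b / ρ' - b / ρ| ≤ b / ρ / 10 ^ 7 := by
  have h3 : |ρ' - ρ| ≤ ρ / 10 ^ 8 := by nlinarith
  have h4 : 0 < ρ' := by linarith [(abs_le.1 h3).1]
  rw [show b / ρ' - b / ρ = -(b / ρ * ((ρ' - ρ) / ρ')) by field_simp; ring, abs_neg, abs_mul,
    abs_of_pos (div_pos hb h0), abs_div, abs_of_pos h4, div_eq_mul_one_div (b / ρ)]
  refine mul_le_mul_of_nonneg_left ?_ (div_pos hb h0).le
  rw [div_le_div_iff₀ h4 (by norm_num)]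
  linarith [(abs_le.1 h3).1]

end OutP

/-- One end, two nearby parameters; everything at the scale `ρ`. -/
theorem mst_glue (c₀ : Cx ι) (hF : Fit c₀.M c₀.X e A κ) : ∀ᶠ η in 𝓝[>] (0 : ℝ),
    ∀ ρ ∈ Ioo (0 : ℝ) η, (c₀.sc ρ).Ok → ∀ (a s φ ρ' φ' : ℝ) (x : ℂ), (a < 0 → A ≤ |a|) →
      e * |a| ≤ 1 / 2 → (s = 1 ∨ s = -1) → φ ∈ Icc (-(1 / 1000)) (Real.pi / 2) →
      φ' ∈ Icc (-(1 / 1000)) (Real.pi / 2) → |ρ' - ρ| < η * ρ → |φ' - φ| < η →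
      ‖x - a * P218F.pol ρ (s * φ)‖ < η * ρ → ‖x - a * P218F.pol ρ' (s * φ')‖ < η * ρ' →
      Lnk (c₀.sc ρ) x (2 * c₀.C₁) ((c₀.M + 2) * Real.exp (-(101 / 100 * e / ρ)))
          (mst c₀.P.T e a s ρ φ) (mst c₀.P.T e a s ρ' φ') ∧
        Wt (mst c₀.P.T e a s ρ' φ') ((c₀.M + 2) * Real.exp (-(101 / 100 * e / ρ))) ∧
        4 * (101 / 100 * e / ρ) ≤ ((mst c₀.P.T e a s ρ' φ').γ.ze 1).re := by
  have he := hF.e0
  have hA := hF.A0
  filter_upwards [mst_reg c₀ hF, pas c₀ hF, mst_near c₀ hF,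
    ev_le (show (0 : ℝ) < 1 / 10 ^ 8 by norm_num), ev_le (show 0 < A / 100000 by positivity),
    ev_le (show 0 < 1 / (100000 * e) by positivity), ev_Ioo (ev_mul c₀.P.T hF.κ0)] with
    η h1 h2 h3 h4 h5 h6 h7 ρ hρ H a s φ ρ' φ' x k1 k2 hs hφ hφ' k3 _ k4 k5
  have h0 := hρ.1
  have η0 := h0.trans hρ.2
  have q0 := mul_pos η0 h0
  obtain ⟨r1, r2⟩ := abs_lt.1 k3
  have r3 : 99 / 100 * ρ ≤ ρ' := by nlinarith
  have r4 : ρ' ≤ 101 / 100 * ρ := by nlinarith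
  have r5 := mul_le_mul_of_nonneg_left r4 η0.le
  have z0 : |ρ - ρ| ≤ η * ρ := by simpa using q0.le
  obtain ⟨g', w1, w2⟩ := h3 ρ hρ H a s φ' ρ' x k1 k2 hs hφ' k3.le (by linarith)
  refine ⟨?_, w1, w2⟩
  have d0 : ‖a * P218F.pol ρ (s * φ) - a * P218F.pol ρ' (s * φ')‖ ≤ 3 * η * ρ := by
    have := norm_sub_le_norm_sub_add_norm_sub (a * P218F.pol ρ (s * φ)) x
      (a * P218F.pol ρ' (s * φ'))
    rw [norm_sub_rev _ x] at this
    linarith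
  obtain ⟨f1, f2, f3, -⟩ := five ⟨he, hF.κe⟩ h0 (by linarith) k3.le
  obtain ⟨f4, f5, f6, -⟩ := five ⟨he, hF.κe⟩ h0 (by linarith) z0
  unfold mst at g' ⊢
  split_ifs at g' ⊢ with ha
  · have a0 : 0 < |a| := abs_pos.2 ha.ne
    have R1 := h1 ρ hρ H a s φ ρ ρ x ha (k1 ha) k2 hs hφ z0 z0 (by linarith)
    have R2 := h1 ρ hρ H a s φ ρ ρ' x ha (k1 ha) k2 hs hφ z0 k3.le (by linarith)
    have hN := inv_near h0 h4 k3.le (one_div_pos.2 a0)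
    have N0 : 0 < 1 / |a| / ρ := by positivity
    have N1 : 2 * e / ρ ≤ 1 / |a| / ρ :=
      div_le_div_of_nonneg_right (by rw [le_div_iff₀ a0]; linarith) h0.le
    have e1 : ∀ r, 2 / (|a| * r) = 2 * (1 / |a| / r) := fun r => by ring
    have e2 : ∀ r, 1 / (12 * (|a| * r)) = 1 / |a| / r / 12 := fun r => by ring
    simp only [e1, e2] at g' R1 R2 ⊢
    have hU := mv N0 hN (-2 + 4 * I) ((norm_add_le _ _).trans (by norm_num))
    have hE := mv N0 hN (1 / 2 + 3 / 2 * I) ((norm_add_le _ _).trans (by norm_num))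
    have hU' := mem_ball_iff_norm.2 (hU.trans_le (show _ ≤ 1 / |a| / ρ / 12 / 100 by linarith))
    have hE' := mem_closedBall_iff_norm.2
      (hE.le.trans (show _ ≤ 1 / |a| / ρ / 12 / 100 by linarith))
    have hP := abs_le.1 (inv_near h0 h4 k3.le (show 0 < e / 2000 by positivity))
    have P0 : 0 < e / 2000 / ρ := by positivity
    rw [div_div e 2000 ρ', div_div e 2000 ρ] at hP
    rw [div_div] at P0
    refine ((R1.move H (fun a' ha' y hy => ((R1.geo a' ha').g3 y hy).2) ?_ hU'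
      (mem_closedBall_iff_norm.2 hE.le)).eqv_right ?_).eqv_right
      (eqv_disc H (R2.endG H (ball_subset_closedBall hU') hE') g' ?_)
    · have u1 := (R1.geo _ (mem_closedBall_self (by positivity))).ZT
      have u2 : c₀.P.T < _ := R1.TP
      have u3 : 1000000 ≤ c₀.P.T := H.T_ge
      have u4 : 1 ≤ c₀.M := H.M1
      rw [ofReal_re] at u1 ⊢
      refine mul_le_mul (Real.sqrt_le_iff.2 ⟨by linarith, ?_⟩) (Real.exp_le_exp.2 ?_)
        (Real.exp_pos _).le (by linarith)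
      · exact ((div_le_one (by linarith)).2 (by linarith)).trans (one_le_pow₀ (by linarith))
      · rw [mul_div_assoc] at N1 ⊢
        linarith [div_pos he h0]
    · rcases le_total (e / (2000 * ρ)) (e / (2000 * ρ')) with u | u
      · exact R1.start H R2 u (by linarith [hP.2]) (ball_subset_closedBall hU') hE'
      · exact (R2.start H R1 u (by linarith [hP.1]) (ball_subset_closedBall hU') hE').symm
    · linarith [mul_le_mul_of_nonneg_left r3 a0.le, mul_le_mul_of_nonneg_right (k1 ha) h0.le,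
        mul_le_mul_of_nonneg_right h5 h0.le, mul_pos hA h0]
  · have G1 := h2 ρ hρ H a s φ ρ _ x ha k2 hs hφ z0 (by linarith) f4 f5
    have G2 := h2 ρ hρ H a s φ ρ _ x ha k2 hs hφ z0 (by linarith) f1 f2
    have TR : c₀.P.T < κ / ρ := (lt_div_iff₀ h0).2 (h7 ρ hρ)
    have hC : 0 ≤ c₀.C₁ := H.C₁_nonneg
    have u4 : 1 ≤ c₀.M := H.M1
    have L : Lnk (c₀.sc ρ) x c₀.C₁ ((c₀.M + 2) * Real.exp (-(4 * (101 / 100 * e / ρ) / 4))) _ _ :=
      (le_total (5 * e / ρ') (5 * e / ρ)).elim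
        (fun u => lnk_cut H G1 G2 (GFP.rng_sub (TR.trans_le f1) u) (by rwa [sg_one, ofReal_re]))
        fun u => (lnk_cut H G2 G1 (GFP.rng_sub (TR.trans_le f4) u)
          (by rwa [sg_one, ofReal_re])).symm
    rw [mul_div_cancel_left₀ _ (four_ne_zero' ℝ)] at L
    refine (L.mono H hC (by linarith) le_rfl (by positivity)).eqv_right (eqv_disc H G2 g' ?_)
    have e1 : ∀ r, r / (1000 * e) = 100 * (1 / (100000 * e)) * r := fun r => by field_simp; ring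
    have u5 : 0 < 1 / (100000 * e) := by positivity
    rw [e1, e1]
    linarith [mul_le_mul_of_nonneg_left r3 u5.le, mul_le_mul_of_nonneg_right h6 h0.le,
      mul_pos u5 h0]

namespace OutP

theorem om_small {a : ℂ} {R : ℝ} (hR : 1 ≤ R) (h : ‖a‖ * (R + 2) ≤ 1 / 10) :
    ‖(R : ℂ)‖ = R ∧ 1 ≤ ‖Om a R‖ ∧ ‖Om a R‖ ≤ 3 * R := by
  have nR : ‖(R : ℂ)‖ = R := by rw [norm_real, Real.norm_of_nonneg (by linarith)]
  obtain ⟨-, h1, h2⟩ := tn_small (a := a) (y := R) (by rwa [nR])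
  rw [Om, norm_mul, nR]
  exact ⟨rfl, one_le_mul_of_one_le_of_one_le hR h1, by nlinarith⟩

/-- the cut of the outer states at a real point -/
theorem cut (c₀ : Cx ι) (hF : Fit c₀.M c₀.X e A κ) : ∀ᶠ η in 𝓝[>] (0 : ℝ),
    ∀ ρ ∈ Ioo (0 : ℝ) η, (c₀.sc ρ).Ok → ∀ (a s φ R : ℝ) (x : ℂ), (a < 0 → A ≤ |a|) →
      e * |a| ≤ 1 / 2 → (s = 1 ∨ s = -1) → φ ∈ Icc (-(1 / 1000)) (Real.pi / 2) →
      ‖x - a * P218F.pol ρ (s * φ)‖ < η * ρ → κ / ρ ≤ R → R ≤ 2 * κ / ρ →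
      EndG (c₀.sc ρ) x ⟨(mst c₀.P.T e a s ρ φ).ah, (mst c₀.P.T e a s ρ φ).rd, sg c₀.P.T R⟩ ∧
        rng (sg c₀.P.T R) ⊆ rng (mst c₀.P.T e a s ρ φ).γ ∧
        (mst c₀.P.T e a s ρ φ).ah = a * P218F.pol ρ (s * φ) ∧
        min (A / 2400) (1 / (1000 * e)) * ρ ≤ (mst c₀.P.T e a s ρ φ).rd := by
  have he := hF.e0
  have hA := hF.A0
  filter_upwards [act_side c₀ hF, pas c₀ hF, ev_Ioo (ev_mul c₀.P.T hF.κ0),
    ev_Ioo (ev_mul 1000 he)] with η h1 h2 h3 h4 ρ hρ H a s φ R x k1 k2 hs hφ k3 k4 k5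
  have h0 := hρ.1
  have q0 := mul_pos (h0.trans hρ.2) h0
  have z0 : |ρ - ρ| ≤ η * ρ := by simpa using q0.le
  have TR : c₀.P.T < R := ((lt_div_iff₀ h0).2 (h3 ρ hρ)).trans_le k4
  have hT : 1000000 ≤ c₀.P.T := H.T_ge
  have k6 : R ≤ e / (2000 * ρ) := k5.trans (by
    rw [← div_div]
    exact div_le_div_of_nonneg_right (by linarith [hF.κe]) h0.le)
  have k7 : R ≤ 5 * e / ρ := k5.trans
    (div_le_div_of_nonneg_right (by linarith [hF.κe, hF.κ0]) h0.le)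
  have k8 : 5 * e / ρ ≤ 51 / 10 * e / ρ := div_le_div_of_nonneg_right (by linarith) h0.le
  have k9 : 5 * e / ρ ≤ 10 * e / ρ := div_le_div_of_nonneg_right (by linarith) h0.le
  unfold mst
  split_ifs with ha
  · have a0 : 0 < |a| := abs_pos.2 ha.ne
    have n0 := mul_pos a0 h0
    have n1 : |a| * ρ * R ≤ 1 / 4000 := by
      rw [le_div_iff₀ (by positivity)] at k6
      linarith [mul_le_mul_of_nonneg_left k6 a0.le]
    have n2 : |a| * ρ ≤ 1 / 2000 := le_of_mul_le_mul_left (by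
      linarith [h4 ρ hρ, mul_le_mul_of_nonneg_right k2 h0.le]) he
    have n3 : 3 * R ≤ 20 / (|a| * ρ) := by
      rw [le_div_iff₀ n0]
      linarith
    have sm : ∀ a' ∈ closedBall (a * P218F.pol ρ (s * φ)) (|a| * ρ / 2400),
        ‖a'‖ * (R + 2) ≤ 1 / 10 := fun a' ha' => by
      have v1 := norm_le_of_mem_closedBall ha'
      rw [norm_mul_pol a h0.le] at v1
      linarith [mul_le_mul_of_nonneg_right v1 (show 0 ≤ R + 2 by linarith)]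
    have nR := (om_small (a := 0) (R := R) (by linarith) (by simp)).1
    refine ⟨endG_sg H (h1 ρ hρ a _ ρ x R (k1 ha) k2 z0 (by linarith) (by linarith) (by linarith)
      fun a' ha' => ?_) (rc hF h0 k4 (k7.trans k9)).1 (rc hF h0 k4 (k7.trans k9)).2 fun a' ha' =>
      GFP.seg_small H.spec.K0 H.spec.KT TR (sm a' ha'), ?_, rfl, ?_⟩
    · obtain ⟨-, v1, v2⟩ := om_small (by linarith) (sm a' ha')
      exact ⟨v1, v2.trans n3⟩
    · rw [rng_ctr]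
      exact ((GFP.rng_sub TR k6).trans rng_sg.le).trans
        (subset_union_left.trans subset_union_left)
    · linarith [mul_le_mul_of_nonneg_right (min_le_left (A / 2400) (1 / (1000 * e))) h0.le,
        mul_le_mul_of_nonneg_right (k1 ha) h0.le]
  · refine ⟨h2 ρ hρ H a s φ ρ R x ha k2 hs hφ z0 (by linarith) k4 (k7.trans k8),
      GFP.rng_sub TR k7, rfl, (mul_le_mul_of_nonneg_right (min_le_right _ _) h0.le).trans_eq ?_⟩
    rw [one_div_mul_eq_div]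

/-- the disc with centre zero -/
theorem zero_disc (c₀ : Cx ι) (hF : Fit c₀.M c₀.X e A κ) : ∀ᶠ ρ in 𝓝[>] (0 : ℝ), (c₀.sc ρ).Ok →
    ∀ (R : ℝ) (x : ℂ), ‖x‖ ≤ ρ / e → κ / ρ ≤ R → R ≤ 2 * κ / ρ →
      EndG (c₀.sc ρ) x ⟨0, 1 / (50 * R), sg c₀.P.T R⟩ := by
  have he := hF.e0
  have hκ := hF.κ0
  filter_upwards [ev_mul c₀.P.T hκ, ev_mul (100 * κ * c₀.L₀) one_pos] with ρ h1 h2 H R x k1 k2 k3
  have h0 : 0 < ρ := H.ρ0
  have TR : c₀.P.T < R := ((lt_div_iff₀ h0).2 h1).trans_le k2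
  have hT : 1000000 ≤ c₀.P.T := H.T_ge
  have L0 : 0 < c₀.L₀ := H.L0
  have k4 := rc hF h0 k2 (k3.trans (div_le_div_of_nonneg_right (by linarith [hF.κe]) h0.le))
  rw [div_le_iff₀ h0] at k2
  rw [le_div_iff₀ h0] at k3
  rw [le_div_iff₀ he] at k1
  have R0 : 0 < R := by linarith
  have sm : ∀ a ∈ closedBall (0 : ℂ) (1 / (50 * R)), ‖a‖ * (R + 2) ≤ 1 / 10 := fun a ha => by
    have h5 := mem_closedBall_zero_iff.1 ha
    rw [le_div_iff₀ (by positivity)] at h5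
    linarith [mul_le_mul_of_nonneg_left (show R + 2 ≤ 5 * R by linarith) (norm_nonneg a)]
  refine endG_sg H ⟨?_, ?_, ?_, ?_, fun a ha => ?_⟩ k4.1 k4.2 fun a ha =>
    GFP.seg_small H.spec.K0 H.spec.KT TR (sm a ha)
  · change _ ≤ c₀.M * ρ
    exact le_of_mul_le_mul_right (by linarith [mul_le_mul_of_nonneg_right (Me hF).1 h0.le]) he
  · change c₀.L₀ * ρ ^ 2 ≤ _
    rw [le_div_iff₀ (by positivity)]
    linarith [mul_le_mul_of_nonneg_left k3 (mul_pos L0 h0).le]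
  · change _ ≤ c₀.M * ρ
    rw [norm_zero, zero_add, div_le_iff₀ (by positivity)]
    linarith [hF.Mκ, mul_le_mul_of_nonneg_left k2 (Me hF).2.le]
  · rw [zero_pow two_ne_zero, zero_mul, add_zero, zero_sub, norm_neg, div_div,
      le_div_iff₀ (by positivity)]
    exact le_of_mul_le_mul_right (by linarith [mul_le_mul_of_nonneg_right k1 R0.le, hF.κe]) he
  · refine (om_small (by linarith) (sm a ha)).2.2.trans ?_
    change _ ≤ c₀.X * (_ / ρ ^ 2)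
    rw [div_div, mul_one_div, le_div_iff₀ (by positivity)]
    have := pow_le_pow_left₀ (by positivity) (show R * ρ ≤ e by linarith [hF.κe]) 2
    linarith [hF.Xe, sq_nonneg e]

theorem inv_exp {d u v ρ : ℝ} (hd : 0 < d) (h0 : 0 < ρ) (h : v / ρ + d / ρ ≤ u) :
    1 / ρ * Real.exp (-u) ≤ 1 / d * Real.exp (-(v / ρ)) :=
  calc _ = 1 / d * (d / ρ * Real.exp (-u)) := by field_simp
    _ ≤ 1 / d * (Real.exp (d / ρ) * Real.exp (-u)) := by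
      gcongr
      linarith [Real.add_one_le_exp (d / ρ)]
    _ ≤ _ := by
      rw [← Real.exp_add]
      gcongr
      linarith

end OutP

/-- Comparison with the real truncation `R = ⌈κ / ρ⌉`. -/
theorem gf_near (c₀ : Cx ι) {cD : ℝ} {R0 : ℕ} {F : ℕ → (ι → ℂ) → ℂ}
    (hS : Spec c₀.P c₀.Sol cD R0 F) (hF : Fit c₀.M c₀.X e A κ) (hκ : 2 * κ ≤ cD * e) {a : ι → ℝ}
    (lo : ∀ i ∈ c₀.P.I, a i < 0 → A ≤ |a i|) (up : ∀ i ∈ c₀.P.I, e * |a i| ≤ 1 / 2) {K : ℕ}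
    (hK : 1 ≤ K) : ∃ C : ℝ, ∀ᶠ η in 𝓝[>] (0 : ℝ), ∀ ρ ∈ Ioo (0 : ℝ) η, (c₀.sc ρ).Ok →
      ∀ s φ : ℝ, (s = 1 ∨ s = -1) → φ ∈ Icc (-(1 / 1000)) (Real.pi / 2) →
      ∀ ξ ∈ P218F.Box c₀.P.I a K η (P218F.pol ρ (s * φ)), ∃ R, R0 ≤ R ∧ κ / 10 ≤ R * ρ ∧
        ξ ∈ P218F.Dom c₀.P.I cD c₀.P.r R ∧
        ‖Gf c₀.P c₀.Sol e a s ρ φ ξ - F R ξ‖ ≤ C * Real.exp (-(κ / 10 / ρ)) := by
  have he := hF.e0
  have κ0 := hF.κ0
  have hA := hF.A0
  obtain ⟨b, hb, b0⟩ : ∃ b, b = min (A / 2400) (1 / (1000 * e)) ∧ 0 < b := ⟨_, rfl, by positivity⟩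
  refine ⟨(c₀.P.I.card + 1) * c₀.C₁ * (c₀.P.I.card * (c₀.M + 2) + 1) +
    (c₀.C + c₀.C * c₀.P.I.card * (1 / (κ / 10))), ?_⟩
  filter_upwards [mst_allG c₀ hF lo up hK, cut c₀ hF, ev_Ioo (zero_disc c₀ hF),
    mst_endG c₀ hF, ev_Ioo (ev_mul R0 κ0), ev_Ioo (ev_mul 1 κ0), ev_le (half_pos (one_div_pos.2 he)),
    ev_le (show 0 < b / 6 by positivity),
    ev_Ioo (ev_mul (c₀.C + c₀.ε) (show 0 < b / 6 by positivity)),
    ev_Ioo (slow (show 0 < 6 * κ by positivity) (show 0 < b / 6 by positivity) (one_div_pos.2 κ0))]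
    with η h1 h2 h3 h4 h5 h6 h7 h8 h9 h10 ρ hρ H s φ hs hφ ξ hξ
  have h0 := hρ.1
  have G := h1 ρ hρ H s φ hs hφ ξ hξ
  rw [P218F.Box, norm_pol h0.le] at hξ
  have r1 : κ / ρ ≤ (⌈κ / ρ⌉₊ : ℝ) := Nat.le_ceil _
  have r2 : (⌈κ / ρ⌉₊ : ℝ) ≤ 2 * κ / ρ := by
    have := (one_le_div h0).2 (show ρ ≤ κ by linarith [h6 ρ hρ])
    rw [mul_div_assoc]
    linarith [Nat.ceil_lt_add_one (div_pos κ0 h0).le]
  generalize ⌈κ / ρ⌉₊ = R at r1 r2
  have r3 := (div_le_iff₀ h0).1 r1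
  have r4 := (le_div_iff₀ h0).1 r2
  have r5 : (0 : ℝ) < R := (div_pos κ0 h0).trans_le r1
  have r0 : R0 ≤ R := by
    exact_mod_cast le_of_mul_le_mul_right ((h5 ρ hρ).le.trans r3) h0
  have nx : ∀ i ∈ c₀.P.I, ‖ξ i‖ < ρ / e := fun i hi => by
    have u1 := norm_add_le (ξ i - a i * P218F.pol ρ (s * φ)) (a i * P218F.pol ρ (s * φ))
    have u2 : |a i| ≤ 1 / e / 2 := by
      rw [div_right_comm, le_div_iff₀' he]
      exact up i hi
    rw [sub_add_cancel, norm_mul_pol _ h0.le] at u1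
    rw [← one_div_mul_eq_div]
    linarith [hξ.2 i hi, mul_le_mul_of_nonneg_right u2 h0.le, mul_le_mul_of_nonneg_right h7 h0.le]
  have hD : ξ ∈ P218F.Dom c₀.P.I cD c₀.P.r R := ⟨G.xi, fun i hi => (nx i hi).trans_le (by
    rw [div_le_div_iff₀ he r5]
    linarith)⟩
  refine ⟨R, r0, by linarith, hD, ?_⟩
  have C2 := fun i hi => h2 ρ hρ H (a i) s φ R (ξ i) (lo i hi) (up i hi) hs hφ (hξ.2 i hi) r1 r2
  have hR := rc hF h0 r1 (r2.trans (div_le_div_of_nonneg_right (by linarith [hF.κe]) h0.le))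
  have G1 : AllG (c₀.sc ρ) (6 * e / ρ) ξ fun i => ⟨_, _, sg c₀.P.T (R : ℝ)⟩ :=
    ⟨G.xi, G.rc, fun i hi => (C2 i hi).1⟩
  have G2 : AllG (c₀.sc ρ) R ξ fun i => ⟨_, _, sg c₀.P.T (R : ℝ)⟩ := ⟨G.xi, hR, fun i hi => (C2 i hi).1⟩
  have G0 : AllG (c₀.sc ρ) R ξ fun _ => ⟨0, 1 / (50 * R), sg c₀.P.T (R : ℝ)⟩ :=
    ⟨G.xi, hR, fun i hi => h3 ρ hρ H R _ (nx i hi).le r1 r2⟩
  have re1 : κ / ρ ≤ ((sg c₀.P.T (R : ℝ)).ze 1).re := by rwa [sg_one, ofReal_re]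
  obtain ⟨o, o1, o2, o3⟩ := hS.real R r0 ξ hD
  have hC : 0 ≤ c₀.C := H.C0
  have hC₁ : 0 ≤ c₀.C₁ := H.C₁_nonneg
  have hM : 1 ≤ c₀.M := H.M1
  have v1 := vl_eq H G2 o1 fun i hi => by
    have u0 : 1000000 ≤ (R : ℝ) := H.T_ge.trans (hS.TR.le.trans (by exact_mod_cast r0))
    have u1 := (le_div_iff₀ (by positivity)).1 (o3 i hi)
    obtain ⟨u2, u3, u4⟩ := om_small (a := o.a i) (R := R) (by linarith) (by
      linarith [mul_le_mul_of_nonneg_left (show (R : ℝ) + 2 ≤ 10 * R by linarith)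
        (norm_nonneg (o.a i))])
    have u5 : ‖o.a i + o.a i ^ 2 * sE (o.a i) ((sg c₀.P.T (R : ℝ)).ze 1) - ξ i‖ ≤ ρ ^ 2 * (c₀.C *
        (‖(0 : WD)‖ + ‖(0 : WD)‖ ^ 2 * _ + 1 / ‖Om (o.a i) ((sg c₀.P.T (R : ℝ)).ze 1)‖) + c₀.ε) :=
      H.loc.as0 _ _ _ _ _ (G0.good H) o1 (fun j hj => by
        change ‖o.a j - 0‖ ≤ 1 / (50 * R) / 2
        rw [sub_zero]
        exact (o3 j hj).trans_eq (by field_simp; ring)) i hi
    rw [sg_one, norm_zero, zero_pow two_ne_zero, zero_mul, add_zero, zero_add] at u5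
    have u6 : 3 * (R : ℝ) ≤ 6 * κ / ρ := by
      rw [le_div_iff₀ h0]
      linarith
    have u7 := h10 ρ hρ (o.a i) (R : ℝ) (by
      rw [one_div_mul_eq_div, le_div_iff₀ κ0]
      refine le_of_mul_le_mul_right ?_ r5
      linarith [mul_le_mul_of_nonneg_right u1 κ0.le]) (by linarith) (by linarith) u3 (u4.trans u6)
    have u8 := mul_le_mul_of_nonneg_left (mul_le_mul_of_nonneg_left
      ((div_le_one (by linarith)).2 u3) hC) (sq_nonneg ρ)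
    obtain ⟨-, -, c3, c4⟩ := C2 i hi
    change ‖o.a i - (mst c₀.P.T e (a i) s ρ φ).ah‖ ≤ (mst c₀.P.T e (a i) s ρ φ).rd / 2
    rw [c3, show o.a i - a i * P218F.pol ρ (s * φ) = o.a i + o.a i ^ 2 * sE (o.a i) (R : ℝ) - ξ i -
      o.a i ^ 2 * sE (o.a i) (R : ℝ) + (ξ i - a i * P218F.pol ρ (s * φ)) by ring]
    refine (norm_add_le _ _).trans ((add_le_add_left (norm_sub_le _ _) _).trans ?_)
    rw [← hb] at c4
    linarith [hξ.2 i hi, mul_le_mul_of_nonneg_right h8 h0.le,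
      mul_le_mul_of_nonneg_right (h9 ρ hρ).le h0.le]
  have k1 := tele H hC₁ G (W := fun _ => (c₀.M + 2) * Real.exp (-(κ / ρ / 4)))
    (fun i hi => lnk_cut H (G.ends i hi) (C2 i hi).1 (C2 i hi).2.1 re1) fun i hi =>
    ⟨(h4 ρ hρ H _ s φ _ (lo i hi) (up i hi) hs hφ (hξ.2 i hi)).2.mono (mul_le_mul_of_nonneg_left
      (Real.exp_le_exp.2 (neg_le_neg (by
        rw [div_right_comm]
        exact div_le_div_of_nonneg_right (by linarith [hF.κe]) h0.le))) (by linarith)),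
      (C2 i hi).1.wt H re1⟩
  have k2 := vl_cone H G1 G2
  rw [v1, o2] at k2
  simp only [sg_one, ofReal_re, Finset.sum_const, nsmul_eq_mul] at k1 k2
  have q0 := div_pos κ0 h0
  have q1 : κ / ρ ≤ 6 * e / ρ := div_le_div_of_nonneg_right (by linarith [hF.κe]) h0.le
  have q2 : κ / 10 / ρ = κ / ρ / 10 := div_right_comm _ _ _
  have e1 : Real.exp (-(κ / ρ / 4)) ≤ Real.exp (-(κ / 10 / ρ)) := Real.exp_le_exp.2 (by linarith)
  have e2 : Real.exp (-(6 * e / ρ / 5)) ≤ Real.exp (-(κ / 10 / ρ)) :=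
    Real.exp_le_exp.2 (by linarith)
  have e3 : Real.exp (-(min (6 * e / ρ) R / 5)) ≤ Real.exp (-(κ / 10 / ρ)) :=
    Real.exp_le_exp.2 (by linarith [le_min q1 r1])
  have e4 := inv_exp (d := κ / 10) (u := R / 4) (v := κ / 10) (by positivity) h0 (by linarith)
  refine (norm_sub_le_norm_sub_add_norm_sub _ _ _).trans ((add_le_add k1 k2).trans ?_)
  calc _ = (c₀.P.I.card + 1) * c₀.C₁ * (c₀.P.I.card * ((c₀.M + 2) * Real.exp (-(κ / ρ / 4))) +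
        Real.exp (-(6 * e / ρ / 5))) + (c₀.C * Real.exp (-(min (6 * e / ρ) R / 5)) +
        c₀.C * c₀.P.I.card * (1 / ρ * Real.exp (-(R / 4 : ℝ)))) := by
        simp only [Cx.sc, Cx.C₁]
        ring
    _ ≤ (c₀.P.I.card + 1) * c₀.C₁ * (c₀.P.I.card * ((c₀.M + 2) * Real.exp (-(κ / 10 / ρ))) +
        Real.exp (-(κ / 10 / ρ))) + (c₀.C * Real.exp (-(κ / 10 / ρ)) +
        c₀.C * c₀.P.I.card * (1 / (κ / 10) * Real.exp (-(κ / 10 / ρ)))) := by gcongr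
    _ = _ := by ring

omit [DecidableEq ι] in
theorem OutP.isOpen_box (I : Finset ι) (a : ι → ℝ) (K : ℕ) (η : ℝ) (τ : ℂ) :
    IsOpen (P218F.Box I a K η τ) := by
  have : P218F.Box I a K η τ = {ξ | ‖ξ‖ ^ K < η * ‖τ‖} ∩
      ⋂ i ∈ I, {ξ : ι → ℂ | ‖ξ i - a i * τ‖ < η * ‖τ‖} := by
    ext ξ
    simp [P218F.Box]
  rw [this]
  exact (isOpen_lt (by fun_prop) continuous_const).inter
    (isOpen_biInter_finset fun i _ => isOpen_lt (by fun_prop) continuous_const)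

theorem secFam (c₀ : Cx ι) {cD : ℝ} {R0 : ℕ} {F : ℕ → (ι → ℂ) → ℂ}
    (hS : Spec c₀.P c₀.Sol cD R0 F) (hF : Fit c₀.M c₀.X e A κ) (hκ : 2 * κ ≤ cD * e)
    (hH : ∀ᶠ ρ in 𝓝[>] (0 : ℝ), (c₀.sc ρ).Ok) {a : ι → ℝ}
    (lo : ∀ i ∈ c₀.P.I, a i < 0 → A ≤ |a i|) (up : ∀ i ∈ c₀.P.I, e * |a i| ≤ 1 / 2) {K : ℕ}
    (hK : 1 ≤ K) : ∀ᶠ η in 𝓝[>] (0 : ℝ), ∀ s β : ℝ, (s = 1 ∨ s = -1) → β ≤ Real.pi / 2 →
      P218F.SecFam c₀.P.I cD c₀.P.r R0 F a K (κ / 10) e (e / 200) (1 / 1000) β η s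
        (Gf c₀.P c₀.Sol e a s) := by
  have he := hF.e0
  obtain ⟨C, hC⟩ := gf_near c₀ hS hF hκ lo up hK
  filter_upwards [hC, ev_Ioo hH, mst_allG c₀ hF lo up hK, mst_endG c₀ hF, mst_glue c₀ hF,
    ev_le (show (0 : ℝ) < 1 / 100 by norm_num)] with η h1 h2 h3 h4 h5 h6 s β hs hβ
  have sub : Icc (-(1 / 1000)) β ⊆ Icc (-(1 / 1000)) (Real.pi / 2) := Icc_subset_Icc_right hβ
  refine ⟨fun ρ hρ φ hφ => vl_hol (h2 ρ hρ) (isOpen_box _ _ _ _ _)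
    (h3 ρ hρ (h2 ρ hρ) s φ hs (sub hφ)), ⟨|C|, fun ρ hρ φ hφ ξ hξ => ?_⟩,
    ⟨(c₀.P.I.card + 1) * (2 * c₀.C₁) * (c₀.P.I.card * (c₀.M + 2) + 1) +
      (c₀.C + c₀.C * c₀.P.I.card * (1 / (e / 200))),
      fun ρ hρ φ hφ ρ' hρ' φ' hφ' k1 k2 ξ hξ => ?_⟩⟩
  · obtain ⟨R, r0, r1, r2, r3⟩ := h1 ρ hρ (h2 ρ hρ) s φ hs (sub hφ) ξ hξ
    exact ⟨R, r0, r1, r2, r3.trans (mul_le_mul (le_abs_self C) (Real.exp_le_exp.2 (neg_le_neg
      (div_le_div_of_nonneg_right (min_le_left _ _) hρ.1.le))) (Real.exp_pos _).le (abs_nonneg C))⟩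
  have H := h2 ρ hρ
  have h0 := hρ.1
  have G := h3 ρ hρ H s φ hs (sub hφ) ξ hξ.1
  obtain ⟨⟨-, x1⟩, -, x2⟩ := hξ
  rw [norm_pol h0.le] at x1
  rw [norm_pol hρ'.1.le] at x2
  have L := fun i hi => h5 ρ hρ H (a i) s φ ρ' φ' (ξ i) (lo i hi) (up i hi) hs (sub hφ) (sub hφ')
    k1 k2 (x1 i hi) (x2 i hi)
  have hC : 0 ≤ c₀.C := H.C0
  have hC₁ : 0 ≤ c₀.C₁ := H.C₁_nonneg
  have hM : 1 ≤ c₀.M := H.M1
  obtain ⟨f1, f2, -⟩ := five ⟨he, hF.κe⟩ h0 h6 k1.le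
  have q0 := div_pos he h0
  have q1 := div_pos he hρ'.1
  have q2 : (e * Real.cos φ + e / 200) / ρ ≤ 201 / 200 * (e / ρ) := by
    rw [← mul_div_assoc]
    exact div_le_div_of_nonneg_right
      (by linarith [mul_le_mul_of_nonneg_left (Real.cos_le_one φ) he.le]) h0.le
  have G1 : AllG (c₀.sc ρ) (6 * e / ρ) ξ fun i => mst c₀.P.T e (a i) s ρ' φ' :=
    ⟨G.xi, G.rc, fun i hi => (L i hi).1.2.1⟩
  have G2 : AllG (c₀.sc ρ) (6 * e / ρ') ξ fun i => mst c₀.P.T e (a i) s ρ' φ' :=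
    ⟨G.xi, rc (ρ := ρ) hF h0 (by simp only [mul_div_assoc] at f1 ⊢; linarith)
      (by simp only [mul_div_assoc] at f2 ⊢; linarith), G1.ends⟩
  have k3 := tele H (show 0 ≤ 2 * c₀.C₁ by linarith) G (fun i hi => (L i hi).1) fun i hi =>
    ⟨(h4 ρ hρ H _ s φ _ (lo i hi) (up i hi) hs (sub hφ) (x1 i hi)).2, (L i hi).2.1⟩
  have k4 := (vl_cone H G1 G2).trans (add_le_add_right (mul_le_mul_of_nonneg_left
    (Finset.sum_le_card_nsmul _ _ (Real.exp (-(101 / 100 * e / ρ))) fun i hi =>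
      Real.exp_le_exp.2 (by linarith [(L i hi).2.2])) (div_nonneg hC h0.le)) _)
  simp only [Finset.sum_const, nsmul_eq_mul] at k3 k4
  have e4 := inv_exp (d := e / 200) (u := 101 / 100 * e / ρ) (v := e * Real.cos φ + e / 200)
    (by positivity) h0 (by rw [div_right_comm e, mul_div_assoc]; linarith)
  generalize (e * Real.cos φ + e / 200) / ρ = y at q2 e4 ⊢
  have e1 : Real.exp (-(101 / 100 * e / ρ)) ≤ Real.exp (-y) :=
    Real.exp_le_exp.2 (by rw [mul_div_assoc]; linarith)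
  have e2 : Real.exp (-(6 * e / ρ / 5)) ≤ Real.exp (-y) :=
    Real.exp_le_exp.2 (by rw [mul_div_assoc]; linarith)
  have e3 : Real.exp (-(min (6 * e / ρ) (6 * e / ρ') / 5)) ≤ Real.exp (-y) := by
    simp only [mul_div_assoc]
    have f4 : 99 / 100 * (e / ρ) ≤ e / ρ' := by
      rw [← mul_div_assoc, div_le_div_iff₀ h0 hρ'.1]
      nlinarith [mul_le_mul_of_nonneg_left (abs_lt.1 k1).2.le he.le, mul_pos he h0]
    have : 5 * y ≤ min (6 * (e / ρ)) (6 * (e / ρ')) := le_min (by linarith) (by linarith)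
    exact Real.exp_le_exp.2 (by linarith)
  refine (norm_sub_le_norm_sub_add_norm_sub _ _ _).trans ((add_le_add k3 k4).trans ?_)
  calc _ = (c₀.P.I.card + 1) * (2 * c₀.C₁) * (c₀.P.I.card * ((c₀.M + 2) *
        Real.exp (-(101 / 100 * e / ρ))) + Real.exp (-(6 * e / ρ / 5))) +
        (c₀.C * Real.exp (-(min (6 * e / ρ) (6 * e / ρ') / 5)) +
        c₀.C * c₀.P.I.card * (1 / ρ * Real.exp (-(101 / 100 * e / ρ)))) := by
        simp only [Cx.sc]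
        ring
    _ ≤ (c₀.P.I.card + 1) * (2 * c₀.C₁) * (c₀.P.I.card * ((c₀.M + 2) * Real.exp (-y)) +
        Real.exp (-y)) + (c₀.C * Real.exp (-y) +
        c₀.C * c₀.P.I.card * (1 / (e / 200) * Real.exp (-y))) := by gcongr
    _ = _ := by ring

end Vale.Agent.P218N.J
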