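import Vale.Agent.P218N.End.Defs
import Vale.Agent.P218F.DefsV

/-! Interface between the glued problem (core + far boxes) and the contour calculus. -/

open Filter Topology Metric Set Complex
open scoped ComplexConjugate

noncomputable section

namespace Vale.Agent.P218N.J

open Vale.Agent.P218N.End

/-- `Ω = ζ ρ₀` -/
def Om (a ζ : ℂ) : ℂ := ζ * rh a ζ

/-- the slow variable `log (ζ / ρ₀)` at the end point -/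
def sE (a ζ : ℂ) : ℂ := 2 * Complex.log ζ - Complex.log (Om a ζ)

/-- admissible contours starting at `T` -/
structure AdmP (c K T : ℝ) (a : ℂ) (γ : Path) : Prop where
  ok : γ.Ok
  st : γ.ze 0 = T
  dir : ∀ t, ∃ u : ℂ, ‖u‖ = 1 ∧ c ≤ u.re ∧
    c * ‖Om a (γ.ze t)‖ ≤ (conj u * Om a (γ.ze t)).re ∧ γ.g t = (‖γ.g t‖ : ℝ) * u
  big : ∀ t, K ≤ ‖Om a (γ.ze t)‖

/-- `γ'` is a parametrisation of the part `[0, t₀]` of `γ` -/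
structure Rep (φ : ℝ → ℝ) (γ γ' : Path) (t₀ : ℝ) : Prop where
  cont : ContinuousOn φ (Icc 0 1)
  mono : MonotoneOn φ (Icc 0 1)
  maps : MapsTo φ (Icc 0 1) (Icc 0 1)
  zero : φ 0 = 0
  one : φ 1 = t₀
  eq : ∀ t ∈ Icc (0 : ℝ) 1, γ'.ze t = γ.ze (φ t)

/-- the speed `6 t (1 - t)` of the unit segment, run on `[k / 3, (k + 1) / 3]` -/
def bp (k : ℝ) : BC := mkB fun t => ((18 * cl (3 * t - k) * (1 - cl (3 * t - k)) : ℝ) : ℂ)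

/-- the polygon with vertices `p, q₁, q₂, q₃` -/
def pg (p q₁ q₂ q₃ : ℂ) : Path where
  g := (q₁ - p) • bp 0 + (q₂ - q₁) • bp 1 + (q₃ - q₂) • bp 2
  ze := p • (1 : BC) + V p0 ((q₁ - p) • bp 0 + (q₂ - q₁) • bp 1 + (q₃ - q₂) • bp 2)

/-- the segment from `p` to `q` -/
def sg (p q : ℂ) : Path := pg p ((2 * p + q) / 3) ((p + 2 * q) / 3) q

/-- the modes different from zero -/
def nsD : WD →L[ℂ] WD := mult fun m => if m = 0 then 0 else 1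

/-- the size of the non-symmetric part of a jet at a point of the contour -/
def nsN (j : EJ) (t : ℝ) : ℝ :=
  ‖nsD (tr t j.y2)‖ + ‖nsD (tr t j.op)‖ + ‖nsD (tr t j.oq)‖ + ‖tr t j.pt‖

/-- the square of the mean radius -/
def R0v (a : ℂ) (γ : Path) (j : EJ) (t : ℝ) : ℂ := rh a (γ.ze t) * (1 + j.y2.c 0 t) ^ 2

/-- its derivative with respect to `ζ` -/
def R1v (a : ℂ) (γ : Path) (j : EJ) (t : ℝ) : ℂ :=
  a * (1 + j.y2.c 0 t) ^ 2 + 2 * (1 + j.y2.c 0 t) * j.op.c 0 t / γ.ze t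

/-- the Gaussian area of the part `[t₀, 1]` of an end -/
def tailF (a : ℂ) (γ : Path) (j : EJ) (t₀ : ℝ) : ℂ := ∫ t in t₀..1, γ.g t *
  ∫ θ in (0 : ℝ)..2 * Real.pi, lagCyl a (γ.ze t) (ev j.y t θ) (ev j.yt t θ) (ev j.op t θ)

/-- a truncated problem: the conical ends stop at `Rc`, the cylindrical end `i` runs along `γ i`
with fast terminal data `ω i` -/
structure Cfg (ι : Type) where
  Rc : ℝ
  γ : ι → Path
  ω : ι → WD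

/-- the output of a solution: slopes, jets on the cylindrical ends, Gaussian area -/
structure Out (ι : Type) where
  a : ι → ℂ
  j : ι → EJ
  v : ℂ

variable {ι : Type} [Fintype ι] [DecidableEq ι]

/-- change of one end -/
def Cfg.upd (x : Cfg ι) (i : ι) (γ : Path) (ω : WD) : Cfg ι :=
  ⟨x.Rc, Function.update x.γ i γ, Function.update x.ω i ω⟩

/-- all ends truncated at the real point `R` -/
def realCfg (ι : Type) (T R : ℝ) : Cfg ι := ⟨R, fun _ => sg T R, fun _ => 0⟩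

/-- the fixed constants -/
structure Par (ι : Type) where
  I : Finset ι
  c : ℝ
  K : ℝ
  T : ℝ
  r : ℝ
  δ : ℝ
  δ₀ : ℝ

/-- The data `x, ξ` have the scale `ρ`, and the contours are admissible for all slopes in the discs
with centres `ah` and radii `rd`. -/
structure Good (P : Par ι) (M K' ρ : ℝ) (ah : ι → ℂ) (rd : ι → ℝ) (x : Cfg ι) (ξ : ι → ℂ) :
    Prop where
  pos : 0 < ρ
  xi : ‖ξ‖ < P.r
  al : ∀ i ∈ P.I, ‖ξ i‖ ≤ M * ρ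
  up : ∀ i ∈ P.I, ∀ t, ‖(x.γ i).ze t‖ ≤ M / ρ
  lo : ∀ i ∈ P.I, 1 / (M * ρ) ≤ ((x.γ i).ze 1).re
  rc : 1 / (M * ρ) ≤ x.Rc ∧ x.Rc ≤ M / ρ
  adm : ∀ i ∈ P.I, ∀ a ∈ closedBall (ah i) (rd i), AdmP P.c P.K P.T a (x.γ i)
  pre : ∀ i ∈ P.I, ∃ t₁ ∈ Icc (0 : ℝ) 1, (∀ t ∈ Icc 0 t₁, ((x.γ i).ze t).im = 0) ∧
    1 / (M * ρ) ≤ ((x.γ i).ze t₁).re
  rad : ∀ i ∈ P.I, K' * ρ ^ 2 * (1 + ‖x.ω i‖ ^ 2 * ‖Om (ah i) ((x.γ i).ze 1)‖) ≤ rd i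
  sm : ∀ i ∈ P.I, ‖ah i‖ + rd i ≤ M * ρ
  om : ∀ i ∈ P.I, ‖x.ω i‖ ≤ P.δ₀

/-- the centres of the discs are approximate solutions -/
def Ref (P : Par ι) (ah : ι → ℂ) (rd : ι → ℝ) (x : Cfg ι) (ξ : ι → ℂ) : Prop :=
  ∀ i ∈ P.I, ‖ah i + ah i ^ 2 * sE (ah i) ((x.γ i).ze 1) - ξ i‖ ≤ rd i / 4

/-- the slopes lie in the half discs -/
def Half (P : Par ι) (ah : ι → ℂ) (rd : ι → ℝ) (o : Out ι) : Prop :=
  ∀ i ∈ P.I, ‖o.a i - ah i‖ ≤ rd i / 2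

/-- holomorphic dependence of the data on a parameter -/
structure HolIn (P : Par ι) {E : Type} [NormedAddCommGroup E] [NormedSpace ℂ E] (U : Set E)
    (x : E → Cfg ι) (ξ : E → ι → ℂ) : Prop where
  op : IsOpen U
  rc : ∀ p ∈ U, ∀ q ∈ U, (x p).Rc = (x q).Rc
  ze : ∀ i ∈ P.I, DifferentiableOn ℂ (fun p => ((x p).γ i).ze) U
  g : ∀ i ∈ P.I, DifferentiableOn ℂ (fun p => ((x p).γ i).g) U
  ω : ∀ i ∈ P.I, DifferentiableOn ℂ (fun p => (x p).ω i) U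
  xi : DifferentiableOn ℂ ξ U

/-- the contours of the family have a common real prefix -/
def Com (P : Par ι) (M ρ : ℝ) {E : Type} (U : Set E) (x : E → Cfg ι) : Prop :=
  ∀ i ∈ P.I, ∃ t₁ ∈ Icc (0 : ℝ) 1, ∀ p ∈ U, 1 / (M * ρ) ≤ (((x p).γ i).ze t₁).re ∧
    ∀ t ∈ Icc 0 t₁, (((x p).γ i).ze t).im = 0 ∧ ∀ q ∈ U, ((x p).γ i).ze t = ((x q).γ i).ze t

/-- holomorphic dependence of the output on a parameter -/
structure HolOut (P : Par ι) {E : Type} [NormedAddCommGroup E] [NormedSpace ℂ E] (U : Set E)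
    (o : E → Out ι) : Prop where
  v : DifferentiableOn ℂ (fun p => (o p).v) U
  a : ∀ i ∈ P.I, DifferentiableOn ℂ (fun p => (o p).a i) U
  j : ∀ i ∈ P.I, DifferentiableOn ℂ (fun p => (o p).j i) U

/-- The properties at the scale `ρ`. -/
structure Loc (P : Par ι) (Sol : Cfg ι → (ι → ℂ) → Out ι → Prop) (M K' C ε ρ : ℝ) : Prop where
  /-- existence and holomorphy -/
  ex : ∀ (E : Type) [NormedAddCommGroup E] [NormedSpace ℂ E] (U : Set E) (x : E → Cfg ι)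
    (ξ : E → ι → ℂ) (ah : ι → ℂ) (rd : ι → ℝ), HolIn P U x ξ → Com P M ρ U x →
    (∀ p ∈ U, Good P M K' ρ ah rd (x p) (ξ p) ∧ Ref P ah rd (x p) (ξ p)) →
    ∃ o : E → Out ι, HolOut P U o ∧ ∀ p ∈ U, Sol (x p) (ξ p) (o p) ∧ Half P ah rd (o p)
  /-- uniqueness -/
  uq : ∀ ah rd x ξ o o', Good P M K' ρ ah rd x ξ → Sol x ξ o → Sol x ξ o' → Half P ah rd o →
    Half P ah rd o' → o.v = o'.v ∧ ∀ i ∈ P.I, o.a i = o'.a i ∧ o.j i = o'.j i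
  /-- restriction to a prefix of the end `i`, renormalised at the new end point -/
  res : ∀ ah rd x ξ o, Good P M K' ρ ah rd x ξ → Sol x ξ o → Half P ah rd o →
    (∀ i ∈ P.I, x.ω i = 0) → ∀ i ∈ P.I, ∀ φ γ' t₀, γ'.Ok → Rep φ (x.γ i) γ' t₀ →
    1 / (M * ρ) ≤ ((x.γ i).ze t₀).re → ∃ (ω' : WD) (o' : Out ι), Sol (x.upd i γ' ω') ξ o' ∧
      ‖ω'‖ ≤ P.δ₀ / 4 ∧ ‖ω'‖ ≤ C / ‖Om (o.a i) ((x.γ i).ze 1)‖ + ε ∧ ‖nsD ω'‖ ≤ ε ∧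
      o'.v = o.v - tailF (o.a i) (x.γ i) (o.j i) t₀ ∧
      (∀ k ∈ P.I, k ≠ i → o'.a k = o.a k) ∧
      R0v (o'.a i) γ' (o'.j i) 1 = R0v (o.a i) (x.γ i) (o.j i) t₀ ∧
      R1v (o'.a i) γ' (o'.j i) 1 = R1v (o.a i) (x.γ i) (o.j i) t₀ ∧
      ‖o'.a i - o.a i‖ ≤ C * ρ ^ 2 *
        (1 + ‖sE (o.a i) ((x.γ i).ze 1) - sE (o.a i) ((x.γ i).ze t₀)‖)
  /-- first variation: only the fast data move -/
  fv : ∀ ah rd (x : Cfg ι) ξ (ω : ℂ → ι → WD) (o : ℂ → Out ι) (s : ℝ), 0 < s →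
    (∀ i ∈ P.I, DifferentiableOn ℂ (fun p => ω p i) (ball 0 s)) → HolOut P (ball 0 s) o →
    (∀ p ∈ ball (0 : ℂ) s, Good P M K' ρ ah rd ⟨x.Rc, x.γ, ω p⟩ ξ ∧
      Sol ⟨x.Rc, x.γ, ω p⟩ ξ (o p) ∧ Half P ah rd (o p)) →
    ∀ p ∈ ball (0 : ℂ) (s / 2), ‖deriv (fun q => (o q).v) p - ∑ i ∈ P.I,
      (x.γ i).FluxCyl ((o p).a i) ((o p).j i) 1 (deriv (fun q => (o q).a i) p)
        (deriv (fun q => (o q).j i) p).y‖ ≤ C / s * Real.exp (-(x.Rc / 5))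
  /-- change of the truncation of the conical ends -/
  cone : ∀ ah rd (x : Cfg ι) ξ o (R' : ℝ) o', Good P M K' ρ ah rd x ξ →
    Good P M K' ρ ah rd ⟨R', x.γ, x.ω⟩ ξ → Sol x ξ o → Sol ⟨R', x.γ, x.ω⟩ ξ o' →
    Half P ah rd o → Half P ah rd o' → (∀ i ∈ P.I, x.ω i = 0) →
    ‖o.v - o'.v‖ ≤ C * Real.exp (-(min x.Rc R' / 5)) +
      C / ρ * ∑ i ∈ P.I, Real.exp (-(((x.γ i).ze 1).re / 4))
  /-- asymptotics of the slope -/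
  as0 : ∀ ah rd x ξ o, Good P M K' ρ ah rd x ξ → Sol x ξ o → Half P ah rd o → ∀ i ∈ P.I,
    ‖o.a i + o.a i ^ 2 * sE (o.a i) ((x.γ i).ze 1) - ξ i‖ ≤
      ρ ^ 2 * (C * (‖x.ω i‖ + ‖x.ω i‖ ^ 2 * ‖Om (o.a i) ((x.γ i).ze 1)‖ +
        1 / ‖Om (o.a i) ((x.γ i).ze 1)‖) + ε)
  /-- the far part is almost rotationally symmetric -/
  ns : ∀ ah rd x ξ o, Good P M K' ρ ah rd x ξ → Sol x ξ o → Half P ah rd o → ∀ i ∈ P.I,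
    ∀ t, 1 / (M * ρ) ≤ ((x.γ i).ze t).re → nsN (o.j i) t ≤ C * ‖nsD (x.ω i)‖ + ε
  /-- the values are bounded -/
  bdd : ∀ ah rd x ξ o, Good P M K' ρ ah rd x ξ → Sol x ξ o → Half P ah rd o → ‖o.v‖ ≤ C

/-- What the glued problem delivers. -/
structure Spec0 (P : Par ι) (Sol : Cfg ι → (ι → ℂ) → Out ι → Prop) : Prop where
  c0 : 0 < P.c
  c1 : P.c ≤ 1 / 100
  K0 : 1000 ≤ P.K
  KT : 1000 * P.K ≤ P.T
  r0 : 0 < P.r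
  δ0 : 0 < P.δ₀
  δ1 : P.δ ≤ 1 / 100000
  /-- the jets solve the end problems -/
  base : ∀ x ξ o, Sol x ξ o → ∀ i ∈ P.I, (x.γ i).IsCyl (o.a i) (o.j i) ∧ ‖o.j i‖ ≤ P.δ ∧
    (o.j i).y2.c 0 1 = 0 ∧
    la (-(2 * Om (o.a i) ((x.γ i).ze 1))⁻¹) * (o.j i).op.c 0 1 = (x.ω i).c 0
  /-- reparametrisation -/
  rep : ∀ x x' ξ o, Sol x ξ o → x'.Rc = x.Rc → (∀ i ∈ P.I, x'.ω i = x.ω i ∧
      AdmP P.c P.K P.T (o.a i) (x.γ i) ∧ (x'.γ i).Ok ∧ ∃ φ, Rep φ (x.γ i) (x'.γ i) 1) →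
    ∃ o', Sol x' ξ o' ∧ o'.v = o.v ∧ ∀ i ∈ P.I, o'.a i = o.a i
  loc : ∀ M, 1 ≤ M → ∃ K' C : ℝ, 0 ≤ K' ∧ 0 ≤ C ∧ ∀ ε > 0, ∃ ρ₀ > 0, ∀ ρ, 0 < ρ → ρ ≤ ρ₀ →
    Loc P Sol M K' C ε ρ

/-- `F R` is the family of real truncations. -/
structure Spec (P : Par ι) (Sol : Cfg ι → (ι → ℂ) → Out ι → Prop) (cD : ℝ) (R0 : ℕ)
    (F : ℕ → (ι → ℂ) → ℂ) : Prop extends Spec0 P Sol where
  cD0 : 0 < cD
  TR : P.T < R0
  real : ∀ R : ℕ, R0 ≤ R → ∀ ξ ∈ P218F.Dom P.I cD P.r R, ∃ o, Sol (realCfg ι P.T R) ξ o ∧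
    o.v = F R ξ ∧ ∀ i ∈ P.I, ‖o.a i‖ ≤ 1 / (100 * R)

/-- The real truncations form a family of the class `IsGF`. -/
def GFStmt : Prop := ∀ (ι : Type) [Fintype ι] [DecidableEq ι] (P : Par ι)
  (Sol : Cfg ι → (ι → ℂ) → Out ι → Prop), Spec0 P Sol → ∃ (R0 : ℕ) (o : ℕ → (ι → ℂ) → Out ι),
    Spec P Sol (1 / 1000) R0 (fun R ξ => (o R ξ).v) ∧
    P218F.IsGF P.I (1 / 1000) P.r (1 / 10) R0 (fun R ξ => (o R ξ).v) ∧
    ∀ R : ℕ, R0 ≤ R → HolOut P (P218F.Dom P.I (1 / 1000) P.r R) (o R) ∧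
      ∀ ξ ∈ P218F.Dom P.I (1 / 1000) P.r R, Sol (realCfg ι P.T R) ξ (o R ξ) ∧
        (∀ i ∈ P.I, ‖(o R ξ).a i‖ ≤ 1 / (100 * R)) ∧ ∀ o', Sol (realCfg ι P.T R) ξ o' →
          (∀ i ∈ P.I, ‖o'.a i‖ ≤ 1 / (100 * R)) → o'.v = (o R ξ).v ∧
            ∀ i ∈ P.I, o'.a i = (o R ξ).a i ∧ o'.j i = (o R ξ).j i

/-- The theorem of the block JUMP. -/
def JumpStmt : Prop := ∀ (ι : Type) [Fintype ι] [DecidableEq ι] (P : Par ι)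
  (Sol : Cfg ι → (ι → ℂ) → Out ι → Prop) (cD : ℝ) (R0 : ℕ) (F : ℕ → (ι → ℂ) → ℂ),
  Spec P Sol cD R0 F → P218F.StokesHypV P.I cD P.r R0 F

end Vale.Agent.P218N.J
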