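import Vale.Agent.P218N.J.Trunc
import Vale.Agent.P218N.J.Leg

/-! The switch of one end: families of fast data at the point `Z - 22 L`. -/

open Filter Topology Metric Set Complex
open scoped ComplexConjugate

noncomputable section

namespace Vale.Agent.P218N.J

open Vale.Agent.P218N.End

set_option linter.unusedSectionVars false

theorem c_nsD (ω : WD) (m : ℤ) : (nsD ω).c m = if m = 0 then 0 else ω.c m := by
  have : ∀ m : ℤ, ‖(if m = 0 then (0 : ℂ) else 1)‖ ≤ 1 := fun m => by split_ifs <;> simp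
  rw [nsD, c_mult this]
  split_ifs <;> simp

theorem nsD_one1 (p : ℂ) : nsD (W.one1 0 p) = 0 := by
  ext m
  rw [c_nsD, W.c_one1]
  split_ifs <;> simp

theorem one1_add_nsD (ω : WD) : W.one1 0 (ω.c 0) + nsD ω = ω := by
  ext m
  rw [W.c_add, c_nsD, W.c_one1]
  split_ifs with h
  · simp [h]
  · simp

theorem nsD_of_zero {ω : WD} (h : ω.c 0 = 0) : nsD ω = ω := by
  ext m
  rw [c_nsD]
  split_ifs with h'
  · rw [h', h]
  · rfl

theorem schw {B : Type*} [NormedAddCommGroup B] [NormedSpace ℂ B] {f : ℂ → B} {r R : ℝ}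
    (hr : 1 < r) (hd : DifferentiableOn ℂ f (ball 0 r)) {b : B}
    (hb : ∀ p ∈ ball (0 : ℂ) r, ‖f p - b‖ ≤ R) : ‖f 1 - f 0‖ ≤ 2 * R / r := by
  have h0 : (0 : ℂ) ∈ ball (0 : ℂ) r := mem_ball_self (by linarith)
  have h1 : (1 : ℂ) ∈ ball (0 : ℂ) r := by simpa using hr
  have := Complex.dist_le_div_mul_dist_of_mapsTo_ball (R₂ := 2 * R) hd (fun z hz => by
    rw [mem_closedBall, dist_eq_norm]
    have e : f z - f 0 = (f z - b) - (f 0 - b) := by abel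
    rw [e]
    linarith [norm_sub_le (f z - b) (f 0 - b), hb z hz, hb 0 h0]) h1
  simpa [dist_eq_norm] using this

theorem hI_end {n μ δ L : ℝ} {a Q o p : ℂ} (hn : 0 < n) (hL : 10 ^ 7 ≤ L) (ha : ‖a + n‖ ≤ μ * n)
    (hQ : ‖Q * n - 2‖ ≤ μ) (hμ : μ ≤ δ / 1000) (hδ : δ ≤ 1) (hΩ : L ≤ ‖Om a Q‖)
    (ho : la (-(2 * Om a Q)⁻¹) * o = p) (hp : ‖p‖ ≤ δ) : ‖hI n a Q 0 o - 1 + 4 * p‖ ≤ δ / 100 := by
  obtain ⟨l0, l1⟩ := inv_la (Ω := Om a Q) (by linarith)
  set θ := (la (-(2 * Om a Q)⁻¹))⁻¹ - 4 with hθ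
  have hθ1 : ‖θ‖ ≤ 1 / 100000 := l1.trans (by
    rw [div_le_div_iff₀ (by linarith) (by norm_num)]; linarith)
  have eo : o = (4 + θ) * p := by
    rw [hθ, ← ho, add_sub_cancel, ← mul_assoc, inv_mul_cancel₀ l0, one_mul]
  have hu : 199 / 100 ≤ ‖Q * n‖ := by
    have := norm_sub_norm_le (2 : ℂ) (2 - Q * n)
    rw [sub_sub_cancel, norm_sub_rev] at this
    simp only [Complex.norm_ofNat] at this
    linarith
  have hu0 : Q * n ≠ 0 := norm_pos_iff.1 (by linarith)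
  have hn0 : (n : ℂ) ≠ 0 := by exact_mod_cast hn.ne'
  have hQ0 : Q ≠ 0 := left_ne_zero_of_mul hu0
  have e : hI n a Q 0 o - 1 + 4 * p =
      -((a + n) / n) + p * (4 * (Q * n - 2) - 2 * θ) / (Q * n) := by
    rw [hI, eo]; field_simp; ring
  have b1 : ‖(a + n) / n‖ ≤ μ := by
    rw [norm_div, Complex.norm_real, Real.norm_of_nonneg hn.le, div_le_iff₀ hn]; exact ha
  have b2 : ‖4 * (Q * n - 2) - 2 * θ‖ ≤ 5 / 1000 := by
    refine (norm_sub_le _ _).trans ?_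
    rw [norm_mul, norm_mul]
    simp only [Complex.norm_ofNat]
    linarith
  have b3 : ‖p * (4 * (Q * n - 2) - 2 * θ) / (Q * n)‖ ≤ δ * (5 / 1000) := by
    rw [norm_div, div_le_iff₀ (by linarith), norm_mul]
    have h1 := mul_le_mul hp b2 (norm_nonneg _) ((norm_nonneg _).trans hp)
    have h2 : 0 ≤ δ * (5 / 1000) := by linarith [norm_nonneg p]
    nlinarith
  rw [e]
  refine (norm_add_le _ _).trans ?_
  rw [norm_neg]
  linarith [norm_nonneg p]

variable {ι : Type} [Fintype ι] [DecidableEq ι]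

/-- the facts about the final states -/
structure Sw (c : Cx ι) (x : ℂ) (n L P δ μ : ℝ) : Prop where
  ok : c.Ok
  L7 : 10 ^ 7 ≤ L
  n0 : 0 < n
  n1 : n ≤ μ
  μ1 : μ ≤ δ / 1000000
  xn : ‖x + n‖ ≤ μ * n
  Zn : ‖Zi x n L * n - 2‖ ≤ μ
  Qn : ‖(Zi x n L - 22 * L) * n - 2‖ ≤ μ
  an : ∀ a ∈ closedBall (ahi x n L) (n ^ 2 * L / 200), ‖a + n‖ ≤ μ * n
  geo : ∀ s : ℝ, (s = 1 ∨ s = -1) → ∀ a ∈ closedBall (ahi x n L) (n ^ 2 * L / 200),
    GeoI c.P.K P n (cs s a) (cs s (Zi x n L)) L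
  ZL : 100 * L ≤ (Zi x n L).re
  gf : ∀ s : ℝ, (s = 1 ∨ s = -1) → EndG c x (fin c.P.T P s x n L)
  g0 : EndG c x (pfx c.P.T P x n L)
  w0 : Wt (pfx c.P.T P x n L) (‖Complex.exp (1 / 2 / x)‖ * Real.exp (6 * L))
  sub : ∀ s : ℝ, (s = 1 ∨ s = -1) → rng (pfx c.P.T P x n L).γ ⊆ rng (fin c.P.T P s x n L).γ
  lo : 1 / (c.M * c.ρ) ≤ P
  δ0 : 0 < δ
  δ1 : δ ≤ 1
  δ2 : δ ≤ c.P.δ₀
  rad : c.K' * c.ρ ^ 2 * (1 + δ ^ 2 * (100 * L)) ≤ n ^ 2 * L / 200

/-- the inner variable `Y` at the point `Z - 22 L` -/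
def YF (x : ℂ) (n L : ℝ) (i : ι) (o : Out ι) : ℂ := YI n (o.a i) (Zi x n L - 22 * L) 0

/-- the inner variable `h` at the point `Z - 22 L` -/
def HF (x : ℂ) (n L : ℝ) (i : ι) (o : Out ι) : ℂ :=
  hI n (o.a i) (Zi x n L - 22 * L) 0 ((o.j i).op.c 0 1)

namespace Sw

variable {c : Cx ι} {x a : ℂ} {n L P δ μ Rc : ℝ} {ξ : ι → ℂ} {σ : ι → ES} {i : ι} {Wk : ι → ℝ}

theorem pfx_one : (pfx c.P.T P x n L).γ.ze 1 = Zi x n L - 22 * L := pq_one

theorem atQ (h : Sw c x n L P δ μ) (ha : a ∈ closedBall (ahi x n L) (n ^ 2 * L / 200)) :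
    L ≤ ‖Om a (Zi x n L - 22 * L)‖ ∧ ‖Om a (Zi x n L - 22 * L)‖ ≤ 100 * L ∧
      ‖YI n a (Zi x n L - 22 * L) 0 + (22 * L : ℝ)‖ ≤ 22 * L / 100 ∧
      ∀ μ', μ ≤ μ' → InP (100 * L) μ' n a (Zi x n L - 22 * L) := by
  have h1 := h.L7
  have h2 := h.n0
  have h3 : μ ≤ 1 / 10000 := by linarith [h.μ1, h.δ1]
  obtain ⟨k1, k2, k3, -, k5, -⟩ := arm_geo (y := 0) (ζ := Zi x n L - 22 * L) (.inl rfl)
    (h.geo 1 (.inl rfl) a ha) h1 h.ZL ((h.an a ha).trans (by nlinarith))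
    (.inl (left_mem_segment _ _ _)) (by simp)
  refine ⟨k1, k2, ?_, fun μ' hμ => ⟨h2, h.n1.trans hμ, (h.an a ha).trans (by nlinarith),
    h.Qn.trans hμ, by linarith, k2, k3⟩⟩
  have e : YI n a (Zi x n L - 22 * L) 0 + (22 * L : ℝ) =
      YI n a (Zi x n L - 22 * L) 0 - (Zi x n L - 22 * L - Zi x n L) := by push_cast; ring
  rw [e]
  linarith

theorem Q_le (h : Sw c x n L P δ μ) : ‖Zi x n L - 22 * L - 2‖ * n ≤ 3 ∧
    1 ≤ ‖Zi x n L - 22 * L‖ * n := by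
  have h2 := h.n0
  have h3 : μ ≤ 1 / 10000 := by linarith [h.μ1, h.δ1]
  have h4 := h.n1
  have e : ∀ z : ℂ, ‖z‖ * n = ‖z * n‖ := fun z => by
    rw [norm_mul, Complex.norm_real, Real.norm_of_nonneg h2.le]
  have h5 := h.Qn
  constructor
  · rw [e]
    have e' : (Zi x n L - 22 * L - 2) * n = ((Zi x n L - 22 * L) * n - 2) + (2 - 2 * n : ℝ) := by
      push_cast; ring
    rw [e']
    refine (norm_add_le _ _).trans ?_
    rw [Complex.norm_real, Real.norm_of_nonneg (by linarith)]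
    linarith
  · rw [e]
    have := norm_sub_norm_le (2 : ℂ) (2 - (Zi x n L - 22 * L) * n)
    rw [sub_sub_cancel, norm_sub_rev] at this
    simp only [Complex.norm_ofNat] at this
    linarith

theorem mem_half (_ : Sw c x n L P δ μ) (hi : i ∈ c.P.I) {s : ES} (h1 : s.ah = ahi x n L)
    (h2 : s.rd = n ^ 2 * L / 200) {o : Out ι}
    (ho : Half c.P (ahs (Function.update σ i s)) (rds (Function.update σ i s)) o) :
    ‖o.a i - ahi x n L‖ ≤ n ^ 2 * L / 200 / 2 ∧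
      o.a i ∈ closedBall (ahi x n L) (n ^ 2 * L / 200) := by
  have := ho i hi
  simp only [ahs, rds, Function.update_self, h1, h2] at this
  refine ⟨this, ?_⟩
  rw [mem_closedBall, dist_eq_norm]
  linarith [norm_nonneg (o.a i - ahi x n L)]

theorem small (h : Sw c x n L P δ μ) {ω : WD} (hω : ‖ω‖ ≤ δ) : ‖ω‖ ≤ c.P.δ₀ ∧
    c.K' * c.ρ ^ 2 * (1 + ‖ω‖ ^ 2 * ‖Om (Function.update σ i (pfx c.P.T P x n L) i).ah
      ((Function.update σ i (pfx c.P.T P x n L) i).γ.ze 1)‖) ≤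
      (Function.update σ i (pfx c.P.T P x n L) i).rd := by
  refine ⟨hω.trans h.δ2, ?_⟩
  rw [Function.update_self, pfx_one]
  refine le_trans ?_ h.rad
  have h1 := (h.atQ (mem_closedBall_self (h.g0.side.rd_pos h.ok).le)).2.1
  have h2 := h.ok.K0
  gcongr
  exact h1

theorem good (h : Sw c x n L P δ μ)
    (hA : AllG c Rc ξ (Function.update σ i (pfx c.P.T P x n L))) {ω : WD} (hω : ‖ω‖ ≤ δ) :
    Good c.P c.M c.K' c.ρ (ahs (Function.update σ i (pfx c.P.T P x n L)))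
      (rds (Function.update σ i (pfx c.P.T P x n L)))
      (cfw Rc (Function.update σ i (pfx c.P.T P x n L)) i ω) ξ :=
  hA.good_w h.ok (hω.trans h.δ2) (h.small hω).2

/-- the data at the end point -/
theorem base (h : Sw c x n L P δ μ) (hi : i ∈ c.P.I) {ω : WD} {o : Out ι}
    (ho : c.Sol (cfw Rc (Function.update σ i (pfx c.P.T P x n L)) i ω) ξ o) :
    ‖o.j i‖ ≤ 1 / 100000 ∧ (o.j i).y2.c 0 1 = 0 ∧
      la (-(2 * Om (o.a i) (Zi x n L - 22 * L))⁻¹) * (o.j i).op.c 0 1 = ω.c 0 := by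
  obtain ⟨-, k2, k3, k4⟩ := h.ok.spec.base _ _ _ ho i hi
  simp only [cfw, Function.update_self, pfx_one] at k4
  exact ⟨k2.trans h.ok.spec.δ1, k3, k4⟩

/-- the family of symmetric data -/
theorem famA (h : Sw c x n L P δ μ) (hi : i ∈ c.P.I)
    (hA : AllG c Rc ξ (Function.update σ i (pfx c.P.T P x n L)))
    (hW : ∀ k ∈ c.P.I, k ≠ i → Wt (σ k) (Wk k)) {μ' ε₂ : ℝ} (hμ : μ ≤ μ') (hε : c.ε ≤ μ')
    (hε₂ : 0 ≤ ε₂)
    (hfl : ∀ (n d : ℝ) (a da : ℂ) (γ : Path) (j dj : EJ), InP (100 * L) μ' n a (γ.ze 1) →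
      ‖j‖ ≤ 1 / 100000 → j.y2.c 0 1 = 0 → nsN j 1 ≤ μ' → ‖tr 1 dj.y2‖ ≤ d →
      ‖γ.FluxCyl a j 1 da dj.y - 2 * Real.pi * (Real.sqrt 2 / 4) *
        (n * Complex.exp (-γ.ze 1 / 4)) * (2 * hI n a (γ.ze 1) 0 (j.op.c 0 1) /
          lI (YI n a (γ.ze 1) 0) (hI n a (γ.ze 1) 0 (j.op.c 0 1)) * (-((γ.ze 1 - 2) * da) / n))‖ ≤
        7 * n * Real.exp (-((γ.ze 1).re / 4)) *
          (ε₂ * ‖(γ.ze 1 - 2) * da / n‖ + 10 * (100 * L) * d)) :
    ∃ o : ℂ → Out ι, (∀ p ∈ ball (0 : ℂ) δ,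
        c.Sol (cfw Rc (Function.update σ i (pfx c.P.T P x n L)) i (W.one1 0 p)) ξ (o p) ∧
        Half c.P (ahs (Function.update σ i (pfx c.P.T P x n L)))
          (rds (Function.update σ i (pfx c.P.T P x n L))) (o p)) ∧
      DifferentiableOn ℂ (fun p => YF x n L i (o p)) (ball 0 δ) ∧
      DifferentiableOn ℂ (fun p => HF x n L i (o p)) (ball 0 δ) ∧
      DifferentiableOn ℂ (fun p => (o p).v) (ball 0 δ) ∧
      (∀ p ∈ ball (0 : ℂ) δ, ‖YF x n L i (o p) + (22 * L : ℝ)‖ ≤ 22 * L / 100) ∧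
      (∀ p ∈ ball (0 : ℂ) δ, ‖HF x n L i (o p) - 1 + 4 * p‖ ≤ δ / 100) ∧
      ∀ p ∈ ball (0 : ℂ) (δ / 2), ‖deriv (fun q => (o q).v) p -
        2 * Real.pi * (Real.sqrt 2 / 4) * (n * Complex.exp (-(Zi x n L - 22 * L) / 4)) *
          (2 * HF x n L i (o p) / lI (YF x n L i (o p)) (HF x n L i (o p)) *
            deriv (fun q => YF x n L i (o q)) p)‖ ≤
        c.C₁ / δ * (∑ k ∈ c.P.I.erase i, Wk k + Real.exp (-(Rc / 5))) +
          7 * n * Real.exp (-((Zi x n L - 22 * L).re / 4)) *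
            ((ε₂ * L + 4000 * L * c.ε) / δ) := by
  have H := h.ok
  have δ0 := h.δ0
  have n0 := h.n0
  have hb : ∀ p ∈ ball (0 : ℂ) δ, ‖(W.one1 0 p : WD)‖ ≤ δ := fun p hp => by
    rw [W.norm_one1]; exact (mem_ball_zero_iff.1 hp).le
  obtain ⟨o, hol, hs, hd⟩ := fam H hA hi δ0 (ω := fun p => W.one1 0 p)
    (W.oneL (A := ℂ) 0).differentiable.differentiableOn (fun p hp => h.small (hb p hp))
    (W := Wk) fun k hk hki => by rw [Function.update_of_ne hki]; exact hW k hk hki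
  have da := hol.a i hi
  have dj := hol.j i hi
  have mem : ∀ p ∈ ball (0 : ℂ) δ, (o p).a i ∈ closedBall (ahi x n L) (n ^ 2 * L / 200) :=
    fun p hp => (h.mem_half hi rfl rfl (hs p hp).2).2
  have ns : ∀ p ∈ ball (0 : ℂ) δ, nsN ((o p).j i) 1 ≤ c.ε := fun p hp => by
    have := H.loc.ns _ _ _ _ _ (h.good hA (hb p hp)) (hs p hp).1 (hs p hp).2 i hi 1 (by
      simp only [cfw, Function.update_self]; exact h.g0.lo)
    simpa only [cfw, Function.update_self, nsD_one1, norm_zero, mul_zero, zero_add] using this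
  have dop : DifferentiableOn ℂ (fun p => ((o p).j i).op.c 0 1) (ball 0 δ) :=
    DifferentiableOn.evalBC (((W.cL (A := BC) 0).comp EJ.opL).differentiable.comp_differentiableOn
      dj) 1
  have dY : DifferentiableOn ℂ (fun p => YF x n L i (o p)) (ball 0 δ) := by
    unfold YF YI rh
    fun_prop
  refine ⟨o, hs, dY, ?_, hol.v, fun p hp => (h.atQ (mem p hp)).2.2.1, fun p hp => ?_,
    fun p hp => ?_⟩
  · unfold HF hI
    fun_prop
  · refine hI_end n0 h.L7 (h.an _ (mem p hp)) h.Qn (by linarith [h.μ1]) h.δ1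
      (h.atQ (mem p hp)).1 ?_ (mem_ball_zero_iff.1 hp).le
    simpa [W.c_one1] using (h.base hi (hs p hp).1).2.2
  have hp' : p ∈ ball (0 : ℂ) δ := ball_subset_ball (by linarith) hp
  obtain ⟨d1, d2, -⟩ := hd p hp
  simp only [Function.update_self] at d1 d2
  have hn : ball (0 : ℂ) δ ∈ 𝓝 p := isOpen_ball.mem_nhds hp'
  -- the variation of the trace
  have t1 : ‖tr 1 (deriv (fun q => (o q).j i) p).y2‖ ≤ 4 * c.ε / δ := by
    have e : tr 1 (deriv (fun q => (o q).j i) p).y2 =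
        deriv (fun q => ((tr 1).comp EJ.y2L) ((o q).j i)) p :=
      ((((tr 1).comp EJ.y2L).hasFDerivAt.comp_hasDerivAt p
        (dj.differentiableAt hn).hasDerivAt).deriv).symm
    rw [e]
    refine TruncP.deriv_le (b := 0) (((tr 1).comp EJ.y2L).differentiable.comp_differentiableOn dj)
      (fun q hq => ?_) hp
    have z : (tr 1 ((o q).j i).y2).c 0 = 0 := by rw [c_tr]; exact (h.base hi (hs q hq).1).2.1
    have := ns q hq
    rw [nsN, nsD_of_zero z] at this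
    rw [sub_zero]
    change ‖tr 1 ((o q).j i).y2‖ ≤ _
    linarith [norm_nonneg (nsD (tr 1 ((o q).j i).op)), norm_nonneg (nsD (tr 1 ((o q).j i).oq)),
      norm_nonneg (tr 1 ((o q).j i).pt)]
  have f1 := hfl n _ ((o p).a i) (deriv (fun q => (o q).a i) p) (pfx c.P.T P x n L).γ ((o p).j i)
    _ (by rw [pfx_one]; exact (h.atQ (mem p hp')).2.2.2 μ' hμ) (h.base hi (hs p hp').1).1
    (h.base hi (hs p hp').1).2.1 ((ns p hp').trans hε) t1
  rw [pfx_one] at f1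
  have eY : deriv (fun q => YF x n L i (o q)) p =
      -((Zi x n L - 22 * L - 2) * deriv (fun q => (o q).a i) p) / n := by
    have := ((((da.differentiableAt hn).hasDerivAt.mul_const (Zi x n L - 22 * L - 2)).const_add
      2).mul_const ((1 + 0) ^ 2)).neg.div_const (n : ℂ)
    refine (HasDerivAt.deriv this).trans ?_
    ring
  have b1 : ‖(Zi x n L - 22 * L - 2) * deriv (fun q => (o q).a i) p / n‖ ≤ L / δ := by
    rw [norm_div, norm_mul, Complex.norm_real, Real.norm_of_nonneg n0.le, div_le_iff₀ n0]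
    have q1 := h.Q_le.1
    have q2 : ‖Zi x n L - 22 * L - 2‖ ≤ 3 / n := by rwa [le_div_iff₀ n0]
    refine (mul_le_mul q2 d1 (norm_nonneg _) (by positivity)).trans ?_
    have e : 3 / n * (2 * (pfx c.P.T P x n L).rd / δ) = 3 / 100 * (L / δ * n) := by
      simp only [pfx]; field_simp; ring
    have : 0 ≤ L / δ * n := by have := h.L7; positivity
    rw [e]
    linarith
  rw [eY]
  have b2 : ε₂ * ‖(Zi x n L - 22 * L - 2) * deriv (fun q => (o q).a i) p / n‖ +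
      10 * (100 * L) * (4 * c.ε / δ) ≤ (ε₂ * L + 4000 * L * c.ε) / δ := by
    have := mul_le_mul_of_nonneg_left b1 hε₂
    have e : (ε₂ * L + 4000 * L * c.ε) / δ = ε₂ * (L / δ) + 10 * (100 * L) * (4 * c.ε / δ) := by
      ring
    linarith
  have b3 := f1.trans (mul_le_mul_of_nonneg_left b2 (by positivity))
  refine le_trans ?_ (add_le_add d2 b3)
  refine le_trans (le_of_eq ?_) (norm_add_le _ _)
  congr 1
  simp only [HF, YF]
  ring

end Sw

end Vale.Agent.P218N.J
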