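import Vale.Agent.P218N.J.Val
import Vale.Agent.P218N.J.Apx

/-! Families of fast data and the truncation estimate. -/

open Filter Topology Metric Set Complex
open scoped ComplexConjugate

noncomputable section

namespace Vale.Agent.P218N.J

open Vale.Agent.P218N.End

variable {ι : Type} [Fintype ι] [DecidableEq ι] {c : Cx ι} {Rc : ℝ} {ξ : ι → ℂ} {σ : ι → ES}
  {x ah a : ℂ} {rd w : ℝ} {s : ES} {γ γ' : Path}

namespace TruncP

theorem om_big (H : c.Ok) (h : EndG c x s) (ha : a ∈ closedBall s.ah s.rd) (t : ℝ) :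
    1000 ≤ ‖Om a (s.γ.ze t)‖ := H.spec.K0.trans ((h.adm a ha).big t)

theorem mem_of_half (H : c.Ok) (h : EndG c x s) (ha : ‖a - s.ah‖ ≤ s.rd / 2) :
    a ∈ closedBall s.ah s.rd := by
  rw [mem_closedBall, dist_eq_norm]
  linarith [h.side.rd_pos H]

theorem lag_le (H : c.Ok) (h : EndG c x s) (ha : a ∈ closedBall s.ah s.rd) {j : EJ}
    (hj : ‖j‖ ≤ 1 / 100000) (t : ℝ) :
    ‖∫ θ in (0 : ℝ)..2 * Real.pi, lagCyl a (s.γ.ze t) (ev j.y t θ) (ev j.yt t θ) (ev j.op t θ)‖ ≤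
      Real.sqrt (‖rh a (s.γ.ze t)‖ / ‖s.γ.ze t‖) * Real.exp (c.M ^ 2 + 3) *
        Real.exp (-((s.γ.ze t).re / 4)) * (2 * Real.pi) := by
  refine (intervalIntegral.norm_integral_le_of_norm_le_const (C :=
    Real.sqrt (‖rh a (s.γ.ze t)‖ / ‖s.γ.ze t‖) * Real.exp (c.M ^ 2 + 3) *
        Real.exp (-((s.γ.ze t).re / 4))) fun θ _ => ?_).trans (le_of_eq ?_)
  · refine (norm_lag_le (h.a_le H ha).2 (om_big H h ha t)
      ((norm_ev_le _ _ _).trans (j.norm_y_le.trans hj))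
      ((norm_ev_le _ _ _).trans (j.norm_yt_le.trans hj))
      ((norm_ev_le _ _ _).trans (j.norm_op_le.trans hj))).trans ?_
    have h1 := Real.exp_le_exp.2 (h.rh_le H ha t).2.1
    gcongr
  · rw [sub_zero, abs_of_nonneg (by positivity)]

/-- the Schwarz lemma on the half ball -/
theorem deriv_le {B : Type*} [NormedAddCommGroup B] [NormedSpace ℂ B] {f : ℂ → B} {r R : ℝ}
    (hd : DifferentiableOn ℂ f (ball 0 r)) {b : B} (hb : ∀ p ∈ ball (0 : ℂ) r, ‖f p - b‖ ≤ R)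
    {p : ℂ} (hp : p ∈ ball (0 : ℂ) (r / 2)) : ‖deriv f p‖ ≤ 4 * R / r := by
  have h0 : 0 < r / 2 := pos_of_mem_ball hp
  have h1 : ball p (r / 2) ⊆ ball 0 r := ball_subset_ball' (by
    linarith [mem_ball.1 hp])
  have h2 := Complex.norm_deriv_le_div_of_mapsTo_ball (R₂ := 2 * R) (hd.mono h1) (fun q hq => by
    rw [mem_closedBall, dist_eq_norm]
    have h3 := norm_sub_le (f q - b) (f p - b)
    rw [sub_sub_sub_cancel_right] at h3
    linarith [hb q (h1 hq), hb p (h1 (mem_ball_self h0))]) h0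
  exact h2.trans (le_of_eq (by ring))

theorem C₁_ge (H : c.Ok) : c.C ≤ c.C₁ ∧ 160 * (1 + c.M ^ 2) * Real.exp (c.M ^ 2 + 3) ≤ c.C₁ ∧
    26 / c.P.c * Real.exp (c.M ^ 2 + 3) ≤ 2 / 3 * c.C₁ := by
  have h0 := H.spec.c0
  have h1 := H.spec.c1
  have h2 := H.C0
  have h3 : 0 < Real.exp (c.M ^ 2 + 3) := Real.exp_pos _
  have h4 : 0 ≤ Real.exp (c.M ^ 2 + 3) / c.P.c := by positivity
  have h5 : 100 * Real.exp (c.M ^ 2 + 3) ≤ Real.exp (c.M ^ 2 + 3) / c.P.c := by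
    rw [le_div_iff₀ h0]
    nlinarith
  have h6 : c.C₁ = 100 * (1 + c.M ^ 2) * (Real.exp (c.M ^ 2 + 3) / c.P.c) + c.C := by
    rw [Cx.C₁, mul_div_assoc]
  have h7 : 26 / c.P.c * Real.exp (c.M ^ 2 + 3) = 26 * (Real.exp (c.M ^ 2 + 3) / c.P.c) := by ring
  rw [h6, h7]
  generalize Real.exp (c.M ^ 2 + 3) / c.P.c = y at h4 h5
  generalize Real.exp (c.M ^ 2 + 3) = e at h3 h5
  have h8 := mul_nonneg (sq_nonneg c.M) h4
  have h9 := mul_le_mul_of_nonneg_left h5 (sq_nonneg c.M)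
  have h10 := mul_nonneg (sq_nonneg c.M) h3.le
  refine ⟨?_, ?_, ?_⟩ <;> nlinarith

end TruncP

open TruncP

/-- crude bound of the flux at the end point -/
theorem norm_Flux_le (H : c.Ok) (h : EndG c x s) (hw : Wt s w) (ha : ‖a - s.ah‖ ≤ s.rd / 2)
    {j dj : EJ} (hj : ‖j‖ ≤ 1 / 100000) {da : ℂ} {d : ℝ} (h1 : ‖da‖ ≤ d * (s.rd / 2))
    (h2 : ‖dj‖ ≤ d) : ‖s.γ.FluxCyl a j 1 da dj.y‖ ≤
      40 * (1 + c.M ^ 2) * Real.exp (c.M ^ 2 + 3) * d * w := by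
  have ha' := mem_of_half H h ha
  have hO := om_big H h ha' 1
  have hd : 0 ≤ d := (norm_nonneg _).trans h2
  have hw0 : 0 ≤ w := hw.nonneg (h.side.rd_pos H).le
  have h3 : ‖(s.γ.ze 1 - 2) * da / rh a (s.γ.ze 1)‖ ≤ d := by
    have h4 := rd_le_rh (by linarith [H.spec.K0]) h.adm ha 1
    rw [norm_div, div_le_iff₀ (norm_pos_iff.2 (ApxP.ne_of_Om hO).2), norm_mul]
    calc ‖s.γ.ze 1 - 2‖ * ‖da‖ ≤ ‖s.γ.ze 1 - 2‖ * (d * (s.rd / 2)) := by gcongr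
      _ = d * (s.rd / 2 * ‖s.γ.ze 1 - 2‖) := by ring
      _ ≤ _ := by gcongr
  refine (intervalIntegral.norm_integral_le_of_norm_le_const (C :=
    6 * (1 + c.M ^ 2) * Real.exp (c.M ^ 2 + 3) * d * w) fun θ _ => ?_).trans ?_
  · refine (norm_flux_le (h.a_le H ha').2 hO
      ((norm_ev_le _ _ _).trans (j.norm_y_le.trans hj))
      ((norm_ev_le _ _ _).trans (j.norm_yt_le.trans hj))
      ((norm_ev_le _ _ _).trans (j.norm_op_le.trans hj)) _ _).trans ?_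
    have h4 := Real.exp_le_exp.2 (h.rh_le H ha' 1).2.1
    have h5 := (h.rh_le H ha' 1).1
    have h6 : ‖ev dj.y 1 θ‖ ≤ d := (norm_ev_le _ _ _).trans (dj.norm_y_le.trans h2)
    calc _ = 3 * (1 + ‖a * s.γ.ze 1‖) * Real.exp ‖rh a (s.γ.ze 1)‖ *
          (‖ev dj.y 1 θ‖ + ‖(s.γ.ze 1 - 2) * da / rh a (s.γ.ze 1)‖) *
          (Real.sqrt (‖rh a (s.γ.ze 1)‖ / ‖s.γ.ze 1‖) * Real.exp (-((s.γ.ze 1).re / 4))) := by ring
      _ ≤ 3 * (1 + c.M ^ 2) * Real.exp (c.M ^ 2 + 3) * (d + d) * w := by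
        have h7 := hw a ha'
        gcongr
      _ = _ := by ring
  · rw [sub_zero, abs_of_nonneg (by positivity)]
    have h4 : 0 ≤ (1 + c.M ^ 2) * Real.exp (c.M ^ 2 + 3) * d * w := by positivity
    nlinarith [Real.pi_lt_d2]

/-- crude bound of the tail -/
theorem norm_tailF_le (H : c.Ok) (h : EndG c x s) (ha : a ∈ closedBall s.ah s.rd) {j : EJ}
    (hj : ‖j‖ ≤ 1 / 100000) {t₀ B : ℝ} (ht : t₀ ≤ 1)
    (hB : ∀ t ∈ Icc t₀ 1, Real.sqrt (‖rh a (s.γ.ze t)‖ / ‖s.γ.ze t‖) ≤ B) :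
    ‖tailF a s.γ j t₀‖ ≤
      26 / c.P.c * Real.exp (c.M ^ 2 + 3) * (B * Real.exp (-((s.γ.ze t₀).re / 4))) := by
  have hB0 : 0 ≤ B := (Real.sqrt_nonneg _).trans (hB 1 ⟨ht, le_rfl⟩)
  have hc := H.spec.c0
  have hg := s.γ.g.continuous
  have hz := s.γ.ze.continuous
  refine (intervalIntegral.norm_integral_le_of_norm_le (g := fun t =>
    (B * Real.exp (c.M ^ 2 + 3) * (2 * Real.pi)) *
      (‖s.γ.g t‖ * Real.exp (-((s.γ.ze t).re / 4)))) ht (Eventually.of_forall fun t ht' => ?_)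
    (Continuous.intervalIntegrable (by fun_prop) _ _)).trans ?_
  · rw [norm_mul]
    have h1 := hB t ⟨ht'.1.le, ht'.2⟩
    calc _ ≤ ‖s.γ.g t‖ * (B * Real.exp (c.M ^ 2 + 3) *
        Real.exp (-((s.γ.ze t).re / 4)) * (2 * Real.pi)) := by
          refine mul_le_mul_of_nonneg_left ((lag_le H h ha hj t).trans ?_) (norm_nonneg _)
          gcongr
      _ = _ := by ring
  · rw [intervalIntegral.integral_const_mul]
    refine (mul_le_mul_of_nonneg_left ((h.adm a ha).int_exp hc ht) (by positivity)).trans ?_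
    have h1 : 0 ≤ 1 / c.P.c * Real.exp (c.M ^ 2 + 3) * (B * Real.exp (-((s.γ.ze t₀).re / 4))) := by
      positivity
    calc _ = 8 * Real.pi *
        (1 / c.P.c * Real.exp (c.M ^ 2 + 3) * (B * Real.exp (-((s.γ.ze t₀).re / 4)))) := by ring
      _ ≤ 26 * (1 / c.P.c * Real.exp (c.M ^ 2 + 3) * (B * Real.exp (-((s.γ.ze t₀).re / 4)))) :=
        mul_le_mul_of_nonneg_right (by linarith [Real.pi_lt_d2]) h1
      _ = _ := by ring

/-- A holomorphic family of fast data at the end `i` (Cauchy estimates with radius `r / 2`). -/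
theorem fam (H : c.Ok) (h : AllG c Rc ξ σ) {i : ι} (hi : i ∈ c.P.I) {r : ℝ} (hr : 0 < r)
    {ω : ℂ → WD} (hω : DifferentiableOn ℂ ω (ball 0 r))
    (hb : ∀ p ∈ ball (0 : ℂ) r, ‖ω p‖ ≤ c.P.δ₀ ∧
      c.K' * c.ρ ^ 2 * (1 + ‖ω p‖ ^ 2 * ‖Om (σ i).ah ((σ i).γ.ze 1)‖) ≤ (σ i).rd)
    {W : ι → ℝ} (hW : ∀ k ∈ c.P.I, k ≠ i → Wt (σ k) (W k)) :
    ∃ o : ℂ → Out ι, HolOut c.P (ball 0 r) o ∧
      (∀ p ∈ ball (0 : ℂ) r, c.Sol (cfw Rc σ i (ω p)) ξ (o p) ∧ Half c.P (ahs σ) (rds σ) (o p)) ∧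
      ∀ p ∈ ball (0 : ℂ) (r / 2), ‖deriv (fun q => (o q).a i) p‖ ≤ 2 * (σ i).rd / r ∧
        ‖deriv (fun q => (o q).v) p - (σ i).γ.FluxCyl ((o p).a i) ((o p).j i) 1
            (deriv (fun q => (o q).a i) p) (deriv (fun q => (o q).j i) p).y‖ ≤
          c.C₁ / r * (∑ k ∈ c.P.I.erase i, W k + Real.exp (-(Rc / 5))) ∧
        ∀ w, Wt (σ i) w → ‖deriv (fun q => (o q).v) p‖ ≤
          c.C₁ / r * (w + ∑ k ∈ c.P.I.erase i, W k + Real.exp (-(Rc / 5))) := by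
  have hG : ∀ p ∈ ball (0 : ℂ) r, Good c.P c.M c.K' c.ρ (ahs σ) (rds σ) (cfw Rc σ i (ω p)) ξ :=
    fun p hp => h.good_w H (hb p hp).1 (hb p hp).2
  have hd : ∀ k ∈ c.P.I,
      DifferentiableOn ℂ (fun p => Function.update (fun _ => (0 : WD)) i (ω p) k) (ball 0 r) :=
    fun k _ => by
      by_cases hk : k = i
      · subst hk
        simpa only [Function.update_self] using hω
      · simp only [Function.update_of_ne hk]
        exact differentiableOn_const _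
  obtain ⟨o, ho, hs⟩ := H.loc.ex ℂ (ball 0 r) (fun p => cfw Rc σ i (ω p)) (fun _ => ξ) (ahs σ)
    (rds σ) ⟨isOpen_ball, fun _ _ _ _ => rfl, fun k _ => differentiableOn_const (σ k).γ.ze,
      fun k _ => differentiableOn_const (σ k).γ.g, hd, differentiableOn_const _⟩
    (fun k hk => by
      obtain ⟨t₁, h1, h2, h3⟩ := (h.ends k hk).pre
      exact ⟨t₁, h1, fun p _ => ⟨h3, fun t ht => ⟨h2 t ht, fun _ _ => rfl⟩⟩⟩)
    fun p hp => ⟨hG p hp, fun k hk => ((h.ends k hk).side.ref).trans (by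
      have := (h.ends k hk).side.rd_pos H
      change (σ k).rd / 8 ≤ (σ k).rd / 4
      linarith)⟩
  refine ⟨o, ho, hs, fun p hp => ?_⟩
  have hp' : p ∈ ball (0 : ℂ) r := ball_subset_ball (by linarith) hp
  have ha : ∀ k ∈ c.P.I, ‖deriv (fun q => (o q).a k) p‖ ≤ 2 * (σ k).rd / r := fun k hk =>
    (deriv_le (ho.a k hk) (fun q hq => (hs q hq).2 k hk) hp).trans (le_of_eq (by
      change 4 * ((σ k).rd / 2) / r = _
      ring))
  have hj : ∀ q ∈ ball (0 : ℂ) r, ∀ k ∈ c.P.I, ‖(o q).j k‖ ≤ 1 / 100000 := fun q hq k hk =>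
    (H.spec.base _ _ _ (hs q hq).1 k hk).2.1.trans H.spec.δ1
  have hF : ∀ k ∈ c.P.I, ∀ w, Wt (σ k) w → ‖(σ k).γ.FluxCyl ((o p).a k) ((o p).j k) 1
      (deriv (fun q => (o q).a k) p) (deriv (fun q => (o q).j k) p).y‖ ≤ c.C₁ / r * w :=
    fun k hk w hw => by
      have h1 := deriv_le (R := 1) (b := 0) (ho.j k hk)
        (fun q hq => by rw [sub_zero]; linarith [hj q hq k hk]) hp
      have h2 := hw.nonneg ((h.ends k hk).side.rd_pos H).le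
      refine (norm_Flux_le H (h.ends k hk) hw ((hs p hp').2 k hk) (hj p hp' k hk)
        ((ha k hk).trans (le_of_eq (by ring))) h1).trans ?_
      refine mul_le_mul_of_nonneg_right ?_ h2
      calc _ = 160 * (1 + c.M ^ 2) * Real.exp (c.M ^ 2 + 3) / r := by ring
        _ ≤ _ := div_le_div_of_nonneg_right (C₁_ge H).2.1 hr.le
  have hv := H.loc.fv (ahs σ) (rds σ) (cfg Rc σ) ξ
    (fun p => Function.update (fun _ => (0 : WD)) i (ω p)) o r hr hd ho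
    (fun q hq => ⟨hG q hq, hs q hq⟩) p hp
  rw [← Finset.add_sum_erase _ _ hi, ← sub_sub] at hv
  have h2 : ‖deriv (fun q => (o q).v) p - (σ i).γ.FluxCyl ((o p).a i) ((o p).j i) 1
      (deriv (fun q => (o q).a i) p) (deriv (fun q => (o q).j i) p).y‖ ≤
      c.C₁ / r * (∑ k ∈ c.P.I.erase i, W k + Real.exp (-(Rc / 5))) := by
    have h3 := (norm_sum_le _ _).trans (Finset.sum_le_sum fun k hk =>
      hF k (Finset.mem_of_mem_erase hk) _
        (hW k (Finset.mem_of_mem_erase hk) (Finset.ne_of_mem_erase hk)))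
    have h4 : c.C / r * Real.exp (-(Rc / 5)) ≤ c.C₁ / r * Real.exp (-(Rc / 5)) :=
      mul_le_mul_of_nonneg_right (div_le_div_of_nonneg_right (C₁_ge H).1 hr.le) (Real.exp_pos _).le
    rw [← Finset.mul_sum] at h3
    have h5 := (norm_add_le _ _).trans (add_le_add (hv.trans h4) h3)
    rw [mul_add, add_comm]
    exact le_trans (le_of_eq (congrArg _ (sub_add_cancel _ _).symm)) h5
  refine ⟨ha i hi, h2, fun w hw => ?_⟩
  have h5 := (norm_add_le _ _).trans (add_le_add h2 (hF i hi w hw))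
  rw [sub_add_cancel] at h5
  exact h5.trans (le_of_eq (by ring))

/-- Restriction to an initial part, with the new slope in the half disc. -/
theorem restrict (H : c.Ok) {i : ι} (hi : i ∈ c.P.I)
    (h : AllG c Rc ξ (Function.update σ i ⟨ah, rd, γ⟩)) (h' : EndG c (ξ i) ⟨ah, rd, γ'⟩)
    (hr : rng γ' ⊆ rng γ) {t₀ : ℝ} (ht : t₀ ∈ Icc (0 : ℝ) 1) (he : γ.ze t₀ = γ'.ze 1) :
    ∃ (o o' : Out ι) (ω : WD), c.Sol (cfg Rc (Function.update σ i ⟨ah, rd, γ⟩)) ξ o ∧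
      Half c.P (ahs (Function.update σ i ⟨ah, rd, γ⟩)) (rds (Function.update σ i ⟨ah, rd, γ⟩)) o ∧
      vl c.P c.Sol Rc (Function.update σ i ⟨ah, rd, γ⟩) ξ = o.v ∧
      c.Sol (cfw Rc (Function.update σ i ⟨ah, rd, γ'⟩) i ω) ξ o' ∧
      Half c.P (ahs (Function.update σ i ⟨ah, rd, γ'⟩)) (rds (Function.update σ i ⟨ah, rd, γ'⟩))
        o' ∧
      ‖ω‖ ≤ c.P.δ₀ / 4 ∧ ‖ω‖ ≤ c.C / ‖Om (o.a i) (γ.ze 1)‖ + c.ε ∧ ‖nsD ω‖ ≤ c.ε ∧
      2 * (c.K' * c.ρ ^ 2 * (1 + 16 * ‖ω‖ ^ 2 * ‖Om ah (γ'.ze 1)‖)) ≤ rd ∧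
      o'.v = o.v - tailF (o.a i) γ (o.j i) t₀ ∧
      R0v (o'.a i) γ' (o'.j i) 1 = R0v (o.a i) γ (o.j i) t₀ ∧
      R1v (o'.a i) γ' (o'.j i) 1 = R1v (o.a i) γ (o.j i) t₀ := by
  have hE : EndG c (ξ i) ⟨ah, rd, γ⟩ := by
    have := h.ends i hi
    rwa [Function.update_self] at this
  obtain ⟨o, o1, o2, o3, o4⟩ := vl_spec H h
  have hx : (cfg Rc (Function.update σ i ⟨ah, rd, γ⟩)).γ i = γ := by
    simp only [cfg, Function.update_self]
  obtain ⟨φ, hφ⟩ := exists_rep (hE.ok H) (h'.ok H) hE.mono h'.mono.monotoneOn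
    ((h'.st H).trans (hE.st H).symm) ht he.symm fun t ht' => by
      obtain ⟨u, hu, e⟩ := hr ⟨t, ht', rfl⟩
      exact ⟨u, hu, e.symm⟩
  have lo : 1 / (c.M * c.ρ) ≤ (γ.ze 1).re := hE.lo
  have lo' : 1 / (c.M * c.ρ) ≤ (γ'.ze 1).re := h'.lo
  obtain ⟨ω, o', r1, r2, r3, r4, r5, r6, r7, r8, r9⟩ := H.loc.res _ _ _ _ _ (h.good H) o1 o3
    (fun _ _ => rfl) i hi φ γ' t₀ (h'.ok H) (by rw [hx]; exact hφ) (by rw [hx, he]; exact lo')
  rw [hx] at r3 r5 r7 r8 r9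
  rw [he] at r9
  have r0 := cfg_upd (Rc := Rc) (σ := σ) (s := ⟨ah, rd, γ⟩) (s' := ⟨ah, rd, γ'⟩) i ω
  rw [r0] at r1
  have a4 : ‖o.a i - ah‖ ≤ rd / 4 := by
    have := o2 i hi
    rwa [Function.update_self] at this
  have hrd : 0 < rd := hE.side.rd_pos H
  have a2 : ‖o.a i - ah‖ ≤ rd / 2 := by linarith
  have am : o.a i ∈ closedBall ah rd := mem_of_half H hE a2
  have hρ := H.ρ0
  have hM := H.M1
  have hX := H.X1
  obtain ⟨u, hu⟩ : ∃ u, u = rd / c.ρ ^ 2 := ⟨_, rfl⟩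
  have u0 : 0 < u := by rw [hu]; positivity
  have ur : c.ρ ^ 2 * u = rd := by rw [hu]; field_simp
  obtain ⟨b1, b2⟩ := H.big u (by rw [hu, le_div_iff₀ (by positivity)]; exact hE.side.big)
  have l1 : u / (4 * c.M ^ 2) ≤ ‖Om (o.a i) (γ.ze 1)‖ := hu ▸ hE.le_Om H a2 lo
  have l2 : u / (4 * c.M ^ 2) ≤ ‖Om (o.a i) (γ'.ze 1)‖ := hu ▸ h'.le_Om H a2 lo'
  have k1 : ‖Om (o.a i) (γ.ze 1)‖ ≤ c.X * u := hu ▸ hE.side.hi _ am
  have k2 : ‖Om (o.a i) (γ'.ze 1)‖ ≤ c.X * u := hu ▸ h'.side.hi _ am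
  have k3 : ‖Om ah (γ'.ze 1)‖ ≤ c.X * u := hu ▸ h'.side.hi _ (mem_closedBall_self hrd.le)
  have q1 : ∀ {z z' : ℂ}, ‖z‖ ≤ c.M / c.ρ → 1 / (c.M * c.ρ) ≤ z'.re →
      ‖z‖ ≤ 4 * c.M ^ 2 * c.X * ‖z'‖ := fun {z z'} e1 e2 => by
    have e3 : 1 / (c.M * c.ρ) ≤ ‖z'‖ := e2.trans (re_le_norm _)
    calc ‖z‖ ≤ c.M ^ 2 * (1 / (c.M * c.ρ)) := e1.trans (le_of_eq (by field_simp))
      _ ≤ 4 * c.M ^ 2 * c.X * ‖z'‖ := by
        refine mul_le_mul ?_ e3 (by positivity) (by positivity)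
        nlinarith [sq_nonneg c.M]
  have q2 : ∀ {z z' : ℂ}, ‖z‖ ≤ c.X * u → u / (4 * c.M ^ 2) ≤ ‖z'‖ →
      ‖z‖ ≤ 4 * c.M ^ 2 * c.X * ‖z'‖ := fun {z z'} e1 e2 =>
    calc ‖z‖ ≤ 4 * c.M ^ 2 * c.X * (u / (4 * c.M ^ 2)) := e1.trans (le_of_eq (by field_simp))
      _ ≤ _ := by gcongr
  have n1 := ApxP.ne_of_Om (om_big H hE am 1)
  have n2 := ApxP.ne_of_Om (om_big H h' am 1)
  have s1 := norm_sE_sub_le (a := o.a i) n1.1 n2.1 (q1 (hE.up 1) lo') (q1 (h'.up 1) lo)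
    (mul_ne_zero n1.1 n1.2) (mul_ne_zero n2.1 n2.2) (q2 k1 l2) (q2 k2 l1)
  have s2 : ‖o'.a i - o.a i‖ ≤ rd / 4 := by
    have hC := H.C0
    calc _ ≤ c.C * c.ρ ^ 2 * (1 + (3 * Real.log (4 * c.M ^ 2 * c.X) + 6 * Real.pi)) :=
        r9.trans (mul_le_mul_of_nonneg_left (add_le_add le_rfl s1) (by positivity))
      _ = c.ρ ^ 2 * (c.C * (1 + (3 * Real.log (4 * c.M ^ 2 * c.X) + 6 * Real.pi))) := by ring
      _ ≤ c.ρ ^ 2 * (u / 4) := by gcongr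
      _ = _ := by rw [← ur]; ring
  refine ⟨o, o', ω, o1, o3, o4, r1, fun k hk => ?_, r2, r3, r4, ?_, r5, r7, r8⟩
  · by_cases e : k = i
    · subst e
      simp only [ahs, rds, Function.update_self]
      have h1 := norm_add_le (o'.a k - o.a k) (o.a k - ah)
      rw [sub_add_sub_cancel] at h1
      linarith
    · have h1 := o3 k hk
      simp only [ahs, rds, Function.update_of_ne e] at h1 ⊢
      rwa [r6 k hk e]
  · have hC := H.C0
    have hK := H.K0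
    have w1 : ‖ω‖ ≤ 4 * c.M ^ 2 * c.C / u + c.ε := by
      refine r3.trans (add_le_add ?_ le_rfl)
      calc _ ≤ c.C / (u / (4 * c.M ^ 2)) := div_le_div_of_nonneg_left hC (by positivity) l1
        _ = _ := by field_simp
    calc _ = c.ρ ^ 2 * (2 * (c.K' * (1 + 16 * ‖ω‖ ^ 2 * ‖Om ah (γ'.ze 1)‖))) := by ring
      _ ≤ c.ρ ^ 2 * (2 * (c.K' * (1 + 16 * (4 * c.M ^ 2 * c.C / u + c.ε) ^ 2 * (c.X * u)))) := by
        gcongr
      _ ≤ c.ρ ^ 2 * u := by gcongr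
      _ = _ := ur

/-- The truncation estimate: `restrict`, then the family `(1/2 + p) ω` on the ball of radius 3. -/
theorem lnk_trunc (H : c.Ok) (h : EndG c x ⟨ah, rd, γ⟩) (h' : EndG c x ⟨ah, rd, γ'⟩)
    (hr : rng γ' ⊆ rng γ) (hw : ∀ a ∈ closedBall ah rd, ∀ ζ ∈ rng γ, (γ'.ze 1).re ≤ ζ.re →
      Real.sqrt (‖rh a ζ‖ / ‖ζ‖) * Real.exp (-((γ'.ze 1).re / 4)) ≤ w) :
    Lnk c x c.C₁ w ⟨ah, rd, γ⟩ ⟨ah, rd, γ'⟩ := by
  refine ⟨h, h', fun Rc ξ σ W i hi hx hG hW => ?_⟩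
  subst hx
  have hrd : 0 < rd := h.side.rd_pos H
  have m1 : γ'.ze 1 ∈ rng γ := hr ⟨1, ⟨zero_le_one, le_rfl⟩, rfl⟩
  obtain ⟨t₀, ht, he⟩ := id m1
  obtain ⟨o, o', ω, s1, s2, s3, s4, s5, s6, -, -, s7, s8, -, -⟩ := restrict H hi hG h' hr ht he
  have hG' : AllG c Rc ξ (Function.update σ i ⟨ah, rd, γ'⟩) := by
    have := hG.update h'
    rwa [Function.update_idem] at this
  have hw' : Wt ⟨ah, rd, γ'⟩ w := fun a ha => hw a ha _ m1 le_rfl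
  have hw0 : 0 ≤ w := hw'.nonneg hrd.le
  have hb : ∀ p ∈ ball (0 : ℂ) 3, ‖(1 / 2 + p) • ω‖ ≤ c.P.δ₀ ∧
      c.K' * c.ρ ^ 2 * (1 + ‖(1 / 2 + p) • ω‖ ^ 2 *
        ‖Om (Function.update σ i ⟨ah, rd, γ'⟩ i).ah
          ((Function.update σ i ⟨ah, rd, γ'⟩ i).γ.ze 1)‖) ≤
        (Function.update σ i ⟨ah, rd, γ'⟩ i).rd := fun p hp => by
    have h1 : ‖(1 / 2 + p) • ω‖ ≤ 4 * ‖ω‖ := by
      rw [norm_smul]
      refine mul_le_mul_of_nonneg_right ((norm_add_le _ _).trans ?_) (norm_nonneg _)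
      have h2 := mem_ball_zero_iff.1 hp
      rw [norm_div, norm_one, Complex.norm_two]
      linarith
    refine ⟨by linarith, ?_⟩
    rw [Function.update_self]
    have hK := H.K0
    calc _ ≤ c.K' * c.ρ ^ 2 * (1 + (4 * ‖ω‖) ^ 2 * ‖Om ah (γ'.ze 1)‖) := by gcongr
      _ = c.K' * c.ρ ^ 2 * (1 + 16 * ‖ω‖ ^ 2 * ‖Om ah (γ'.ze 1)‖) := by ring
      _ ≤ rd := by linarith
  obtain ⟨f, f1, f2, f3⟩ := fam H hG' hi (r := 3) (by norm_num) (ω := fun p => (1 / 2 + p) • ω)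
    (by fun_prop) hb (W := W) fun k hk e => by rw [Function.update_of_ne e]; exact hW k hk e
  have p1 : (1 / 2 : ℂ) ∈ ball (0 : ℂ) (3 / 2) := by
    rw [mem_ball_zero_iff, norm_div, norm_one, Complex.norm_two]; norm_num
  have p2 : (-(1 / 2) : ℂ) ∈ ball (0 : ℂ) (3 / 2) := by
    rw [mem_ball_zero_iff, norm_neg, norm_div, norm_one, Complex.norm_two]; norm_num
  have sub : ball (0 : ℂ) (3 / 2) ⊆ ball 0 3 := ball_subset_ball (by norm_num)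
  have mv := (convex_ball (0 : ℂ) (3 / 2)).norm_image_sub_le_of_norm_deriv_le
    (f := fun q => (f q).v) (fun q hq => f1.v.differentiableAt (isOpen_ball.mem_nhds (sub hq)))
    (fun q hq => (f3 q hq).2.2 w (by rw [Function.update_self]; exact hw')) p2 p1
  have e1 : (f (1 / 2)).v = o'.v := by
    have g1 := f2 _ (sub p1)
    have g2 := hb _ (sub p1)
    simp only [add_halves, one_smul] at g1 g2
    exact (H.loc.uq _ _ _ _ _ _ (hG'.good_w H g2.1 g2.2) g1.1 s4 g1.2 s5).1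
  have e2 : vl c.P c.Sol Rc (Function.update σ i ⟨ah, rd, γ'⟩) ξ = (f (-(1 / 2))).v := by
    have g1 := f2 _ (sub p2)
    simp only [add_neg_cancel, zero_smul, cfw_zero] at g1
    exact vl_eq H hG' g1.1 g1.2
  have am : o.a i ∈ closedBall ah rd := mem_of_half H h (by
    have := s2 i hi
    simpa only [ahs, rds, Function.update_self] using this)
  have tl := norm_tailF_le H h am ((H.spec.base _ _ _ s1 i hi).2.1.trans H.spec.δ1)
    (B := w / Real.exp (-((γ'.ze 1).re / 4))) ht.2 fun t ht' => by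
      rw [le_div_iff₀ (Real.exp_pos _)]
      refine hw _ am _ ⟨t, ⟨ht.1.trans ht'.1, ht'.2⟩, rfl⟩ ?_
      rw [← he]
      exact (h.adm _ am).mono_re H.spec.c0 ht'.1
  simp only at tl mv
  rw [he, div_mul_cancel₀ _ (Real.exp_pos _).ne'] at tl
  rw [e1, s8, show (1 / 2 : ℂ) - -(1 / 2) = 1 by norm_num, norm_one, mul_one] at mv
  rw [s3, e2, sub_zero]
  have h1 := norm_add_le (o.v - tailF (o.a i) γ (o.j i) t₀ - (f (-(1 / 2))).v)
    (tailF (o.a i) γ (o.j i) t₀)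
  rw [sub_right_comm, sub_add_cancel, sub_right_comm] at h1
  have h2 := mul_le_mul_of_nonneg_right (C₁_ge H).2.2 hw0
  have h3 : 0 ≤ c.C₁ * (∑ k ∈ c.P.I.erase i, W k + Real.exp (-(Rc / 5))) := by
    refine mul_nonneg H.C₁_nonneg (add_nonneg (Finset.sum_nonneg fun k hk => ?_) (Real.exp_pos _).le)
    have g1 := hG.ends k (Finset.mem_of_mem_erase hk)
    rw [Function.update_of_ne (Finset.ne_of_mem_erase hk)] at g1
    exact (hW k (Finset.mem_of_mem_erase hk) (Finset.ne_of_mem_erase hk)).nonneg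
      (g1.side.rd_pos H).le
  linarith

/-- the same with the crude weight -/
theorem lnk_cut (H : c.Ok) (h : EndG c x ⟨ah, rd, γ⟩) (h' : EndG c x ⟨ah, rd, γ'⟩)
    (hr : rng γ' ⊆ rng γ) {y : ℝ} (hy : y ≤ (γ'.ze 1).re) :
    Lnk c x c.C₁ ((c.M + 2) * Real.exp (-(y / 4))) ⟨ah, rd, γ⟩ ⟨ah, rd, γ'⟩ :=
  lnk_trunc H h h' hr fun a ha ζ hζ _ => by
    obtain ⟨t, -, rfl⟩ := hζ
    exact mul_le_mul (h.rh_le H ha t).2.2 (Real.exp_le_exp.2 (by linarith)) (Real.exp_pos _).le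
      (by linarith [H.M1])

end Vale.Agent.P218N.J
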