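import Vale.Agent.P218N.J.Cat

/-! The values of the truncated functional, links between states. -/

open Filter Topology Metric Set Complex
open scoped ComplexConjugate

noncomputable section

namespace Vale.Agent.P218N.J

open Vale.Agent.P218N.End

set_option linter.unusedSectionVars false

variable {ι : Type} [Fintype ι] [DecidableEq ι] {c : Cx ι} {Rc : ℝ} {ξ : ι → ℂ} {σ σ' : ι → ES}
  {x m m' ah ah' : ℂ} {rd rd' b b' N N' w w' : ℝ} {s s' s'' : ES} {γ γ' : Path}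

theorem Cx.Ok.C₁_nonneg (H : c.Ok) : 0 ≤ c.C₁ := by
  have h1 := H.spec.c0
  have h2 := H.C0
  unfold Cx.C₁
  positivity

/-- suitable constants exist -/
theorem exists_cx {P : Par ι} {Sol : Cfg ι → (ι → ℂ) → Out ι → Prop} (h : Spec0 P Sol) {M X : ℝ}
    (hM : 1 ≤ M) (hX : 1 ≤ X) : ∃ c₀ : Cx ι, c₀.P = P ∧ c₀.Sol = Sol ∧ c₀.M = M ∧ c₀.X = X ∧
      ∀ᶠ ε in 𝓝[>] (0 : ℝ), ∀ᶠ ρ in 𝓝[>] (0 : ℝ), ((c₀.tol ε).sc ρ).Ok := by
  obtain ⟨K', C, hK, hC, H⟩ := h.loc M hM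
  set A := C * (1 + (3 * Real.log (4 * M ^ 2 * X) + 6 * Real.pi)) with hA
  set B := 2 * K' + 1024 * K' * M ^ 4 * C ^ 2 * X with hB
  have hB0 : 0 ≤ B := by positivity
  refine ⟨⟨P, Sol, M, K', C, X, 1 + 2 * B + 4 * |A|, 1, 1⟩, rfl, rfl, rfl, rfl, ?_⟩
  have h1 : 0 < min 1 (1 / (128 * K' * X + 1)) := by positivity
  filter_upwards [Ioc_mem_nhdsGT h1] with ε hε
  obtain ⟨ρ₀, hρ₀, H₁⟩ := H ε hε.1
  have h2 : 0 < min ρ₀ (1 / (1000 * M)) := by positivity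
  filter_upwards [Ioc_mem_nhdsGT h2] with ρ hρ
  refine ⟨h, H₁ ρ hρ.1 (hρ.2.trans (min_le_left _ _)), hM, hK, hC, hX,
    by dsimp [Cx.sc, Cx.tol]; positivity, hε.1, hρ.1, ?_, fun u hu => ⟨?_, ?_⟩⟩
  · have h3 := hρ.2.trans (min_le_right _ _)
    rw [le_div_iff₀ (by positivity)] at h3
    dsimp [Cx.sc, Cx.tol]
    linarith
  · dsimp [Cx.sc, Cx.tol] at hu ⊢
    have h3 : 1 ≤ u := by linarith [abs_nonneg A]
    have h4 : ε ≤ 1 := hε.2.trans (min_le_left _ _)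
    have h5 := hε.2.trans (min_le_right _ _)
    rw [le_div_iff₀ (by positivity)] at h5
    have h6 : 128 * K' * X * ε ^ 2 ≤ 1 := by
      have : 128 * K' * X * ε ^ 2 ≤ 128 * K' * X * ε := by
        have := hε.1
        gcongr
        nlinarith
      nlinarith [hε.1]
    have h7 : (4 * M ^ 2 * C / u + ε) ^ 2 ≤ 2 * (4 * M ^ 2 * C / u) ^ 2 + 2 * ε ^ 2 := by
      nlinarith [sq_nonneg (4 * M ^ 2 * C / u - ε)]
    have h8 : (4 * M ^ 2 * C / u) ^ 2 * u ≤ 16 * M ^ 4 * C ^ 2 := by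
      have : (4 * M ^ 2 * C / u) ^ 2 * u = 16 * M ^ 4 * C ^ 2 / u := by field_simp; ring
      rw [this]
      exact div_le_self (by positivity) h3
    have h9 : K' * ((4 * M ^ 2 * C / u + ε) ^ 2 * (X * u))
        ≤ K' * ((2 * (4 * M ^ 2 * C / u) ^ 2 + 2 * ε ^ 2) * (X * u)) := by gcongr
    have h10 : K' * X * ((4 * M ^ 2 * C / u) ^ 2 * u) ≤ K' * X * (16 * M ^ 4 * C ^ 2) := by gcongr
    have h11 : 128 * K' * X * ε ^ 2 * u ≤ 1 * u := by gcongr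
    nlinarith [abs_nonneg A]
  · dsimp [Cx.sc, Cx.tol] at hu ⊢
    linarith [le_abs_self A]

theorem cfw_zero (i : ι) : cfw Rc σ i 0 = cfg Rc σ := by
  unfold cfw cfg
  congr 1
  exact Function.update_eq_self i _

theorem cfg_upd (i : ι) (ω : WD) :
    (cfg Rc (Function.update σ i s)).upd i s'.γ ω = cfw Rc (Function.update σ i s') i ω := by
  unfold cfw cfg Cfg.upd
  congr 1
  funext k
  by_cases h : k = i
  · subst h; simp
  · simp [Function.update_of_ne h]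

theorem AllG.update (h : AllG c Rc ξ σ) {i : ι} (hs : EndG c (ξ i) s) :
    AllG c Rc ξ (Function.update σ i s) := by
  refine ⟨h.xi, h.rc, fun k hk => ?_⟩
  by_cases e : k = i
  · subst e; simpa using hs
  · simpa [Function.update_of_ne e] using h.ends k hk

theorem Side.two_K (H : c.Ok) {E : ℂ} (h : Side c x ah rd E) : 2 * (c.K' * c.ρ ^ 2) ≤ rd := by
  have h1 := (H.big c.L₀ le_rfl).1
  have h2 : 0 ≤ c.K' * (16 * (4 * c.M ^ 2 * c.C / c.L₀ + c.ε) ^ 2 * (c.X * c.L₀)) := by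
    have := H.K0
    have := H.L0
    have : 0 ≤ c.X := zero_le_one.trans H.X1
    positivity
  have h3 : 2 * c.K' ≤ c.L₀ := by linarith
  nlinarith [h.big, mul_le_mul_of_nonneg_right h3 (sq_nonneg c.ρ)]

theorem AllG.good_gen (H : c.Ok) (h : AllG c Rc ξ σ) {a : ι → ℂ} {r : ι → ℝ} {ω : ι → WD}
    (h1 : ∀ i ∈ c.P.I, a i = (σ i).ah ∧ r i ≤ (σ i).rd ∧ ‖ω i‖ ≤ c.P.δ₀ ∧
      c.K' * c.ρ ^ 2 * (1 + ‖ω i‖ ^ 2 * ‖Om (σ i).ah ((σ i).γ.ze 1)‖) ≤ r i) :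
    Good c.P c.M c.K' c.ρ a r ⟨Rc, fun k => (σ k).γ, ω⟩ ξ where
  pos := H.ρ0
  xi := h.xi
  al i hi := (h.ends i hi).side.al
  up i hi := (h.ends i hi).up
  lo i hi := (h.ends i hi).lo
  rc := h.rc
  adm i hi z hz := (h.ends i hi).adm z (by
    rw [(h1 i hi).1] at hz
    exact closedBall_subset_closedBall (h1 i hi).2.1 hz)
  pre i hi := (h.ends i hi).pre
  rad i hi := by rw [(h1 i hi).1]; exact (h1 i hi).2.2.2
  sm i hi := by rw [(h1 i hi).1]; linarith [(h.ends i hi).side.sm, (h1 i hi).2.1]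
  om i hi := (h1 i hi).2.2.1

theorem AllG.good (H : c.Ok) (h : AllG c Rc ξ σ) :
    Good c.P c.M c.K' c.ρ (ahs σ) (rds σ) (cfg Rc σ) ξ :=
  h.good_gen H fun i hi => ⟨rfl, le_rfl, by simpa using H.spec.δ0.le, by
    have h1 := (h.ends i hi).side.two_K H
    have h2 := (h.ends i hi).side.rd_pos H
    simp only [norm_zero, rds]
    linarith⟩

theorem AllG.good_w (H : c.Ok) (h : AllG c Rc ξ σ) {i : ι} {ω : WD} (h1 : ‖ω‖ ≤ c.P.δ₀)
    (h2 : c.K' * c.ρ ^ 2 * (1 + ‖ω‖ ^ 2 * ‖Om (σ i).ah ((σ i).γ.ze 1)‖) ≤ (σ i).rd) :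
    Good c.P c.M c.K' c.ρ (ahs σ) (rds σ) (cfw Rc σ i ω) ξ :=
  h.good_gen H fun k hk => by
    by_cases e : k = i
    · subst e
      exact ⟨rfl, le_rfl, by simpa using h1, by simpa [rds] using h2⟩
    · have h3 := (h.ends k hk).side.two_K H
      have h4 := (h.ends k hk).side.rd_pos H
      simp only [Function.update_of_ne e, norm_zero, rds]
      exact ⟨rfl, le_rfl, H.spec.δ0.le, by linarith⟩

theorem ex_gen (H : c.Ok) {E : Type} [NormedAddCommGroup E] [NormedSpace ℂ E] {U : Set E}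
    (hU : IsOpen U) {τ : E → ι → ES} {η : E → ι → ℂ} {a : ι → ℂ} {r : ι → ℝ}
    (h : ∀ p ∈ U, AllG c Rc (η p) (τ p))
    (h1 : ∀ p ∈ U, ∀ i ∈ c.P.I, (τ p i).ah = a i ∧ (τ p i).rd = r i)
    (dz : ∀ i ∈ c.P.I, DifferentiableOn ℂ (fun p => (τ p i).γ.ze) U)
    (dg : ∀ i ∈ c.P.I, DifferentiableOn ℂ (fun p => (τ p i).γ.g) U)
    (dη : DifferentiableOn ℂ η U) (com : Com c.P c.M c.ρ U fun p => cfg Rc (τ p)) :
    ∃ o : E → Out ι, HolOut c.P U o ∧ ∀ p ∈ U, c.Sol (cfg Rc (τ p)) (η p) (o p) ∧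
      ∀ i ∈ c.P.I, ‖(o p).a i - a i‖ ≤ r i / 4 := by
  obtain ⟨o, h2, h3⟩ := H.loc.ex E U (fun p => cfg Rc (τ p)) η a (fun i => r i / 2)
    ⟨hU, fun _ _ _ _ => rfl, dz, dg, fun _ _ => differentiableOn_const _, dη⟩ com fun p hp =>
    ⟨(h p hp).good_gen H fun i hi => by
      have k1 := ((h p hp).ends i hi).side.two_K H
      have k2 := ((h p hp).ends i hi).side.rd_pos H
      rw [← (h1 p hp i hi).2]
      exact ⟨(h1 p hp i hi).1.symm, by linarith, by simpa using H.spec.δ0.le,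
        by simp only [norm_zero]; linarith⟩,
    fun i hi => by
      have k1 := ((h p hp).ends i hi).side.ref
      rw [(h1 p hp i hi).1, (h1 p hp i hi).2] at k1
      exact k1.trans (le_of_eq (by ring))⟩
  exact ⟨o, h2, fun p hp => ⟨(h3 p hp).1, fun i hi =>
    ((h3 p hp).2 i hi).trans (le_of_eq (by ring))⟩⟩

theorem com_const {E : Type} {U : Set E} {η : E → ι → ℂ} (h : ∀ p ∈ U, AllG c Rc (η p) σ) :
    Com c.P c.M c.ρ U fun _ => cfg Rc σ := by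
  intro i hi
  rcases U.eq_empty_or_nonempty with rfl | ⟨p, hp⟩
  · exact ⟨0, by simp, by simp⟩
  obtain ⟨t₁, h1, h2, h3⟩ := ((h p hp).ends i hi).pre
  exact ⟨t₁, h1, fun _ _ => ⟨h3, fun t ht => ⟨h2 t ht, fun _ _ => rfl⟩⟩⟩

/-- existence (apply `Loc.ex` to the discs of half the radius) -/
theorem exists_hol (H : c.Ok) {U : Set (ι → ℂ)} (hU : IsOpen U) (h : ∀ ξ ∈ U, AllG c Rc ξ σ) :
    ∃ o : (ι → ℂ) → Out ι, HolOut c.P U o ∧ ∀ ξ ∈ U, c.Sol (cfg Rc σ) ξ (o ξ) ∧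
      ∀ i ∈ c.P.I, ‖(o ξ).a i - (σ i).ah‖ ≤ (σ i).rd / 4 :=
  ex_gen H hU (τ := fun _ => σ) (η := fun ξ => ξ) h (fun _ _ _ _ => ⟨rfl, rfl⟩)
    (fun _ _ => differentiableOn_const _) (fun _ _ => differentiableOn_const _) differentiableOn_id
    (com_const h)

theorem vl_eq (H : c.Ok) (h : AllG c Rc ξ σ) {o : Out ι} (ho : c.Sol (cfg Rc σ) ξ o)
    (hh : Half c.P (ahs σ) (rds σ) o) : vl c.P c.Sol Rc σ ξ = o.v := by
  obtain ⟨o', h1, h2, h3⟩ := Classical.epsilon_spec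
    (p := fun v => ∃ o, c.Sol (cfg Rc σ) ξ o ∧ Half c.P (ahs σ) (rds σ) o ∧ o.v = v)
    ⟨o.v, o, ho, hh, rfl⟩
  exact h3.symm.trans (H.loc.uq _ _ _ _ _ _ (h.good H) h1 ho h2 hh).1

theorem AllG.half (H : c.Ok) (h : AllG c Rc ξ σ) {o : Out ι}
    (h1 : ∀ i ∈ c.P.I, ‖o.a i - (σ i).ah‖ ≤ (σ i).rd / 4) : Half c.P (ahs σ) (rds σ) o :=
  fun i hi => by
    have := (h.ends i hi).side.rd_pos H
    exact (h1 i hi).trans (by simp only [rds]; linarith)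

theorem vl_spec (H : c.Ok) (h : AllG c Rc ξ σ) : ∃ o, c.Sol (cfg Rc σ) ξ o ∧
    (∀ i ∈ c.P.I, ‖o.a i - (σ i).ah‖ ≤ (σ i).rd / 4) ∧ Half c.P (ahs σ) (rds σ) o ∧
      vl c.P c.Sol Rc σ ξ = o.v := by
  obtain ⟨o, -, h1⟩ := ex_gen H (E := ℂ) isOpen_univ (τ := fun _ => σ) (η := fun _ => ξ)
    (fun _ _ => h) (fun _ _ _ _ => ⟨rfl, rfl⟩) (fun _ _ => differentiableOn_const _)
    (fun _ _ => differentiableOn_const _) (differentiableOn_const _) (com_const fun _ _ => h)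
  obtain ⟨h2, h3⟩ := h1 0 (mem_univ _)
  exact ⟨o 0, h2, h3, h.half H h3, vl_eq H h h2 (h.half H h3)⟩

theorem vl_hol (H : c.Ok) {U : Set (ι → ℂ)} (hU : IsOpen U) (h : ∀ ξ ∈ U, AllG c Rc ξ σ) :
    DifferentiableOn ℂ (vl c.P c.Sol Rc σ) U := by
  obtain ⟨o, h1, h2⟩ := exists_hol H hU h
  exact h1.v.congr fun ξ hξ => vl_eq H (h ξ hξ) (h2 ξ hξ).1 ((h ξ hξ).half H (h2 ξ hξ).2)

theorem vl_rep (H : c.Ok) (h : AllG c Rc ξ σ) (h' : AllG c Rc ξ σ')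
    (he : ∀ i ∈ c.P.I, ‖(σ i).ah - (σ' i).ah‖ + (σ i).rd / 4 ≤ (σ' i).rd / 2 ∧
      ∃ φ, Rep φ (σ i).γ (σ' i).γ 1) : vl c.P c.Sol Rc σ' ξ = vl c.P c.Sol Rc σ ξ := by
  obtain ⟨o, h1, h2, -, h3⟩ := vl_spec H h
  obtain ⟨o', h4, h5, h6⟩ := H.spec.rep (cfg Rc σ) (cfg Rc σ') ξ o h1 rfl fun i hi =>
    ⟨rfl, (h.ends i hi).adm _ (by
      have := (h.ends i hi).side.rd_pos H
      rw [mem_closedBall, dist_eq_norm]
      linarith [h2 i hi]), (h'.ends i hi).ok H, (he i hi).2⟩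
  rw [h3, ← h5]
  refine vl_eq H h' h4 fun i hi => ?_
  have k := norm_sub_le_norm_sub_add_norm_sub (o.a i) (σ i).ah (σ' i).ah
  simp only [ahs, rds, h6 i hi]
  linarith [h2 i hi, (he i hi).1]

theorem AllG.congr (h : AllG c Rc ξ σ) (he : ∀ i ∈ c.P.I, σ' i = σ i) : AllG c Rc ξ σ' :=
  ⟨h.xi, h.rc, fun i hi => (he i hi).symm ▸ h.ends i hi⟩

/-- only the ends in `I` matter (by `Spec0.rep` with the identity) -/
theorem vl_congr (H : c.Ok) (h : AllG c Rc ξ σ) (he : ∀ i ∈ c.P.I, σ' i = σ i) :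
    vl c.P c.Sol Rc σ' ξ = vl c.P c.Sol Rc σ ξ :=
  vl_rep H h (h.congr he) fun i hi => by
    have := (h.ends i hi).side.rd_pos H
    rw [he i hi, sub_self, norm_zero]
    exact ⟨by linarith, id, Rep.refl _⟩

theorem vl_cone (H : c.Ok) {R' : ℝ} (h : AllG c Rc ξ σ) (h' : AllG c R' ξ σ) :
    ‖vl c.P c.Sol Rc σ ξ - vl c.P c.Sol R' σ ξ‖ ≤ c.C * Real.exp (-(min Rc R' / 5)) +
      c.C / c.ρ * ∑ i ∈ c.P.I, Real.exp (-(((σ i).γ.ze 1).re / 4)) := by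
  obtain ⟨o, h1, -, h2, h3⟩ := vl_spec H h
  obtain ⟨o', h1', -, h2', h3'⟩ := vl_spec H h'
  rw [h3, h3']
  exact H.loc.cone _ _ (cfg Rc σ) ξ o R' o' (h.good H) (h'.good H) h1 h1' h2 h2' fun _ _ => rfl

theorem AllG.swap {i : ι} (h : AllG c Rc ξ (Function.update σ i s)) (hs : EndG c (ξ i) s') :
    AllG c Rc ξ (Function.update σ i s') := by
  simpa only [Function.update_idem] using h.update hs

theorem AllG.err_nonneg (H : c.Ok) {i : ι} (h : AllG c Rc ξ (Function.update σ i s)) {W : ι → ℝ}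
    (hW : ∀ k ∈ c.P.I, k ≠ i → Wt (σ k) (W k)) :
    0 ≤ ∑ k ∈ c.P.I.erase i, W k + Real.exp (-(Rc / 5)) := by
  refine add_nonneg (Finset.sum_nonneg fun k hk => ?_) (Real.exp_pos _).le
  obtain ⟨h1, h2⟩ := Finset.mem_erase.1 hk
  have h3 := (h.ends k h2).side.rd_pos H
  rw [Function.update_of_ne h1] at h3
  exact (hW k h2 h1).nonneg h3.le

theorem Lnm.refl (h : EndG c x s) (hb : 0 ≤ b) (hN : 0 ≤ N) (H : c.Ok) : Lnm c x 0 b N s s :=
  ⟨h, h, fun Rc ξ σ W i hi hx h1 h2 => by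
    have := h1.err_nonneg H h2
    rw [sub_self, sub_self, norm_zero]
    positivity⟩

theorem Lnm.symm (h : Lnm c x m b N s s') : Lnm c x (-m) b N s' s :=
  ⟨h.2.1, h.1, fun Rc ξ σ W i hi hx h1 h2 => by
    have := h.2.2 Rc ξ σ W i hi hx (h1.swap (hx ▸ h.1)) h2
    refine le_trans (le_of_eq ?_) this
    rw [← norm_neg]
    congr 1
    ring⟩

theorem Lnm.trans (h : Lnm c x m b N s s') (h' : Lnm c x m' b' N' s' s'') :
    Lnm c x (m + m') (b + b') (N + N') s s'' :=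
  ⟨h.1, h'.2.1, fun Rc ξ σ W i hi hx h1 h2 => by
    have k1 := h.2.2 Rc ξ σ W i hi hx h1 h2
    have k2 := h'.2.2 Rc ξ σ W i hi hx (h1.swap (hx ▸ h.2.1)) h2
    refine le_trans (le_of_eq ?_) ((norm_add_le _ _).trans ((add_le_add k1 k2).trans
      (le_of_eq (by ring))))
    congr 1
    ring⟩

theorem Lnm.mono (H : c.Ok) (h : Lnm c x m b N s s') (hb : b ≤ b') (hN : N ≤ N') :
    Lnm c x m b' N' s s' :=
  ⟨h.1, h.2.1, fun Rc ξ σ W i hi hx h1 h2 => (h.2.2 Rc ξ σ W i hi hx h1 h2).trans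
    (add_le_add hb (mul_le_mul_of_nonneg_right hN (h1.err_nonneg H h2)))⟩

theorem Lnm.eqv_left (h : Eqv c x s s') (h' : Lnm c x m b N s' s'') : Lnm c x m b N s s'' := by
  simpa only [zero_add] using Lnm.trans h h'

theorem Lnm.eqv_right (h : Lnm c x m b N s s') (h' : Eqv c x s' s'') : Lnm c x m b N s s'' := by
  simpa only [add_zero] using Lnm.trans h h'

theorem Eqv.refl (H : c.Ok) (h : EndG c x s) : Eqv c x s s := Lnm.refl h le_rfl le_rfl H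

theorem Eqv.symm (h : Eqv c x s s') : Eqv c x s' s := by
  simpa only [neg_zero, Eqv] using Lnm.symm h

theorem Eqv.trans (h : Eqv c x s s') (h' : Eqv c x s' s'') : Eqv c x s s'' :=
  Lnm.eqv_left h h'

theorem Eqv.lnk (H : c.Ok) (h : Eqv c x s s') (hN : 0 ≤ N) (hw : 0 ≤ w) : Lnk c x N w s s' :=
  Lnm.mono H h (mul_nonneg hN hw) hN

theorem Lnk.symm (h : Lnk c x N w s s') : Lnk c x N w s' s := by
  simpa only [neg_zero, Lnk] using Lnm.symm h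

theorem Lnk.trans (h : Lnk c x N w s s') (h' : Lnk c x N' w s' s'') : Lnk c x (N + N') w s s'' := by
  simpa only [add_zero, Lnk, add_mul] using Lnm.trans h h'

theorem Lnk.mono (H : c.Ok) (h : Lnk c x N w s s') (h0 : 0 ≤ N) (hN : N ≤ N') (hw : w ≤ w')
    (hw0 : 0 ≤ w') : Lnk c x N' w' s s' :=
  Lnm.mono H h ((mul_le_mul_of_nonneg_left hw h0).trans (mul_le_mul_of_nonneg_right hN hw0)) hN

theorem Lnk.eqv_left (h : Eqv c x s s') (h' : Lnk c x N w s' s'') : Lnk c x N w s s'' :=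
  Lnm.eqv_left h h'

theorem Lnk.eqv_right (h : Lnk c x N w s s') (h' : Eqv c x s' s'') : Lnk c x N w s s'' :=
  Lnm.eqv_right h h'

/-- the ends are changed one after the other -/
theorem tele_m (H : c.Ok) (hN : 0 ≤ N) (h : AllG c Rc ξ σ) {m : ι → ℂ} {b W : ι → ℝ}
    (hl : ∀ i ∈ c.P.I, Lnm c (ξ i) (m i) (b i) N (σ i) (σ' i))
    (hw : ∀ i ∈ c.P.I, Wt (σ i) (W i) ∧ Wt (σ' i) (W i)) :
    ‖vl c.P c.Sol Rc σ ξ - vl c.P c.Sol Rc σ' ξ - ∑ i ∈ c.P.I, m i‖ ≤ ∑ i ∈ c.P.I, b i +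
      c.P.I.card * N * (∑ i ∈ c.P.I, W i + Real.exp (-(Rc / 5))) := by
  have key : ∀ J : Finset ι, J ⊆ c.P.I → AllG c Rc ξ (J.piecewise σ' σ) ∧
      ‖vl c.P c.Sol Rc σ ξ - vl c.P c.Sol Rc (J.piecewise σ' σ) ξ - ∑ i ∈ J, m i‖ ≤
        ∑ i ∈ J, b i + J.card * N * (∑ i ∈ c.P.I, W i + Real.exp (-(Rc / 5))) := by
    intro J
    induction J using Finset.induction_on with
    | empty => exact fun _ => ⟨by simpa using h, by simp⟩
    | insert i J hi ih =>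
      intro hJ
      have h1 : i ∈ c.P.I := hJ (Finset.mem_insert_self i J)
      obtain ⟨h2, h3⟩ := ih ((Finset.subset_insert i J).trans hJ)
      have h4 : Function.update (J.piecewise σ' σ) i (σ i) = J.piecewise σ' σ := by
        rw [← Finset.piecewise_eq_of_notMem J σ' σ hi, Function.update_eq_self]
      have h5 := (hl i h1).2.2 Rc ξ (J.piecewise σ' σ) W i h1 rfl (h4.symm ▸ h2) fun k hk _ => by
        by_cases e : k ∈ J
        · rw [Finset.piecewise_eq_of_mem _ _ _ e]; exact (hw k hk).2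
        · rw [Finset.piecewise_eq_of_notMem _ _ _ e]; exact (hw k hk).1
      rw [h4] at h5
      rw [Finset.piecewise_insert, Finset.sum_insert hi, Finset.sum_insert hi,
        Finset.card_insert_of_notMem hi]
      refine ⟨h2.update (hl i h1).2.1, ?_⟩
      have h6 : ∑ k ∈ c.P.I.erase i, W k ≤ ∑ k ∈ c.P.I, W k := by
        have k1 := Finset.add_sum_erase c.P.I W h1
        linarith [(hw i h1).1.nonneg ((h.ends i h1).side.rd_pos H).le]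
      have h7 := mul_le_mul_of_nonneg_left h6 hN
      refine le_trans (le_of_eq ?_) ((norm_add_le _ _).trans ((add_le_add h3 h5).trans ?_))
      · congr 1; ring
      · push_cast; linarith
  obtain ⟨h1, h2⟩ := key c.P.I subset_rfl
  rwa [← vl_congr H h1 fun i hi => (Finset.piecewise_eq_of_mem _ _ _ hi).symm] at h2

theorem tele (H : c.Ok) (hN : 0 ≤ N) (h : AllG c Rc ξ σ) {W : ι → ℝ}
    (hl : ∀ i ∈ c.P.I, Lnk c (ξ i) N (W i) (σ i) (σ' i))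
    (hw : ∀ i ∈ c.P.I, Wt (σ i) (W i) ∧ Wt (σ' i) (W i)) :
    ‖vl c.P c.Sol Rc σ ξ - vl c.P c.Sol Rc σ' ξ‖ ≤
      (c.P.I.card + 1) * N * (∑ i ∈ c.P.I, W i + Real.exp (-(Rc / 5))) := by
  have h1 := tele_m H hN h (m := fun _ => 0) (b := fun i => N * W i) hl hw
  rw [Finset.sum_const_zero, sub_zero, ← Finset.mul_sum] at h1
  nlinarith [mul_nonneg hN (Real.exp_pos (-(Rc / 5))).le]

theorem tele_eqv (H : c.Ok) (h : AllG c Rc ξ σ) (hl : ∀ i ∈ c.P.I, Eqv c (ξ i) (σ i) (σ' i)) :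
    vl c.P c.Sol Rc σ ξ = vl c.P c.Sol Rc σ' ξ := by
  have h1 := tele_m H le_rfl h (m := fun _ => 0) (b := fun _ => 0) hl
    fun i hi => ⟨(hl i hi).1.wt H (hl i hi).1.lo, (hl i hi).2.1.wt H (hl i hi).2.1.lo⟩
  simpa [sub_eq_zero] using h1

theorem eqv_of_rep (H : c.Ok) (h : EndG c x s) (h' : EndG c x s')
    (hd : ‖s.ah - s'.ah‖ + s.rd / 4 ≤ s'.rd / 2) {φ : ℝ → ℝ} (hφ : Rep φ s.γ s'.γ 1) :
    Eqv c x s s' :=
  ⟨h, h', fun Rc ξ σ W i hi hx h1 _ => by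
    rw [vl_rep H h1 (h1.swap (s' := s') (hx ▸ h')) fun k hk => ?_]
    · simp
    by_cases e : k = i
    · subst e
      simpa using ⟨hd, φ, hφ⟩
    · have := (h1.ends k hk).side.rd_pos H
      simp only [Function.update_of_ne e] at this ⊢
      rw [sub_self, norm_zero]
      exact ⟨by linarith, id, Rep.refl _⟩⟩

/-- change of the disc -/
theorem eqv_disc (H : c.Ok) (h : EndG c x ⟨ah, rd, γ⟩) (h' : EndG c x ⟨ah', rd', γ⟩)
    (hd : ‖ah - ah'‖ + rd / 4 ≤ rd' / 2) : Eqv c x ⟨ah, rd, γ⟩ ⟨ah', rd', γ⟩ :=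
  eqv_of_rep H h h' hd (Rep.refl γ)

/-- change of the parametrisation -/
theorem eqv_rep (H : c.Ok) (h : EndG c x ⟨ah, rd, γ⟩) (h' : EndG c x ⟨ah, rd, γ'⟩)
    (hr : rng γ' ⊆ rng γ) (he : γ'.ze 1 = γ.ze 1) : Eqv c x ⟨ah, rd, γ⟩ ⟨ah, rd, γ'⟩ := by
  obtain ⟨t₀, h1, h2, φ, h3⟩ := rep_of_rng (h.ok H) (h'.ok H) h.mono h'.mono
    ((h'.st H).trans (h.st H).symm) hr
  have h4 : t₀ = 1 := h.mono.injOn h1 (right_mem_Icc.2 zero_le_one)
    (congrArg Complex.re (h2.trans he))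
  have h5 := h.side.rd_pos H
  exact eqv_of_rep H h h' (by simp only [sub_self, norm_zero] at h5 ⊢; linarith) (h4 ▸ h3)

/-- the identity theorem -/
theorem eqv_hol (H : c.Ok) {D : Set ℂ} (hD : IsOpen D) (hc : IsPreconnected D) {γ : ℂ → Path}
    (dz : DifferentiableOn ℂ (fun m => (γ m).ze) D) (dg : DifferentiableOn ℂ (fun m => (γ m).g) D)
    (hG : ∀ m ∈ D, EndG c x ⟨ah, rd, γ m⟩)
    (hcom : ∃ t₁ ∈ Icc (0 : ℝ) 1, ∀ m ∈ D, 1 / (c.M * c.ρ) ≤ ((γ m).ze t₁).re ∧ ∀ t ∈ Icc 0 t₁,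
      ((γ m).ze t).im = 0 ∧ ∀ m' ∈ D, (γ m).ze t = (γ m').ze t)
    {m₀ : ℂ} (hm₀ : m₀ ∈ D) (hf : ∃ᶠ m in 𝓝[≠] m₀, Eqv c x ⟨ah, rd, γ m⟩ s) :
    ∀ m ∈ D, Eqv c x ⟨ah, rd, γ m⟩ s := by
  intro m hm
  obtain ⟨m₁, h₁⟩ := hf.exists
  refine ⟨hG m hm, h₁.2.1, fun Rc ξ σ W i hi hx h1 h2 => ?_⟩
  have h3 : ∀ p ∈ D, AllG c Rc ξ (Function.update σ i ⟨ah, rd, γ p⟩) := fun p hp =>
    h1.swap (hx ▸ hG p hp)
  obtain ⟨o, h4, h5⟩ := ex_gen H hD (τ := fun p => Function.update σ i ⟨ah, rd, γ p⟩)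
    (η := fun _ => ξ) (a := fun k => (Function.update σ i ⟨ah, rd, γ m⟩ k).ah)
    (r := fun k => (Function.update σ i ⟨ah, rd, γ m⟩ k).rd) h3
    (fun p _ k _ => by by_cases e : k = i <;> simp [e])
    (fun k _ => by by_cases e : k = i <;> simp [e, dz])
    (fun k _ => by by_cases e : k = i <;> simp [e, dg]) (differentiableOn_const _) (fun k hk => by
      by_cases e : k = i
      · simpa [cfg, e] using hcom
      · obtain ⟨t₁, k1, k2, k3⟩ := (h1.ends k hk).pre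
        simp only [cfg, Function.update_of_ne e] at k2 k3 ⊢
        exact ⟨t₁, k1, fun _ _ => ⟨k3, fun t ht => ⟨k2 t ht, fun _ _ => trivial⟩⟩⟩)
  have h6 : ∀ p ∈ D, vl c.P c.Sol Rc (Function.update σ i ⟨ah, rd, γ p⟩) ξ = (o p).v :=
    fun p hp => vl_eq H (h3 p hp) (h5 p hp).1 ((h3 p hp).half H fun k hk => by
      have := (h5 p hp).2 k hk
      by_cases e : k = i <;> simpa [e] using this)
  have h7 : ∃ᶠ p in 𝓝[≠] m₀, (o p).v = vl c.P c.Sol Rc (Function.update σ i s) ξ := by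
    refine (hf.and_eventually (mem_nhdsWithin_of_mem_nhds (hD.mem_nhds hm₀))).mono fun p hp => ?_
    have := hp.1.2.2 Rc ξ σ W i hi hx (h3 p hp.2) h2
    rw [← h6 p hp.2]
    simpa [sub_eq_zero] using this
  have h8 := (h4.v.analyticOnNhd hD).eqOn_of_preconnected_of_frequently_eq
    analyticOnNhd_const hc hm₀ h7 hm
  rw [h6 m hm, show (o m).v = _ from h8]
  simp

end Vale.Agent.P218N.J
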